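import Crest.Agent.N265.M.Fam1

/-!
# Row 265, families of lattices, part B: syzygies, variations, pull-back, pairs of ideals
-/

set_option autoImplicit false
set_option linter.dupNamespace false
noncomputable section
open MvPolynomial Module TensorProduct

namespace Crest.Agent.N265.M
open Crest.Agent.R274
open Defs_781 Lat_781 SnapA_99 SnapB_99 SnapE_99 Gen7_750 Xs1_781 SkDefs_474
open Alg GV Br N Fib _root_.Crest.Agent.N265.Pow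
variable {Sg : Surf}

lemma Amb.ker_mF (𝔞 : Amb Sg) (j k : ℕ) :
    LinearMap.ker (mF (𝔞.inc j) k) = LinearMap.ker (𝔞.mul j k) := by
  ext t
  rw [LinearMap.mem_ker, LinearMap.mem_ker, ← 𝔞.inc_mul, map_eq_zero_iff _ (𝔞.inc_inj _)]
lemma Amb.KK_eq (𝔞 : Amb Sg) (L : XL Sg 𝔞.M) (p k : ℕ) :
    𝔞.KK L p k = tens (𝔞.pc L p) ⊤ ⊓ LinearMap.ker (𝔞.mul p k) := by rw [Amb.KK, 𝔞.ker_mF]

variable {𝔞 𝔟 : Amb Sg} {X Y : Spc} {p : ℕ} {L L₁ : Pt → XL Sg 𝔞.M} {L' L₁' : Pt → XL Sg 𝔟.M}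
namespace LFam
lemma isAB_tens (h : LFam 𝔞 X p L) {j : ℕ} (hj : p ≤ j) (k : ℕ) :
    IsAB X (WA Sg (𝔞.G j) k) fun x => tens (𝔞.pc (L x) j) ⊤ :=
  (h.ab j hj).tens (IsAB.top (in_triv _))
lemma isAB_KK (h : LFam 𝔞 X p L) (k : ℕ) :
    IsAB X (WA Sg (𝔞.G p) k) fun x => 𝔞.KK (L x) p k :=
  ((h.isAB_tens le_rfl k).ker_of_map (IsRM.const (𝔞.deg0_mul p k))
    ((h.ab (k + p) (Nat.le_add_left _ _)).congr fun x hx =>
      (Amb.map_mul_pc (h.le x hx) (h.reg x hx) le_rfl k).symm)).congr fun _ _ =>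
        (𝔞.KK_eq _ p k).symm
lemma isAB_den (h : LFam 𝔞 X p L) (h' : LFam 𝔟 X p L') :
    IsAB X (𝔞.HG 𝔟 p) fun x => 𝔞.den 𝔟 (L x) (L' x) p :=
  (h.isAB_KK 3).homMap (h'.ab (3 + p) (Nat.le_add_left _ _))
lemma isAB_stab (h : LFam 𝔞 X p L) (h' : LFam 𝔟 X p L') :
    IsAB X (𝔞.EG 𝔟 p) fun x => 𝔞.stab 𝔟 (L x) (L' x) p :=
  (h.ab p le_rfl).homMap (h'.ab p le_rfl)
/-- variations in different degrees are compatible with the multiplication -/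
theorem ks_mul (h : LFam 𝔞 X p L) {x ξ : Pt} (hx : x ∈ X.pts) (hξ : ξ ∈ X.Tan x) {j k : ℕ}
    (hj : p ≤ j) {φ : (𝔞.G j).V →ₗ[ℂ] (𝔞.G j).V} {χ : (𝔞.G (k + j)).V →ₗ[ℂ] (𝔞.G (k + j)).V}
    (hφ : KS X (V := 𝔞.G j) (fun y => 𝔞.pc (L y) j) hx ξ φ)
    (hχ : KS X (V := 𝔞.G (k + j)) (fun y => 𝔞.pc (L y) (k + j)) hx ξ χ) :
    ∀ t ∈ tens (𝔞.pc (L x) j) ⊤,
      𝔞.mul j k (LinearMap.rTensor _ φ t) - χ (𝔞.mul j k t) ∈ 𝔞.pc (L x) (k + j) := by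
  have hd := Spc.pder_pd hx hξ
  have key : tens (𝔞.pc (L x) j) ⊤ ≤ (𝔞.pc (L x) (k + j)).comap
      (𝔞.mul j k ∘ₗ LinearMap.rTensor _ φ - χ ∘ₗ 𝔞.mul j k) := by
    refine tens_le.2 fun w hw a _ => ?_
    let ψ : (𝔞.G j).V →ₗ[ℂ] (𝔞.G (k + j)).V := 𝔞.mul j k ∘ₗ (TensorProduct.mk ℂ _ _).flip a
    have hψ : ∀ v, ψ v = 𝔞.mul j k (v ⊗ₜ a) := fun _ => rfl
    have hm : ∀ y : X.pts, (𝔞.pc (L y.1) j).map ψ ≤ 𝔞.pc (L y.1) (k + j) := by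
      rintro y _ ⟨v, hv, rfl⟩
      rw [hψ]
      exact Amb.mul_mem_pc (tens_le.1 le_rfl v hv a Submodule.mem_top)
    have := IsVar.map hd (h.ab j hj).alg (ψ := fun _ => ψ) (RegM.const _) hm hφ hχ w hw
    rw [hd.dV_const, LinearMap.zero_apply, zero_add, hψ, hψ] at this
    rw [Submodule.mem_comap, LinearMap.sub_apply, LinearMap.comp_apply, LinearMap.comp_apply,
      LinearMap.rTensor_tmul]
    exact this
  exact fun t ht => key ht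
/-- first order variations are multiplicative (`IsVar.map`) -/
theorem ks_mem_Tv (h : LFam 𝔞 X p L) {x ξ : Pt} (hx : x ∈ X.pts) (hξ : ξ ∈ X.Tan x)
    {φ : (𝔞.EG 𝔞 p).V} (hφ : KS X (V := 𝔞.G p) (fun y => 𝔞.pc (L y) p) hx ξ φ) :
    φ ∈ 𝔞.Tv 𝔞 (L x) (L x) p := by
  obtain ⟨χ, hχ⟩ := (Spc.pder_pd hx hξ).exists_isVar (h.ab (3 + p) (Nat.le_add_left _ _)).alg
  intro t ht
  rw [𝔞.KK_eq] at ht
  have := h.ks_mul hx hξ le_rfl hφ hχ t ht.1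
  rw [LinearMap.mem_ker.1 ht.2, map_zero, sub_zero] at this
  exact this
lemma pull_ucl (h : LFam 𝔞 X p L) (q : Proj Y X) {j : ℕ} (hj : p ≤ j) :
    K.pull q (ucl 𝔞 X L j) = ucl 𝔞 Y (fun y => L (restr X.B y)) j := kc_pull (h.ab j hj) q
lemma pull_dcl (h : LFam 𝔞 X p L) (q : Proj Y X) (r : ℕ) :
    K.pull q (dcl 𝔞 X p L r) = dcl 𝔞 Y p (fun y => L (restr X.B y)) r :=
  kc_pull ((h.ab p le_rfl).lamS r) q
lemma pull_Acl (h : LFam 𝔞 X p L) (q : Proj Y X) :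
    K.pull (q.fib_map _) (Acl 𝔞 X p L) = Acl 𝔞 Y p fun y => L (restr X.B y) := by
  have hd : -(p • eB 0) ∈ DS (X.fib (Sg.S 0)).B :=
    neg_mem (by simpa using (base_S Sg 0).eB_mem (X := X) (p : ℤ))
  rw [Acl, Acl, map_mul, K.pull_lbK _ hd, K.pull_pull, ← h.pull_ucl q le_rfl, K.pull_pull]
end LFam

section split
variable {I₁ I₂ : Pt → XL Sg Sg.F}
lemma mem_Gm_piX {ι : Type} [Finite ι] {J : ι → XL Sg Sg.F} {e : ℤ} {v : ι → Sg.F} :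
    v ∈ Gm (piX J).toLat e ↔ ∀ i, v i ∈ Gm (J i).toLat e := by
  simp only [mem_Gm]
  exact (forall_congr' fun _ => mem_piFam).trans forall_comm
lemma mem_pc_pair {J₁ J₂ : XL Sg Sg.F} {j : ℕ} {w : ((r2 Sg).G j).V} :
    w ∈ (r2 Sg).pc (piX ![J₁, J₂]) j ↔ (w 0).1 ∈ Gm J₁.toLat j ∧ (w 1).1 ∈ Gm J₂.toLat j :=
  mem_Gm_piX.trans Fin.forall_fin_two
lemma mem_pc_r1 {k : ℤ} {J : XL Sg Sg.F} {j : ℕ} {w : ((r1 Sg k).G j).V} :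
    w ∈ (r1 Sg k).pc J j ↔ (w ()).1 ∈ Gm J.toLat j := Iff.rfl
/-- first summand -/
def in1 (Sg : Surf) (j : ℕ) : ((r1 Sg 0).G j).V →ₗ[ℂ] ((r2 Sg).G j).V :=
  LinearMap.single ℂ (fun _ : Fin 2 => SA Sg j) 0 ∘ₗ
    LinearMap.proj (R := ℂ) (φ := fun _ : Unit => SA Sg j) ()
/-- second projection -/
def pr2 (Sg : Surf) (j : ℕ) : ((r2 Sg).G j).V →ₗ[ℂ] ((r1 Sg 1).G j).V :=
  LinearMap.pi fun _ => LinearMap.proj (R := ℂ) (φ := fun _ : Fin 2 => SA Sg j) 1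
lemma in1_zero (j : ℕ) (w : ((r1 Sg 0).G j).V) : in1 Sg j w 0 = w () := rfl
lemma in1_one (j : ℕ) (w : ((r1 Sg 0).G j).V) : in1 Sg j w 1 = 0 := rfl
lemma pr2_apply (j : ℕ) (w : ((r2 Sg).G j).V) (u : Unit) : pr2 Sg j w u = w 1 := rfl
lemma deg0_in1 (j : ℕ) : Deg0 ((r1 Sg 0).G j) ((r2 Sg).G j) (in1 Sg j) := fun w => by
  refine funext (Fin.forall_fin_two.2 ⟨rfl, ?_⟩)
  exact (map_zero ((triv (SA Sg j)).shift (1 • eT)).g).symm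
lemma deg0_pr2 (j : ℕ) : Deg0 ((r2 Sg).G j) ((r1 Sg 1).G j) (pr2 Sg j) := fun _ => rfl
lemma ses_pair (J₁ J₂ : XL Sg Sg.F) (j : ℕ) :
    (r1 Sg 0).pc J₁ j ⊓ LinearMap.ker (in1 Sg j) = ⊥ ∧
    ((r1 Sg 0).pc J₁ j).map (in1 Sg j) = (r2 Sg).pc (piX ![J₁, J₂]) j ⊓ LinearMap.ker (pr2 Sg j) ∧
    ((r2 Sg).pc (piX ![J₁, J₂]) j).map (pr2 Sg j) = (r1 Sg 1).pc J₂ j := by
  refine ⟨eq_bot_iff.2 fun w hw => funext fun _ => congrFun (LinearMap.mem_ker.1 hw.2) 0,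
    le_antisymm ?_ fun w hw => ⟨fun _ => w 0, (mem_pc_pair.1 hw.1).1, ?_⟩,
    le_antisymm ?_ fun w hw => ⟨![0, w ()], mem_pc_pair.2 ⟨zero_mem _, hw⟩, rfl⟩⟩
  · rintro _ ⟨w, hw, rfl⟩
    exact ⟨mem_pc_pair.2 ⟨hw, zero_mem _⟩, rfl⟩
  · rintro _ ⟨w, hw, rfl⟩
    exact (mem_pc_pair.1 hw).2
  · exact funext (Fin.forall_fin_two.2 ⟨rfl, (congrFun (LinearMap.mem_ker.1 hw.2) ()).symm⟩)
lemma isAB_r1 {k : ℤ} {I : Pt → XL Sg Sg.F} {j : ℕ}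
    (h : IsAB X ((r1 Sg k).G j) fun x => (r1 Sg k).pc (I x) j) :
    IsAB X ((triv (SA Sg j)).shift (k • eT)) fun x => (Gm (I x).toLat j).comap (SA Sg j).subtype :=
  h.comap_of_inj ((in_triv _).shift (zsmul_mem (eT_mem _) k))
    (f := LinearMap.pi fun _ => LinearMap.id) (fun _ => rfl) (fun _ _ e => congrFun e ())
    fun _ _ w _ => ⟨w (), rfl⟩
lemma LFam.pair (h₁ : LFam (r1 Sg 0) X p I₁) (h₂ : LFam (r1 Sg 1) X p I₂) :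
    LFam (r2 Sg) X p fun x => piX ![I₁ x, I₂ x] where
  two := h₁.two
  le x hx J hJ v hv := by
    rw [r2_O J hJ]
    refine mem_piFam.2 (Fin.forall_fin_two.2 ⟨?_, ?_⟩)
    · rw [← r1_O 0 J hJ]; exact h₁.le x hx J hJ (mem_piFam.1 hv 0)
    · rw [← r1_O 1 J hJ]; exact h₂.le x hx J hJ (mem_piFam.1 hv 1)
  reg x hx := RegL.pi (Fin.forall_fin_two.2 ⟨h₁.reg x hx, h₂.reg x hx⟩)
  hp := by
    obtain ⟨d₁, c₁, e₁⟩ := h₁.hp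
    obtain ⟨d₂, c₂, e₂⟩ := h₂.hp
    refine ⟨d₁ + d₂, c₁ + c₂, fun x hx => funext fun e => ?_⟩
    refine (cL_pi (fun a => (![I₁ x, I₂ x] a).toLat) e).trans ?_
    rw [Fin.sum_univ_two]
    change cL (I₁ x).toLat e + cL (I₂ x).toLat e = _
    rw [e₁ x hx, e₂ x hx]
    simp only [HP, Fintype.card_unit, Fintype.card_fin]
    push_cast
    ring
  ab j hj := by
    refine (IsAB.pi (V := fun a : Fin 2 => (triv (SA Sg j)).shift (((a : ℕ) : ℤ) • eT))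
      (L := fun a x => (Gm (![I₁ x, I₂ x] a).toLat j).comap (SA Sg j).subtype)
      (Fin.forall_fin_two.2 ⟨isAB_r1 (h₁.ab j hj), isAB_r1 (h₂.ab j hj)⟩)).congr fun x _ => ?_
    ext w
    rw [Submodule.mem_pi, mem_pc_pair]
    exact ⟨fun h => ⟨h 0 trivial, h 1 trivial⟩,
      fun h => Fin.forall_fin_two.2 ⟨fun _ => h.1, fun _ => h.2⟩⟩
lemma ucl_pair (h₁ : LFam (r1 Sg 0) X p I₁) (h₂ : LFam (r1 Sg 1) X p I₂) {j : ℕ} (hj : p ≤ j) :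
    ucl (r2 Sg) X (fun x => piX ![I₁ x, I₂ x]) j = ucl (r1 Sg 0) X I₁ j + ucl (r1 Sg 1) X I₂ j :=
  kc_ses (h₁.ab j hj) ((h₁.pair h₂).ab j hj) (h₂.ab j hj) (IsRM.const (deg0_in1 j))
    (IsRM.const (deg0_pr2 j)) fun _ _ => ses_pair _ _ j
/-- `kl_det_ses` for presentations -/
lemma dcl_pair (h₁ : LFam (r1 Sg 0) X p I₁) (h₂ : LFam (r1 Sg 1) X p I₂) {r₁ r₂ : ℕ}
    (e₁ : ∀ x ∈ X.pts, finrank ℂ ((r1 Sg 0).pc (I₁ x) p) = r₁)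
    (e₂ : ∀ x ∈ X.pts, finrank ℂ ((r1 Sg 1).pc (I₂ x) p) = r₂) :
    dcl (r2 Sg) X p (fun x => piX ![I₁ x, I₂ x]) (r₁ + r₂) =
      dcl (r1 Sg 0) X p I₁ r₁ * dcl (r1 Sg 1) X p I₂ r₂ := by
  obtain ⟨A, hA⟩ := (h₁.ab p le_rfl).exists_pres
  obtain ⟨B, hB⟩ := ((h₁.pair h₂).ab p le_rfl).exists_pres
  obtain ⟨C, hC⟩ := (h₂.ab p le_rfl).exists_pres
  have E := hA.ses hB hC (IsRM.const (deg0_in1 p)) (IsRM.const (deg0_pr2 p))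
    fun _ _ => ses_pair _ _ p
  have rA : A.Rk r₁ := fun x hx => (hA.finrank hx).trans (e₁ x hx)
  have rC : C.Rk r₂ := fun x hx => (hC.finrank hx).trans (e₂ x hx)
  have rB : B.Rk (r₁ + r₂) := fun x hx => by rw [E.finrank hx, rA x hx, rC x hx]
  rw [dcl, dcl, dcl, ← hA.kl_det rA, ← hB.kl_det rB, ← hC.kl_det rC, kl_det_ses E rA rC rB]
lemma Acl_pair (h₁ : LFam (r1 Sg 0) X p I₁) (h₂ : LFam (r1 Sg 1) X p I₂) :
    Acl (r2 Sg) X p (fun x => piX ![I₁ x, I₂ x]) = Acl (r1 Sg 0) X p I₁ + Acl (r1 Sg 1) X p I₂ := by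
  rw [Acl, Acl, Acl, ucl_pair h₁ h₂ le_rfl, map_add, mul_add]
end split

end Crest.Agent.N265.M
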