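import Crest.Agent.N265.M.Fam1
import Crest.Agent.N265.M.Fam2

/-!
# Row 265, families of lattices: basic API (task M-FAM): part A is `M/Fam1`, part B is `M/Fam2`
-/
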