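import Crest.Agent.N265.M.Fam
import Crest.Agent.N265.Fx.Sc

/-! # Row 265, task M-TV0: the formal part of `M/TV` (ranks, pull-backs, splitting, purity) -/

set_option autoImplicit false
set_option linter.dupNamespace false
noncomputable section
open MvPolynomial Module TensorProduct

namespace Crest.Agent.N265.M
open Crest.Agent.R274
open Defs_781 Lat_781 SnapA_99 SnapB_99 SnapE_99 Gen7_750 Xs1_781 SkDefs_474
open Alg GV Br N Fib _root_.Crest.Agent.N265.Pow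
variable {Sg : Surf} {𝔞 𝔟 : Amb Sg} {X Y : Spc} {p : ℕ}

namespace TV0

lemma exists_big (a b : ℤ) : ∃ k : ℕ, b < k * (k - a) := by
  refine ⟨b.natAbs + a.natAbs + 1, ?_⟩
  push_cast
  nlinarith [le_abs_self a, le_abs_self b, abs_nonneg a, abs_nonneg b]

lemma finrank_SA (j : ℕ) : (finrank ℂ (SA Sg j) : ℤ) = Sg.V.chi (j • Sg.V.h) := by
  have := finrank_AA Sg (e := j) (Int.natCast_nonneg j)
  rwa [AA_nat, natCast_zsmul] at this

/-- the Hilbert polynomial forces at least `rk` generators -/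
theorem card_le {L : XL Sg 𝔞.M} (le : LeL L 𝔞.O) (hr : RegL L.toLat p) {d : ℕ} {c : ℤ}
    (hp : cL L.toLat = HP Sg (Fintype.card 𝔞.ι) d c) :
    Fintype.card 𝔞.ι ≤ finrank ℂ (𝔞.pc L p) := by
  by_contra hlt
  have hlt' : (finrank ℂ (𝔞.pc L p) : ℤ) + 1 ≤ Fintype.card 𝔞.ι := by omega
  obtain ⟨k, hk⟩ := exists_big (1 - 2 * (Sg.V.chi Sg.V.h - Sg.V.chi 0) + 2 * d)
    (2 * (d * p + c - Fintype.card 𝔞.ι * (Sg.V.chi (p • Sg.V.h) - Sg.V.chi 0)) - 2 * Sg.V.chi 0)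
  have h1 : finrank ℂ (𝔞.pc L (k + p)) ≤ finrank ℂ (𝔞.pc L p) * finrank ℂ (SA Sg k) := by
    rw [← Amb.map_mul_pc le hr le_rfl k]
    have : Module.Finite ℂ (tens (𝔞.pc L p) (⊤ : Submodule ℂ (SA Sg k))) :=
      @Submodule.finiteDimensional_of_le _ _ _ _ _ _ ⊤
        (@Module.Finite.top _ _ _ _ _ (WA Sg (𝔞.G p) k).fd) le_top
    exact (Submodule.finrank_map_le _ _).trans (by rw [finrank_tens, finrank_top])
  have h2 := Amb.finrank_pc le hr (j := k + p) (by omega)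
  rw [hp, HP, natCast_zsmul, add_smul, Ch.chi_twn, Ch.dg, Ch.ip_nsmul_left] at h2
  have h3 := Ch.chi_nsmul Sg.V Sg.V.h k
  have h4 : 0 < Ch.ip Sg.V Sg.V.h Sg.V.h := Ch.dg_h_pos Sg.V
  have h5 : (finrank ℂ (𝔞.pc L (k + p)) : ℤ) ≤
      finrank ℂ (𝔞.pc L p) * (finrank ℂ (SA Sg k) : ℤ) := by exact_mod_cast h1
  have h6 : (0 : ℤ) ≤ finrank ℂ (SA Sg k) := Int.natCast_nonneg _
  have h7 := mul_le_mul_of_nonneg_right hlt' h6
  rw [finrank_SA] at h5 h7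
  have h8 : (0 : ℤ) ≤ Fintype.card 𝔞.ι * (p * (k * Ch.ip Sg.V Sg.V.h Sg.V.h)) := by positivity
  have h9 : (0 : ℤ) ≤ k * (k - 1) := by
    rcases k with _ | k
    · simp
    · push_cast; exact mul_nonneg (by positivity) (by linarith)
  have h10 := mul_le_mul_of_nonneg_left (show (1 : ℤ) ≤ Ch.ip Sg.V Sg.V.h Sg.V.h from h4) h9
  push_cast at h2
  linarith

lemma eB_mem' (X : Spc) (j : ℕ) : -(j • eB 0) ∈ DS (X.fib (Sg.S 0)).B :=
  neg_mem (nsmul_mem (N265.eB_mem (Finset.mem_union_right _ (Finset.mem_singleton_self 0))) j)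

lemma mulS_mono {M : Type} [AddCommGroup M] [Module ℂ M] {k : ℕ} {P P' : Submodule ℂ (SA Sg 1)}
    (h : P ≤ P') (T : Submodule ℂ (M ⊗[ℂ] SA Sg k)) : mulS Sg P T ≤ mulS Sg P' T :=
  Submodule.map_mono (tens_mono h le_rfl)

lemma mulS_sup {M : Type} [AddCommGroup M] [Module ℂ M] {k : ℕ} (P : Submodule ℂ (SA Sg 1))
    (T T' : Submodule ℂ (M ⊗[ℂ] SA Sg k)) : mulS Sg P (T ⊔ T') = mulS Sg P T ⊔ mulS Sg P T' := by
  rw [mulS, tens_sup_right, Submodule.map_sup]; rfl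

lemma muW_nat {M M' : Type} [AddCommGroup M] [Module ℂ M] [AddCommGroup M'] [Module ℂ M']
    (f : M →ₗ[ℂ] M') (k : ℕ) :
    muW Sg M' k ∘ₗ TensorProduct.map LinearMap.id (LinearMap.rTensor _ f) =
      LinearMap.rTensor _ f ∘ₗ muW Sg M k := by
  refine TensorProduct.ext' fun l t => ?_
  induction t using TensorProduct.induction_on with
  | zero => simp
  | tmul w a => simp [muW]
  | add s t hs ht => simp only [tmul_add, map_add, hs, ht]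

lemma mulS_map {M M' : Type} [AddCommGroup M] [Module ℂ M] [AddCommGroup M'] [Module ℂ M']
    (f : M →ₗ[ℂ] M') {k : ℕ} (P : Submodule ℂ (SA Sg 1)) (T : Submodule ℂ (M ⊗[ℂ] SA Sg k)) :
    mulS Sg P (T.map (LinearMap.rTensor _ f)) = (mulS Sg P T).map (LinearMap.rTensor _ f) := by
  rw [mulS, mulS, ← Submodule.map_comp, ← muW_nat, Submodule.map_comp, tens_map, Submodule.map_id]

/-- a family that splits along two constant maps -/
lemma kc_split {V V₁ V₂ : GV} (hV : V.In X.B) {i₁ : V₁.V →ₗ[ℂ] V.V} {i₂ : V₂.V →ₗ[ℂ] V.V}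
    (d₁ : Deg0 V₁ V i₁) (d₂ : Deg0 V₂ V i₂) (inj : Function.Injective (i₁.coprod i₂))
    {L : Pt → Submodule ℂ V.V} {L₁ : Pt → Submodule ℂ V₁.V} {L₂ : Pt → Submodule ℂ V₂.V}
    (h₁ : IsAB X V₁ L₁) (h₂ : IsAB X V₂ L₂)
    (e : ∀ x ∈ X.pts, L x = (L₁ x).map i₁ ⊔ (L₂ x).map i₂) :
    kc X V L = kc X V₁ L₁ + kc X V₂ L₂ := by
  have hφ := (IsRM.const (X := X) d₁).coprod (IsRM.const d₂)
  have k0 : ∀ x ∈ X.pts, (L₁ x).prod (L₂ x) ⊓ LinearMap.ker (i₁.coprod i₂) = ⊥ := fun x _ => by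
    rw [LinearMap.ker_eq_bot.2 inj, inf_bot_eq]
  have e' : ∀ x ∈ X.pts, ((L₁ x).prod (L₂ x)).map (i₁.coprod i₂) = L x := fun x hx => by
    rw [LinearMap.map_coprod_prod, e x hx]
  rw [← kc_prod h₁ h₂]
  exact (kc_iso (h₁.prod h₂) (((h₁.prod h₂).map_of_inj hV hφ k0).congr e') hφ
    fun x hx => ⟨k0 x hx, e' x hx⟩).symm

lemma deg0_rTensor {V W : GV} {f : V.V →ₗ[ℂ] W.V} (h : Deg0 V W f) (k : ℕ) :
    Deg0 (WA Sg V k) (WA Sg W k) (LinearMap.rTensor _ f) := fun t => by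
  induction t using TensorProduct.induction_on with
  | zero => simp only [map_zero]
  | tmul w a => exact congrArg (· ⊗ₜ[ℂ] a) (h w)
  | add s t hs ht => simp only [map_add, hs, ht]

/-- functoriality of the syzygy modules -/
lemma rTensor_mem_KK {L : XL Sg 𝔞.M} {L' : XL Sg 𝔟.M} {f : (𝔞.G p).V →ₗ[ℂ] (𝔟.G p).V}
    (g : 𝔞.M →ₗ[Sg.F] 𝔟.M) (e : ∀ w, 𝔟.inc p (f w) = g (𝔞.inc p w))
    (m : ∀ v ∈ Gm L.toLat p, g v ∈ Gm L'.toLat p) {k : ℕ} {t : (WA Sg (𝔞.G p) k).V}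
    (ht : t ∈ 𝔞.KK L p k) : LinearMap.rTensor _ f t ∈ 𝔟.KK L' p k := by
  have key : ∀ t : (𝔞.G p).V ⊗[ℂ] SA Sg k,
      mF (𝔟.inc p) k (LinearMap.rTensor _ f t) = g (mF (𝔞.inc p) k t) := fun t => by
    induction t using TensorProduct.induction_on with
    | zero => simp only [map_zero]
    | tmul w a => rw [LinearMap.rTensor_tmul, mF_tmul, mF_tmul, e, map_smul]
    | add s t hs ht => simp only [map_add, hs, ht]
  refine ⟨?_, ?_⟩
  · refine (tens_le (N := (tens (𝔟.pc L' p) ⊤).comap (LinearMap.rTensor _ f))).2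
      (fun v hv a _ => ?_) ht.1
    refine tmul_mem ?_ Submodule.mem_top
    rw [Amb.mem_pc, e]
    exact m _ hv
  · change mF (𝔟.inc p) k (LinearMap.rTensor _ f t) = 0
    rw [key, show mF (𝔞.inc p) k t = 0 from ht.2, map_zero]

section pair
variable (Sg p)
/-- inclusion of the `i`-th summand -/
def ii (k : ℤ) (i : Fin 2) : ((r1 Sg k).G p).V →ₗ[ℂ] ((r2 Sg).G p).V :=
  LinearMap.single ℂ (fun _ : Fin 2 => SA Sg p) i ∘ₗ
    LinearMap.proj (R := ℂ) (φ := fun _ : Unit => SA Sg p) ()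
/-- projection to the `i`-th summand -/
def pp (k : ℤ) (i : Fin 2) : ((r2 Sg).G p).V →ₗ[ℂ] ((r1 Sg k).G p).V :=
  LinearMap.pi fun _ => LinearMap.proj (R := ℂ) (φ := fun _ : Fin 2 => SA Sg p) i
variable {Sg p}
lemma ii_apply (k : ℤ) (i : Fin 2) (w : ((r1 Sg k).G p).V) :
    ii Sg p k i w = Pi.single (M := fun _ : Fin 2 => SA Sg p) i (w ()) := rfl
lemma pp_apply (k : ℤ) (i : Fin 2) (w : ((r2 Sg).G p).V) (u : Unit) : pp Sg p k i w u = w i := rfl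

lemma deg0_ii (i : Fin 2) : Deg0 ((r1 Sg (i : ℕ)).G p) ((r2 Sg).G p) (ii Sg p (i : ℕ) i) :=
  fun w => funext fun j => by
    change (Pi.single (M := fun _ : Fin 2 => SA Sg p) i (chi (((i : ℕ) : ℤ) • eT) • w ())) j =
      chi (((j : ℕ) : ℤ) • eT) • (Pi.single (M := fun _ : Fin 2 => SA Sg p) i (w ())) j
    by_cases h : j = i
    · rw [h, Pi.single_eq_same, Pi.single_eq_same]
    · rw [Pi.single_eq_of_ne h, Pi.single_eq_of_ne h, smul_zero]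

lemma ii_pp : ii Sg p 0 0 ∘ₗ pp Sg p 0 0 + ii Sg p 1 1 ∘ₗ pp Sg p 1 1 = LinearMap.id :=
  LinearMap.ext fun w => funext fun j => by
    change (Pi.single (M := fun _ : Fin 2 => SA Sg p) 0 (w 0)) j +
      (Pi.single (M := fun _ : Fin 2 => SA Sg p) 1 (w 1)) j = w j
    fin_cases j <;> simp

lemma pp_ii (k : ℤ) (i : Fin 2) : pp Sg p k i ∘ₗ ii Sg p k i = LinearMap.id :=
  LinearMap.ext fun w => funext fun _ => Pi.single_eq_same (M := fun _ : Fin 2 => SA Sg p) i (w ())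

lemma pp_ii_ne (k k' : ℤ) {i j : Fin 2} (h : i ≠ j) : pp Sg p k i ∘ₗ ii Sg p k' j = 0 :=
  LinearMap.ext fun w => funext fun _ =>
    Pi.single_eq_of_ne (M := fun _ : Fin 2 => SA Sg p) h (w ())

lemma inj_ii (k : ℕ) : Function.Injective
    ((LinearMap.rTensor (SA Sg k) (ii Sg p 0 0)).coprod (LinearMap.rTensor _ (ii Sg p 1 1))) := by
  refine Function.LeftInverse.injective (g := (LinearMap.rTensor (SA Sg k) (pp Sg p 0 0)).prod
    (LinearMap.rTensor _ (pp Sg p 1 1))) fun t => ?_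
  simp only [LinearMap.coprod_apply, LinearMap.prod_apply, Function.prod_apply, map_add,
    ← LinearMap.rTensor_comp_apply, pp_ii_ne _ _ (show (0 : Fin 2) ≠ 1 by decide),
    pp_ii_ne _ _ (show (1 : Fin 2) ≠ 0 by decide), LinearMap.rTensor_zero, LinearMap.zero_apply]
  rw [pp_ii, pp_ii, LinearMap.rTensor_id, Prod.mk_add_mk, add_zero, zero_add]
  rfl

lemma ii_mem_KK (I : Fin 2 → XL Sg Sg.F) (k : ℤ) (i : Fin 2) {j : ℕ}
    {t : (WA Sg ((r1 Sg k).G p) j).V} (ht : t ∈ (r1 Sg k).KK (I i) p j) :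
    LinearMap.rTensor _ (ii Sg p k i) t ∈ (r2 Sg).KK (piX I) p j := by
  refine rTensor_mem_KK (𝔞 := r1 Sg k) (𝔟 := r2 Sg) (L := I i) (L' := piX I) (f := ii Sg p k i)
    (LinearMap.single Sg.F (fun _ : Fin 2 => Sg.F) i)
    (fun w => _root_.funext fun l => ?_) (fun v hv => Gm_pi.2 fun l => ?_) ht
  · rw [r2_inc, r1_inc, ii_apply, LinearMap.single_apply]
    by_cases h : l = i
    · rw [h, Pi.single_eq_same, Pi.single_eq_same]
    · rw [Pi.single_eq_of_ne h, Pi.single_eq_of_ne h]; rfl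
  · rw [LinearMap.single_apply]
    by_cases h : l = i
    · rw [h, Pi.single_eq_same]; exact hv
    · rw [Pi.single_eq_of_ne h]; exact zero_mem _

lemma pp_mem_KK (I : Fin 2 → XL Sg Sg.F) (k : ℤ) (i : Fin 2) {j : ℕ}
    {t : (WA Sg ((r2 Sg).G p) j).V} (ht : t ∈ (r2 Sg).KK (piX I) p j) :
    LinearMap.rTensor _ (pp Sg p k i) t ∈ (r1 Sg k).KK (I i) p j :=
  rTensor_mem_KK (𝔞 := r2 Sg) (𝔟 := r1 Sg k) (L := piX I) (L' := I i) (f := pp Sg p k i)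
    (LinearMap.proj (R := Sg.F) (φ := fun _ : Fin 2 => Sg.F) i) (fun _ => rfl)
    (fun _ hv => Gm_pi.1 hv i) ht

lemma KK_pair (I₁ I₂ : XL Sg Sg.F) (j : ℕ) : (r2 Sg).KK (piX ![I₁, I₂]) p j =
    ((r1 Sg 0).KK I₁ p j).map (LinearMap.rTensor _ (ii Sg p 0 0)) ⊔
      ((r1 Sg 1).KK I₂ p j).map (LinearMap.rTensor _ (ii Sg p 1 1)) := by
  refine le_antisymm (fun t ht => ?_) (sup_le ?_ ?_)
  · have h₁ : LinearMap.rTensor _ (pp Sg p 0 0) t ∈ (r1 Sg 0).KK I₁ p j :=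
      pp_mem_KK ![I₁, I₂] 0 0 ht
    have h₂ : LinearMap.rTensor _ (pp Sg p 1 1) t ∈ (r1 Sg 1).KK I₂ p j :=
      pp_mem_KK ![I₁, I₂] 1 1 ht
    refine Submodule.mem_sup.2 ⟨_, Submodule.mem_map_of_mem h₁, _, Submodule.mem_map_of_mem h₂, ?_⟩
    rw [← LinearMap.rTensor_comp_apply, ← LinearMap.rTensor_comp_apply, ← LinearMap.add_apply,
      ← LinearMap.rTensor_add, ii_pp, LinearMap.rTensor_id, LinearMap.id_apply]
  · rintro _ ⟨t, ht, rfl⟩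
    exact ii_mem_KK ![I₁, I₂] 0 0 ht
  · rintro _ ⟨t, ht, rfl⟩
    exact ii_mem_KK ![I₁, I₂] 1 1 ht
end pair

lemma sc_G (k : ℤ) (j : ℕ) : ((r1 Sg k).G j).Sc (k • eT) := sc_pi fun _ => sc_shift _ _
lemma sc_EG (k k' : ℤ) : ((r1 Sg k).EG (r1 Sg k') p).Sc ((k' - k) • eT) :=
  ((sc_G k p).hom (sc_G k' p)).of_eq (sub_smul _ _ _).symm
lemma sc_HG (k k' : ℤ) : ((r1 Sg k).HG (r1 Sg k') p).Sc ((k' - k) • eT) :=
  (((sc_G k p).tens (sc_triv _)).hom (sc_G k' (3 + p))).of_eq (by rw [add_zero, sub_smul])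

lemma exists_pure_sq {V : GV} {k : ℤ} (hV : V.Sc (k • eT)) {L L' : Pt → Submodule ℂ V.V}
    (h : IsAB X V L) (h' : IsAB X V L') (le : ∀ x ∈ X.pts, L' x ≤ L x) {w : ℕ → ℤ}
    (hw : X.TTriv w) : ∃ A : Bun X, A.Pure w k ∧ A.kl = kc X V L - kc X V L' := by
  obtain ⟨A, e, -⟩ := h.exists_bun_sq h' le
  obtain ⟨A', h1, h2, -⟩ := K.Pure.exists_bun (hw := hw) (k := k) (A := A)
    (e ▸ (hV.kpure h hw).sub (hV.kpure h' hw))
  exact ⟨A', h1, h2.trans e⟩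

end TV0
open TV0

variable {L : Pt → XL Sg 𝔞.M} {L' : Pt → XL Sg 𝔟.M}

theorem LFam.exists_rk'' (h : LFam 𝔞 X p L) :
    ∃ r, ∀ x ∈ X.pts, finrank ℂ (𝔞.pc (L x) p) = r + Fintype.card 𝔞.ι := by
  obtain ⟨r, hr⟩ := h.exists_rk le_rfl
  obtain ⟨d, c, hp⟩ := h.hp
  refine ⟨r - Fintype.card 𝔞.ι, fun x hx => ?_⟩
  have := card_le (h.le x hx) (h.reg x hx) (hp x hx)
  have := hr x hx
  omega

theorem pull_Bcl' {r : ℕ} (hs : SyzF Sg 0 X (𝔞.G p) (fun k x => 𝔞.KK (L x) p k) 2 r)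
    (q : Proj Y X) (hY : 0 ∉ Y.B) :
    K.pull (q.fib_map _) (Bcl 𝔞 X p L) = Bcl 𝔞 Y p fun y => L (restr X.B y) := by
  rw [Bcl, Bcl, map_mul, K.pull_lbK _ (eB_mem' X p), hs.pull_bcl q hY le_rfl]

theorem pull_chiK' (hX : 0 ∉ X.B) (q : Proj Y X) (hY : 0 ∉ Y.B)
    (e : K.pull (q.fib_map _) (SS 𝔞 X p L) = SS 𝔞 Y p fun y => L (restr X.B y))
    (e' : K.pull (q.fib_map _) (SS 𝔟 X p L') = SS 𝔟 Y p fun y => L' (restr X.B y)) :
    K.pull q (chiK 𝔞 𝔟 X p L L') =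
      chiK 𝔞 𝔟 Y p (fun y => L (restr X.B y)) fun y => L' (restr X.B y) := by
  rw [chiK, chiK, ← piK_pull (base_S Sg 0) hX q hY, map_mul, K.pull_dual, map_sub, e, e',
    Amb.pull_V]

theorem LFam.exists_AB' (h : LFam 𝔞 X p L) {r r' : ℕ}
    (hs : SyzF Sg 0 X (𝔞.G p) (fun k x => 𝔞.KK (L x) p k) 2 r)
    (hr : ∀ x ∈ X.pts, finrank ℂ (𝔞.pc (L x) p) = r') :
    ∃ A B : Bun (X.fib (Sg.S 0)), A.kl = Acl 𝔞 X p L ∧ B.kl = Bcl 𝔞 X p L ∧ A.Rk r' ∧ B.Rk r := by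
  obtain ⟨A, hA⟩ := (h.ab p le_rfl).exists_pres
  obtain ⟨B, hB, rk⟩ := ((hs.ab 3 (by norm_num)).pull (Spc.fib_fst X (Sg.S 0))).exists_bun_sq
    (hs.isAB_ZZ le_rfl) fun y hy => (mulS_mono le_top _).trans (hs.gen 2 le_rfl _ hy.1).le
  have rA : A.Rk r' := fun x hx => (hA.finrank hx).trans (hr x hx)
  have rB : B.Rk r := fun y hy => by
    have h1 := (rk y hy).trans (hs.rk 2 le_rfl _ hy.1 _ hy.2.1).symm
    exact Nat.add_right_cancel (h1.trans (add_comm _ _))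
  refine ⟨(Bun.line _ (-(p • eB 0))).tens (A.pull (Spc.fib_fst X _)),
    (Bun.line _ (-(p • eB 0))).tens ((Bun.line _ (-((2 + 1 : ℕ) • eB 0))).tens B), ?_, ?_, ?_, ?_⟩
  · rw [kl_tens, ← K.pull_kl, hA.kl]; rfl
  · rw [kl_tens, kl_tens, hB]; rfl
  · simpa only [one_mul] using (Bun.rk_line _).tens (rA.pull (Spc.fib_fst X (Sg.S 0)))
  · simpa only [one_mul] using (Bun.rk_line _).tens ((Bun.rk_line _).tens rB)

section split
variable {I₁ I₂ : Pt → XL Sg Sg.F}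
theorem Bcl_pair' {r₁ r₂ : ℕ}
    (s₁ : SyzF Sg 0 X ((r1 Sg 0).G p) (fun k x => (r1 Sg 0).KK (I₁ x) p k) 2 r₁)
    (s₂ : SyzF Sg 0 X ((r1 Sg 1).G p) (fun k x => (r1 Sg 1).KK (I₂ x) p k) 2 r₂) :
    Bcl (r2 Sg) X p (fun x => piX ![I₁ x, I₂ x]) =
      Bcl (r1 Sg 0) X p I₁ + Bcl (r1 Sg 1) X p I₂ := by
  have hV : (WA Sg ((r2 Sg).G p) (2 + 1)).In (X.fib (Sg.S 0)).B :=
    ((r2 Sg).in_G p _).tens (in_triv _)
  have d₁ := deg0_rTensor (Sg := Sg) (deg0_ii (Sg := Sg) (p := p) 0) (2 + 1)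
  have d₂ := deg0_rTensor (Sg := Sg) (deg0_ii (Sg := Sg) (p := p) 1) (2 + 1)
  have e₁ := kc_split hV d₁ d₂ (inj_ii _) ((s₁.ab (2 + 1) (by norm_num)).pull (Spc.fib_fst X _))
    ((s₂.ab (2 + 1) (by norm_num)).pull (Spc.fib_fst X _)) fun y _ => KK_pair _ _ _
  have e₂ := kc_split hV d₁ d₂ (inj_ii _) (s₁.isAB_ZZ le_rfl) (s₂.isAB_ZZ le_rfl)
    (L := ZZ Sg 0 X fun x => (r2 Sg).KK (piX ![I₁ x, I₂ x]) p 2) fun y _ => by
      rw [ZZ, KK_pair, mulS_sup, mulS_map, mulS_map]; rfl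
  rw [Bcl, Bcl, Bcl, bcl, bcl, bcl, ← mul_add, ← mul_add]
  refine congrArg _ (congrArg _ ((congrArg₂ (· - ·) e₁ e₂).trans ?_))
  exact add_sub_add_comm _ _ _ _
end split

section pure
variable {k k' : ℤ} {I J : Pt → XL Sg Sg.F} {w : ℕ → ℤ}
theorem pure_ucl' (h : LFam (r1 Sg k) X p I) (hw : X.TTriv w) {j : ℕ} (hj : p ≤ j) :
    K.Pure hw k (ucl (r1 Sg k) X I j) := (sc_G k j).kpure (h.ab j hj) hw
theorem pure_dcl' (h : LFam (r1 Sg k) X p I) (hw : X.TTriv w) (r : ℕ) :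
    K.Pure hw (r * k) (dcl (r1 Sg k) X p I r) :=
  (((sc_G k p).lam r).of_eq (by rw [mul_smul, natCast_zsmul])).kpure ((h.ab p le_rfl).lamS r) hw
theorem exists_hm_hb' (h : LFam (r1 Sg k) X p I) (h' : LFam (r1 Sg k') X p J) (hw : X.TTriv w)
    (hb : IsAB X ((r1 Sg k).HG (r1 Sg k') p) fun x => (r1 Sg k).Hb (r1 Sg k') (I x) (J x) p) :
    ∃ A B : Bun X, A.Pure w (k' - k) ∧ B.Pure w (k' - k) ∧
      A.kl = hmc (r1 Sg k) (r1 Sg k') X p I J ∧ B.kl = hbc (r1 Sg k) (r1 Sg k') X p I J := by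
  obtain ⟨A, h1, h2⟩ := exists_pure_sq (sc_EG k k') (IsAB.top (h.isAB_stab h').hin)
    (h.isAB_stab h') (fun _ _ => le_top) hw
  obtain ⟨B, h3, h4⟩ := exists_pure_sq (sc_HG k k') hb (h.isAB_den h')
    (fun _ _ => Amb.den_le_Hb) hw
  exact ⟨A, B, h1, h3, h2, h4⟩
end pure

end Crest.Agent.N265.M
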