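import Crest.Agent.N265.M.Dic
import Crest.Agent.N265.M.Ty0
import Crest.Agent.N265.Fib.R2

/-! # Row 265, task M-TY (helper2): the dimensions of `Tv / stab` and `Hb / den` -/

set_option autoImplicit false
set_option linter.dupNamespace false
set_option linter.unusedSectionVars false
noncomputable section
open Module TensorProduct

namespace Crest.Agent.N265.M
open Crest.Agent.R274
open Defs_781 Lat_781 SnapA_99 SnapB_99 SnapE_99 Gen7_750 Xs1_781 SkDefs_474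
open Alg GV Br N Fib Hm _root_.Crest.Agent.N265.Pow
variable {Sg : Surf}

namespace Hm
variable {V W M : Type} [AddCommGroup V] [Module ℂ V] [AddCommGroup W] [Module ℂ W]
  [AddCommGroup M] [Module ℂ M] [FiniteDimensional ℂ V] [FiniteDimensional ℂ W]
  (U : Submodule ℂ V) (f : W →ₗ[ℂ] M)
/-- the values on the frame -/
def evF : (V →ₗ[ℂ] W) →ₗ[ℂ] (Ix U → M) := LinearMap.pi fun l => f ∘ₗ LinearMap.applyₗ (fu U l)
lemma evF_apply (θ : V →ₗ[ℂ] W) (l : Ix U) : evF U f θ l = f (θ (fu U l)) := rfl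
lemma fu_ne (l : Ix U) : fu U l ≠ 0 := fun h => (finBasis ℂ U).ne_zero l (Subtype.ext h)
variable {U f}
lemma exists_evF {φ : Ix U → M} (h : ∀ l, φ l ∈ LinearMap.range f) : ∃ θ, evF U f θ = φ := by
  choose y hy using h
  exact ⟨fext U y, funext fun l => by rw [evF_apply, fext_fu, hy]⟩
lemma finrank_evF {P : Submodule ℂ (V →ₗ[ℂ] W)} {T : Submodule ℂ (Ix U → M)}
    (h1 : ∀ θ, θ ∈ P ↔ evF U f θ ∈ T) (h2 : ∀ φ ∈ T, ∀ l, φ l ∈ LinearMap.range f) :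
    finrank ℂ P = finrank ℂ T + finrank ℂ (LinearMap.ker (evF U f)) := by
  have h3 := finrank_map_add_inf_ker P (evF U f)
  rw [inf_eq_right.2 fun θ hθ => (h1 θ).2 (by rw [LinearMap.mem_ker.1 hθ]; exact zero_mem _),
    show P.map (evF U f) = T from le_antisymm (Submodule.map_le_iff_le_comap.2 fun θ => (h1 θ).1)
      fun φ hφ => let ⟨θ, e⟩ := exists_evF (h2 φ hφ); ⟨θ, (h1 θ).2 (e ▸ hφ), e⟩] at h3
  exact h3.symm
end Hm

section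
variable {M : Type} [AddCommGroup M] [Module ℂ M] [Module Sg.F M] [IsScalarTower ℂ Sg.F M]
lemma mem_tw {L : XL Sg M} {a b c : ℤ} (h : a + b = c) {v : M} :
    v ∈ Gm (twX L a).toLat b ↔ v ∈ Gm L.toLat c := by rw [← h, ← Gm_tw]; rfl
lemma mem_tw2 {L : XL Sg M} {a b c d : ℤ} (h : a + b + c = d) {v : M} :
    v ∈ Gm (twX (twX L a) b).toLat c ↔ v ∈ Gm L.toLat d :=
  (mem_tw rfl).trans (mem_tw ((add_assoc _ _ _).symm.trans h))
lemma lc_val {ι : Type} [Fintype ι] {P : Submodule Sg.F M} (s : ι → P) (c : ι → Sg.F) :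
    (lc Sg.F s c : M) = ∑ a, c a • (s a : M) := by
  rw [lc_apply, AddSubmonoidClass.coe_finsetSum]
  rfl
end

namespace Amb
variable {𝔞 𝔟 : Amb Sg} {L : XL Sg 𝔞.M} {L' : XL Sg 𝔟.M} {p : ℕ}

lemma inc_mem (𝔟 : Amb Sg) {j : ℕ} (w : (𝔟.G j).V) : 𝔟.inc j w ∈ Gm 𝔟.O.toLat j :=
  (range_inc 𝔟 j).le ⟨w, rfl⟩

lemma finrank_homMap {V : Type} [AddCommGroup V] [Module ℂ V] [FiniteDimensional ℂ V]
    (U : Submodule ℂ V) (le : LeL L' 𝔟.O) {j : ℕ} {N : XL Sg 𝔟.M}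
    (e : ∀ v, v ∈ Gm N.toLat 0 ↔ v ∈ Gm L'.toLat j) : finrank ℂ (homMap U (𝔟.pc L' j)) =
      (piX fun _ : Ix U => N).toFam.cech.h 0 + finrank ℂ (LinearMap.ker (evF U (𝔟.inc j))) := by
  rw [h_Gm]
  exact finrank_evF (fun θ => mem_homMap_fu.trans ((forall_congr' fun l => (e _).symm).trans
    Gm_pi.symm)) fun φ hφ l => (range_inc 𝔟 j).ge (Gm_mono le _ ((e _).1 (Gm_pi.1 hφ l)))

lemma lc_evF {V : Type} [AddCommGroup V] [Module ℂ V] [FiniteDimensional ℂ V] {U : Submodule ℂ V}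
    {j k : ℕ} (θ : V →ₗ[ℂ] (𝔟.G j).V) {t : V ⊗[ℂ] SA Sg k} (ht : t ∈ tens U ⊤) :
    lc Sg.F (evF U (𝔟.inc j) θ) (co U k t) = 𝔟.inc _ (𝔟.mul j k (θ.rTensor _ t)) := by
  rw [inc_mul, mF_rT]
  exact lc_co (𝔟.inc j ∘ₗ θ) ht

lemma mem_Tv_iff (le : LeL L 𝔞.O) (hr : RegL L.toLat p) {θ : (𝔞.EG 𝔟 p).V} :
    θ ∈ 𝔞.Tv 𝔟 L L' p ↔ evF (𝔞.pc L p) (𝔟.inc p) θ ∈
      Gm (MT (𝔞.fr L p) (twX 𝔟.O p) (twX L' p)).toLat 0 := by
  have e : (p : ℤ) + (0 + (3 : ℕ)) = (3 + p : ℕ) := by push_cast; ring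
  refine ⟨fun h => mem_Gm_MT_of (j := (3 : ℕ)) (fun d hd => (reg_SZ le hr).gen (by omega))
    (fun l => (mem_tw (add_zero _)).2 (𝔟.inc_mem _)) fun s hs => ?_, fun h t ht => ?_⟩
  · obtain ⟨t, ht, rfl⟩ := exists_KK hs
    rw [cz_val, lc_evF θ ht.1, mem_tw e]
    exact h t ht
  · have := (mem_Gm_MT.1 h).2 3 _ (cz_mem ht)
    rwa [cz_val, lc_evF θ ht.1, mem_tw e] at this

lemma finrank_Tv (le : LeL L 𝔞.O) (hr : RegL L.toLat p) : finrank ℂ (𝔞.Tv 𝔟 L L' p) =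
    (MT (𝔞.fr L p) (twX 𝔟.O p) (twX L' p)).toFam.cech.h 0 +
      finrank ℂ (LinearMap.ker (evF (𝔞.pc L p) (𝔟.inc p))) := by
  rw [h_Gm]
  exact finrank_evF (fun θ => mem_Tv_iff le hr) fun φ hφ l =>
    (range_inc 𝔟 p).ge ((mem_tw (add_zero _)).1 ((mem_Gm_MT.1 hφ).1 l))

lemma finrank_stab (le : LeL L' 𝔟.O) : finrank ℂ (𝔞.stab 𝔟 L L' p) =
    Fintype.card (Ix (𝔞.pc L p)) * (twX L' p).toFam.cech.h 0 +
      finrank ℂ (LinearMap.ker (evF (𝔞.pc L p) (𝔟.inc p))) :=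
  (finrank_homMap _ le fun _ => mem_tw (add_zero _)).trans (congrArg (· + _) (h_piX _ 0))

variable (𝔟 L) in
lemma finrank_EG : finrank ℂ (𝔞.EG 𝔟 p).V =
    Fintype.card (Ix (𝔞.pc L p)) * (twX 𝔟.O p).toFam.cech.h 0 +
      finrank ℂ (LinearMap.ker (evF (𝔞.pc L p) (𝔟.inc p))) := by
  rw [← finrank_stab Fam.LE.rfl, ← finrank_top, show 𝔞.stab 𝔟 L 𝔟.O p = ⊤ from
    eq_top_iff.2 fun _ _ _ _ => 𝔟.inc_mem _]

variable (𝔞 L p) in
/-- the frame of `KK L p 3` -/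
def fs (a : Ix (𝔞.KK L p 3)) : LinearMap.ker (lc Sg.F (𝔞.fr L p)) := cz (fu_mem (𝔞.KK L p 3) a)

lemma lc_fs {k : ℕ} {t : (WA Sg (𝔞.G p) 3).V ⊗[ℂ] SA Sg k} (ht : t ∈ tens (𝔞.KK L p 3) ⊤) :
    (lc Sg.F (𝔞.fs L p) (co (𝔞.KK L p 3) k t)).1 = co (𝔞.pc L p) (k + 3) (mm _ 3 k t) :=
  (lc_val _ _).trans ((mF_co (V := (WA Sg (𝔞.G p) 3).V) (co (𝔞.pc L p) 3) ht).symm.trans
    (mF_mm _ t).symm)

lemma gens_fs (le : LeL L 𝔞.O) (hr : RegL L.toLat p) :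
    Gens (𝔞.fs L p) (twX (𝔞.SZ L p) (3 : ℕ)) := by
  refine gens_of_span (fun d hd => (reg_SZ le hr).gen (by omega)) (le_antisymm
    (Submodule.span_le.2 (Set.range_subset_iff.2 fun a => cz_mem _)) fun s hs => ?_)
  obtain ⟨t, ht, rfl⟩ := exists_KK hs
  refine (Submodule.mem_span_range_iff_exists_fun ℂ).2 ⟨fc (𝔞.KK L p 3) t, Subtype.ext ?_⟩
  rw [cz_val, AddSubmonoidClass.coe_finsetSum]
  conv_rhs => rw [← sum_fc ht, map_sum]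
  exact Finset.sum_congr rfl fun a _ => (map_smul _ _ _).symm

lemma mem_Hb_iff {θ : (𝔞.HG 𝔟 p).V} : θ ∈ 𝔞.Hb 𝔟 L L' p ↔ evF (𝔞.KK L p 3) (𝔟.inc (3 + p)) θ ∈
    Gm (MT (𝔞.fs L p) (twX (twX 𝔟.O p) (3 : ℕ)) (twX (twX L' p) (3 : ℕ))).toLat 0 := by
  have e : ∀ k : ℕ, (p : ℤ) + (3 : ℕ) + (0 + k) = (k + (3 + p) : ℕ) := fun k => by push_cast; ring
  refine ⟨fun h => mem_Gm_MT.2 ⟨fun l => (mem_tw2 (by push_cast; ring)).2 (𝔟.inc_mem _),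
    fun k c hc => ?_⟩, fun h k t ht h0 => ?_⟩
  · obtain ⟨t, ht, e1⟩ := exists_co (U := 𝔞.KK L p 3) fun l => (SA_eq k).ge (mem_Gm_syz.1 hc l)
    rw [← e1, lc_evF θ ht, mem_tw2 (e k)]
    refine h k t ht (co_inj (mm_mem inf_le_left ht) ?_)
    rw [← lc_fs ht, e1, show lc Sg.F (𝔞.fs L p) c.1 = 0 from c.2, ZeroMemClass.coe_zero]
  · have := (mem_Gm_MT.1 h).2 k ⟨co _ k t, Subtype.ext ((lc_fs ht).trans ((congrArg _ h0).trans
      (map_zero _)))⟩ (mem_Gm_syz.2 (co_AA (U := 𝔞.KK L p 3) t))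
    rwa [lc_evF θ ht, mem_tw2 (e k)] at this

/-- `dim Hb / den = h⁰ Hom(B, O'/L')` -/
lemma finrank_Hb (le : LeL L 𝔞.O) (hr : RegL L.toLat p) (le' : LeL L' 𝔟.O)
    (hr' : RegL L'.toLat p) : finrank ℂ (𝔞.Hb 𝔟 L L' p) = finrank ℂ (𝔞.den 𝔟 L L' p) +
      hq (HB (𝔞.fr L p) (twX L' p)) (HB (𝔞.fr L p) (twX 𝔟.O p)) 0 := by
  have h1 := finrank_homMap (𝔞.KK L p 3) le' (j := 3 + p) (N := twX (twX L' p) (3 : ℕ))
    fun v => mem_tw2 (by push_cast; ring)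
  have h2 := finrank_evF (fun θ => mem_Hb_iff (L := L) (L' := L') (p := p) (θ := θ)) fun φ hφ l =>
    (range_inc 𝔟 _).ge ((mem_tw2 (by push_cast; ring)).1 ((mem_Gm_MT.1 hφ).1 l))
  have h3 := twX_mono (twX_mono le' p) (3 : ℕ)
  have hB := xfull_twX (xfull_syz (X := Sg.V.X) (𝔞.fr L p)) (3 : ℕ)
  have h4 := (hq_MT hB (locF_of_s2 hB fun x => (locF_SZ.s2 x).twX _) (gens_fs le hr) h3).symm.trans
    (hq_congr (homX_mono h3) (homX_tw (xfull_syz _) _ _) (homX_tw (xfull_syz _) _ _))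
  have h5 := h0_pair (pi_le_MT (𝔞.fs L p) h3) ((h_piX _ 1).trans (mul_eq_zero_of_right _
    (h_eq_zero_iff.2 (hr'.twX.van one_pos (by norm_num)))))
  rw [← h_Gm, h5, h4, add_right_comm, ← h1] at h2
  exact h2
end Amb

variable {I J : XL Sg Sg.F} {β β' : Sg.V.G} {n n' p : ℕ} {k k' : ℤ}

lemma fc_twh {D : Sg.V.G} (h : FC I (OL Sg.V.T D)) (e : ℤ) :
    FC (twX I e) (OL Sg.V.T (D + e • Sg.V.h)) ∧
      len (twX I e) (OL Sg.V.T (D + e • Sg.V.h)) = len I (OL Sg.V.T D) :=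
  ⟨(h.twX e).congr (fun _ _ => rfl) (tw_OL' Sg.V D e),
    (len_congr (M' := OL _ _) (h.twX e).le (fun _ _ => rfl) (tw_OL' Sg.V D e)).symm.trans
      (h.len_tw e)⟩
lemma tw_r1_O (k e : ℤ) : EqL (twX (r1 Sg k).O e) (OL Sg.V.T (e • Sg.V.h)) :=
  (eqv_tw (r1_O k) e).trans (tw_OX Sg.V e)
lemma chi_tw_eq {M : Type} [AddCommGroup M] [Module ℂ M] [Module Sg.F M] [IsScalarTower ℂ Sg.F M]
    {L : XL Sg M} (hr : RegL L.toLat p) : (twX L p).toFam.chi = (twX L p).toFam.cech.h 0 :=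
  (cL_eq_of_van fun _ hq => hr.van hq (by omega)).trans (congrArg _ (hL_zero _ _).symm)

namespace Ty
lemma fr_ne (h : Ty I β n) (le : LeL I (OX Sg.V.X)) (hr : RegL I.toLat p) :
    (r1 Sg k).fr I p ≠ 0 := fun h0 => by
  have h1 := h.rkU_pos le hr
  rw [← h.finrank_pc (k := k) le hr] at h1
  have h2 : fu ((r1 Sg k).pc I p) ⟨0, h1⟩ = 0 :=
    (r1 Sg k).inc_inj p ((congrFun h0 _).trans (map_zero _).symm)
  exact fu_ne _ _ h2

theorem finrank_Tv' (h : Ty I β n) (le : LeL I (OX Sg.V.X)) (hr : RegL I.toLat p) :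
    finrank ℂ ((r1 Sg k).Tv (r1 Sg k) I I p) + 1 ≤
      finrank ℂ ((r1 Sg k).stab (r1 Sg k) I I p) + Sg.V.hh β 0 + 2 * n := by
  have h0 := h.fr_ne (k := k) le hr
  obtain ⟨f, hf, h1, rfl⟩ := h
  have le1 : LeL I (r1 Sg k).O := Fam.LE.trans le (r1_O k).symm.le
  have h2 := h0_MT_le h0 (Amb.gens_fr le1 hr) hr.twX (fc_twh h1 p).1 (tw_r1_O k p) (pgq Sg).2
  rw [(fc_twh h1 p).2, (pgq Sg).chi_zero, chi_tw_eq hr, sub_add_cancel_right, neg_neg,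
    ← (lin_div β hf).hh] at h2
  rw [Amb.finrank_Tv le1 hr, Amb.finrank_stab le1]
  zify
  omega

theorem finrank_Hb' (h : Ty I β n) (h' : Ty J β' n') (le : LeL I (OX Sg.V.X))
    (le' : LeL J (OX Sg.V.X)) (hp : 2 ≤ p) (hr : RegL I.toLat p) (hr' : RegL J.toLat p) :
    ((finrank ℂ ((r1 Sg k).EG (r1 Sg k') p).V : ℤ) - finrank ℂ ((r1 Sg k).stab (r1 Sg k') I J p)) -
      (finrank ℂ ((r1 Sg k).Hb (r1 Sg k') I J p) - finrank ℂ ((r1 Sg k).den (r1 Sg k') I J p)) =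
      Sg.V.chi β - Sg.V.chi (β - β') + n' := by
  have h0 := h.fr_ne (k := k) le hr
  have hs := h.hasSec le
  obtain ⟨f, hf, h1, -⟩ := h
  obtain ⟨g, hg, h2, rfl⟩ := h'
  have le1 : LeL I (r1 Sg k).O := Fam.LE.trans le (r1_O k).symm.le
  have le2 : LeL J (r1 Sg k').O := Fam.LE.trans le' (r1_O k').symm.le
  have hO : RegL (r1 Sg k').O.toLat p := (r1 Sg k').reg_O.mono (by exact_mod_cast hp)
  have h3 := hq_HB h0 (Amb.gens_fr le1 hr) hr.twX (fc_twh h1 p).1 (fc_twh h2 p).1 (twX_mono le2 p)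
    (tw_r1_O k' p) (h_eq_zero_iff.2 (hr'.van two_pos (by omega)))
    (h_eq_zero_iff.2 (hO.van one_pos (by omega))) (h_eq_zero_iff.2 (hO.van two_pos (by omega)))
    (by rw [sub_add_cancel_right, neg_neg, ← (lin_div β hf).hh]; exact (pgq Sg).h2_eff hs)
  rw [(fc_twh h2 p).2, chi_tw_eq hr', chi_tw_eq hO, sub_add_cancel_right, neg_neg,
    ← (lin_div β hf).chi, add_sub_add_right_eq_sub, neg_sub_neg,
    ← ((lin_div β hf).sub (lin_div β' hg)).chi] at h3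
  rw [Amb.finrank_Hb le1 hr le2 hr', Amb.finrank_stab le2, Amb.finrank_EG _ I]
  push_cast
  linear_combination -h3
end Ty

end Crest.Agent.N265.M
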