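import Crest.Agent.N265.M.Defs
import Crest.Agent.N265.Fib.P4

/-! # Row 265, task M-TY (helper32): existence of types -/

set_option autoImplicit false
set_option linter.dupNamespace false
noncomputable section
open MvPolynomial Module TensorProduct

namespace Crest.Agent.N265.M
open Crest.Agent.R274
open Defs_781 Lat_781 SnapA_99 SnapB_99 SnapD_99 SnapE_99 Gen7_750 Xs1_781 SkDefs_474
open Alg GV Br N Fib _root_.Crest.Agent.N265.Pow
variable {Sg : Surf} {I : XL Sg Sg.F} {β : Sg.V.G}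

/-- every non-zero ideal has a type -/
theorem exists_ty' (h0 : ∃ e, Gm I.toLat e ≠ ⊥) : ∃ β n, Ty I β n :=
  let ⟨D, hD⟩ := exists_hull h0
  ⟨-D - Sg.V.div 1 one_ne_zero, _, 1, one_ne_zero, by rwa [sub_add_cancel, neg_neg], rfl⟩

/-- sublattices of given colength -/
theorem exists_sub {L : XL Sg Sg.F} (hL : XFull L) (n : ℕ) :
    ∃ I : XL Sg Sg.F, XFull I ∧ FC I L ∧ len I L = n := by
  induction n with
  | zero => exact ⟨L, hL, FC.refl L, len_self L⟩
  | succ n ih =>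
    obtain ⟨I, h1, h2, h3⟩ := ih
    obtain ⟨x, J, h4, -⟩ := exists_one_top (N := SnapA_99.bot Sg.V.X Sg.F) (M := I)
      (fun _ _ => bot_le) fun h => by
        obtain ⟨b, -, h0, hb⟩ := XFull.exists_smul h1 (sne 0) (1 : Sg.F)
        exact smul_ne_zero h0 one_ne_zero ((Submodule.mem_bot ℂ).1 (h _ (sne 0) hb))
    exact ⟨J, xfull_mono h4.mX_le (xfull_mX two_pos x h1), h4.fc.trans h2, by
      rw [h4.fc.len_trans h2, h3, h4.len, add_comm]⟩

theorem exists_of_hasSec' (hs : Ch.HasSec Sg.V β) (n : ℕ) :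
    ∃ I : XL Sg Sg.F, LeL I (OX Sg.V.X) ∧ Ty I β n := by
  obtain ⟨s, h0, he⟩ := hs.eff
  obtain ⟨I, -, h1, h2⟩ := exists_sub (L := OL Sg.V.T (-(β + Sg.V.div s h0))) (Ch.xfull_OL _) n
  refine ⟨I, h1.le.trans ((Ch.fam_le (V := Sg.V) (E := 0) fun v => ?_).trans
    (OL_zero (T := Sg.V.T)).le), s, h0, h1, h2⟩
  exact neg_nonpos.2 (he v)

end Crest.Agent.N265.M
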