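import Crest.Agent.N265.M.Defs
import Crest.Agent.N265.Fib.P4

/-! # Row 265, task M-TY (helper32): finitely many classes of regular ideals -/

set_option autoImplicit false
set_option linter.dupNamespace false
set_option linter.unusedSectionVars false
noncomputable section
open MvPolynomial Module

namespace Crest.Agent.N265.M.TyFin
open Crest.Agent.R274
open Defs_781 Ses_781 Lat_781 SnapA_99 SnapB_99 SnapD_99 SnapE_99 Gen7_750 Xs1_781 SkDefs_474
open Br Fib Fib.Pnt Filter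

section Lin
variable {k : Type*} [Field k] {V : Type*} [AddCommGroup V] [Module k V]

/-- subspaces of `W` are parametrised by matrices -/
theorem exists_param (W : Submodule k V) [Module.Finite k W] : ∃ (r : ℕ)
    (u : Fin r → (Fin r × Fin r → k) →ₗ[k] V), ∀ U ≤ W,
      ∃ x, Submodule.span k (Set.range fun i => u i x) = U := by
  let b := Module.finBasis k W
  refine ⟨finrank k W, fun i =>
    W.subtype ∘ₗ b.equivFun.symm.toLinearMap ∘ₗ LinearMap.funLeft k k fun j => (i, j), fun U hU => ?_⟩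
  have : Module.Finite k U := Submodule.finiteDimensional_of_le hU
  obtain ⟨v, hv⟩ : ∃ v : Fin (finrank k W) → U, Submodule.span k (Set.range v) = ⊤ := by
    have h1 : finrank k U ≤ finrank k W := Submodule.finrank_mono hU
    refine ⟨Function.extend (Fin.castLE h1) (Module.finBasis k U) 0, top_le_iff.1 ?_⟩
    rw [← (Module.finBasis k U).span_eq]
    refine Submodule.span_mono (Set.range_subset_iff.2 fun i => ⟨Fin.castLE h1 i, ?_⟩)
    exact (Fin.castLE_injective h1).extend_apply _ _ i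
  refine ⟨fun p => b.equivFun ⟨v p.1, hU (v p.1).2⟩ p.2, ?_⟩
  refine Eq.trans ?_ U.map_subtype_top
  rw [← hv, Submodule.map_span, ← Set.range_comp]
  congr 2
  funext i
  exact congrArg Subtype.val (b.equivFun.symm_apply_apply ⟨v i, hU (v i).2⟩)

/-- the rank is lower semicontinuous -/
theorem exists_open {σ κ : Type*} [Fintype σ] (v : κ → (σ → k) →ₗ[k] V) (y : σ → k)
    [Module.Finite k (Submodule.span k (Set.range fun c => v c y))] :
    ∃ P : MvPolynomial σ k, eval y P ≠ 0 ∧ ∀ x, eval x P ≠ 0 →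
      Module.Finite k (Submodule.span k (Set.range fun c => v c x)) →
      finrank k (Submodule.span k (Set.range fun c => v c y)) ≤
        finrank k (Submodule.span k (Set.range fun c => v c x)) := by
  classical
  choose P hP using fun (c : κ) (f : V →ₗ[k] k) => exists_poly_of_lin (f ∘ₗ v c)
  obtain ⟨s, h⟩ := not_forall.1 (mt (finrank_le_iff_det (k := k) (fun c => v c y) _).2 (lt_irrefl _))
  obtain ⟨f, h⟩ := not_forall.1 h
  have key : ∀ x, eval x (Matrix.of fun i j => P (s j) (f i)).det =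
      (Matrix.of fun i j => f i (v (s j) x)).det := fun x => by
    rw [RingHom.map_det]
    congr 1
    ext i l
    exact hP _ _ x
  refine ⟨_, (key y).symm ▸ h, fun x hx _ => not_lt.1 fun hlt => hx ?_⟩
  rw [key]
  exact (finrank_le_iff_det (fun c => v c x) _).1 hlt s f

/-- a cover by basic open sets has a finite subcover -/
theorem finite_cover {Y C σ : Type*} [Finite σ] [Finite C] (col : Y → C) (pt : Y → σ → k)
    (P : Y → MvPolynomial σ k) (h : ∀ y, eval (pt y) (P y) ≠ 0) :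
    ∃ T : Set Y, T.Finite ∧ ∀ x, ∃ y ∈ T, col y = col x ∧ eval (pt x) (P y) ≠ 0 := by
  classical
  have H : ∀ c, ∃ s : Finset Y, ↑s ⊆ col ⁻¹' {c} ∧ Submodule.span (MvPolynomial σ k)
      (P '' (col ⁻¹' {c})) = Submodule.span (MvPolynomial σ k) (P '' s) := fun c => by
    obtain ⟨s, h1, h2⟩ := (Submodule.fg_span_iff_fg_span_finset_subset _).1
      (IsNoetherian.noetherian (Submodule.span (MvPolynomial σ k) (P '' (col ⁻¹' {c}))))
    obtain ⟨s', h3, rfl⟩ := Finset.subset_set_image_iff.1 h1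
    exact ⟨s', h3, by rw [h2, Finset.coe_image]⟩
  choose s h1 h2 using H
  refine ⟨⋃ c, s c, Set.finite_iUnion fun c => (s c).finite_toSet, fun x => ?_⟩
  by_contra hc
  push Not at hc
  refine h x ((Ideal.span_le (I := RingHom.ker (eval (pt x)))).2 ?_
    ((h2 (col x)).le (Submodule.subset_span ⟨x, rfl, rfl⟩)))
  rintro _ ⟨y, hy, rfl⟩
  exact hc y (Set.mem_iUnion.2 ⟨_, hy⟩) (h1 _ hy)

theorem finrank_inf_add {Z : Type*} [AddCommGroup Z] [Module k Z] (q : V →ₗ[k] Z)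
    (C : Submodule k V) [Module.Finite k C] :
    finrank k (C.map q) + finrank k (C ⊓ LinearMap.ker q : Submodule k V) = finrank k C := by
  have h := (q.domRestrict C).finrank_range_add_finrank_ker
  rw [LinearMap.range_domRestrict, LinearMap.ker_domRestrict,
    show (LinearMap.ker q).comap C.subtype = (C ⊓ LinearMap.ker q).comap C.subtype by
      rw [Submodule.comap_inf, Submodule.comap_subtype_self, top_inf_eq],
    (Submodule.comapSubtypeEquivOfLe inf_le_left).finrank_eq] at h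
  exact h

/-- semicontinuity of `H⁰` of a complex that is exact in the middle at the base point -/
theorem exists_ker {V' Z : Type*} [AddCommGroup V'] [Module k V'] [AddCommGroup Z] [Module k Z]
    {d : V →ₗ[k] V'} {q : V' →ₗ[k] Z} (hq : ∀ v, q (d v) = 0) {C0 D0 : Submodule k V}
    {C1 D1 : Submodule k V'} [Module.Finite k C0] [Module.Finite k D0] [Module.Finite k C1]
    [Module.Finite k D1] (h0 : finrank k C0 = finrank k D0) (h1 : finrank k C1 = finrank k D1)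
    (hm : ∀ v ∈ D0, d v ∈ D1) (hr : finrank k (C1.map q) ≤ finrank k (D1.map q))
    (hs : ∀ w ∈ C1, q w = 0 → ∃ v ∈ C0, d v = w) {g : V} (hg : g ∈ C0) (g0 : g ≠ 0)
    (gd : d g = 0) : ∃ φ ∈ D0, φ ≠ 0 ∧ d φ = 0 := by
  by_contra hc
  push Not at hc
  have a1 := finrank_inf_add d C0
  have a2 := finrank_inf_add d D0
  have a3 := finrank_inf_add q C1
  have a4 := finrank_inf_add q D1
  have a5 : D0 ⊓ LinearMap.ker d = ⊥ := eq_bot_iff.2 fun v hv => by_contra fun h => hc v hv.1 h hv.2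
  have : Module.Finite k (D1 ⊓ LinearMap.ker q : Submodule k V') :=
    Submodule.finiteDimensional_of_le inf_le_left
  have : Module.Finite k (C0 ⊓ LinearMap.ker d : Submodule k V) :=
    Submodule.finiteDimensional_of_le inf_le_left
  have a6 : finrank k (D0.map d) ≤ finrank k (D1 ⊓ LinearMap.ker q : Submodule k V') :=
    Submodule.finrank_mono (by rintro _ ⟨v, hv, rfl⟩; exact ⟨hm v hv, hq v⟩)
  have a7 : finrank k (C1 ⊓ LinearMap.ker q : Submodule k V') ≤ finrank k (C0.map d) :=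
    Submodule.finrank_mono fun w hw => hs w hw.1 hw.2
  have a8 : finrank k (C0 ⊓ LinearMap.ker d : Submodule k V) ≠ 0 := fun h =>
    g0 ((Submodule.finrank_eq_zero.1 h).le (show g ∈ C0 ⊓ LinearMap.ker d from ⟨hg, gd⟩))
  rw [a5, finrank_bot] at a2
  omega

theorem map_pi_span {ι κ Z : Type*} [Finite ι] [DecidableEq ι] [AddCommGroup Z] [Module k Z]
    (q : (ι → V) →ₗ[k] Z) (w : κ → V) :
    (Submodule.pi Set.univ fun _ : ι => Submodule.span k (Set.range w)).map q =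
      Submodule.span k (Set.range fun c : ι × κ => q (Pi.single c.1 (w c.2))) := by
  rw [← Submodule.iSup_map_single, Submodule.map_iSup]
  simp only [Submodule.map_span, ← Submodule.span_iUnion, ← Set.range_comp]
  congr 1
  ext z
  simp

end Lin

variable {Sg : Surf}

/-- one of the generators of an invertible lattice generates its stalk -/
theorem exists_idx (x : Pnt Sg.V.X) {D : Sg.V.G} {ι : Type} [Fintype ι] {g : ι → Sg.F} {p : ℤ}
    (hg : ∀ a, g a ∈ Gm (OL Sg.V.T D).toLat p)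
    (hle : (OL Sg.V.T D).toFam.LE (genX Sg.V.X g p).toFam) : ∃ a, g a ≠ 0 ∧
      ∀ f, f ∈ x.loc (OL Sg.V.T D) ↔ (Sg.V.X.t x.i ^ (-p) * g a)⁻¹ * f ∈ x.O := by
  obtain ⟨γ, h0, hγ⟩ := exists_gen_OL x D
  obtain ⟨c, hc, e⟩ := mem_loc_genX.1 (loc_mono hle ((hγ γ).2 (by
    rw [inv_mul_cancel₀ h0]; exact one_mem _)))
  have h1 : ∀ a, γ⁻¹ * (Sg.V.X.t x.i ^ (-p) * g a) ∈ x.O := fun a => (hγ _).1 (Gm_mem_loc (hg a))
  obtain ⟨a, ha⟩ : ∃ a, x.val (γ⁻¹ * (Sg.V.X.t x.i ^ (-p) * g a)) ≠ 0 := by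
    by_contra h
    push Not at h
    have h2 : ∑ a, c a * (γ⁻¹ * (Sg.V.X.t x.i ^ (-p) * g a)) = 1 := by
      rw [← inv_mul_cancel₀ h0, ← e, Finset.mul_sum, e]
      exact Finset.sum_congr rfl fun a _ => by simp only [smul_eq_mul]; ring
    have h3 := congrArg x.val h2
    rw [val_sum _ fun a => mul_mem (hc a) (h1 a), val_one] at h3
    simp only [val_mul (hc _) (h1 _), h, mul_zero, Finset.sum_const_zero] at h3
    exact zero_ne_one h3
  have h2 := right_ne_zero_of_mul (ne_of_val ha)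
  refine ⟨a, right_ne_zero_of_mul h2, fun f => ?_⟩
  rw [hγ, ← mem_loc_OX, ← mem_loc_OX, ← smul_mem_iff ha (v := (_ * g a)⁻¹ * f), smul_eq_mul,
    mul_assoc γ⁻¹, mul_inv_cancel_left₀ h2]

section Key
variable {D : Sg.V.G} {ι κ : Type} [Fintype ι] [Fintype κ] {g : ι → Sg.F} {p e : ℤ}

variable (g) in
/-- relations -/
abbrev RW : Submodule Sg.F (ι → Sg.F) := LinearMap.ker (Fintype.linearCombination Sg.F g)
variable (g) in
/-- the lattice of relations -/
abbrev RL : XLat Sg.V.X (RW g) := comapX (OP Sg.V.X ι) (RW g).subtype (RW g).subtype_injective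
/-- the differential -/
def dd (s : κ → RW g) : (ι → Sg.F) →ₗ[Sg.F] (κ → Sg.F) :=
  LinearMap.pi fun b => Fintype.linearCombination Sg.F (s b).1
theorem dd_apply (s : κ → RW g) (φ : ι → Sg.F) (b : κ) : dd s φ b = ∑ a, φ a * (s b).1 a :=
  Fintype.linearCombination_apply _ _ _
theorem dd_g (s : κ → RW g) : dd s g = 0 := funext fun b => by
  have := (s b).2
  rw [LinearMap.mem_ker, Fintype.linearCombination_apply] at this
  rw [dd_apply, Pi.zero_apply, ← this]
  exact Finset.sum_congr rfl fun a _ => mul_comm _ _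

/-- local form of the exactness -/
theorem loc_formula (x : Pnt Sg.V.X) {s : κ → RW g}
    (hs : (RL g).toFam.LE (genX Sg.V.X s e).toFam) {a0 : ι} (h0 : g a0 ≠ 0)
    (h1 : ∀ a, (g a0)⁻¹ * g a ∈ x.O) (a : ι) : ∃ c : κ → Sg.F, (∀ b, c b ∈ x.O) ∧
      ∀ φ : ι → Sg.F, φ a - (g a0)⁻¹ * φ a0 * g a = ∑ b, c b * (Sg.V.X.t x.i ^ (-e) * dd s φ b) := by
  classical
  let w : ι → Sg.F := Pi.single a 1 - ((g a0)⁻¹ * g a) • Pi.single a0 1
  have hw : w ∈ RW g := by
    simp only [w, LinearMap.mem_ker, map_sub, map_smul, Fintype.linearCombination_apply_single,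
      smul_eq_mul, one_mul]
    rw [mul_right_comm, inv_mul_cancel₀ h0, one_mul, sub_self]
  have h2 : ∀ a a' : ι, (Pi.single a 1 : ι → Sg.F) a' ∈ x.O := fun a a' => by
    rw [Pi.single_apply]
    split_ifs
    exacts [one_mem _, zero_mem _]
  obtain ⟨c, hc, h⟩ := mem_loc_genX.1 (loc_mono hs (x := x) (show ⟨w, hw⟩ ∈ x.loc (RL g) from
    mem_loc_comapX.2 (mem_loc_OP.2 fun l => sub_mem (h2 a l) (mul_mem (h1 a) (h2 a0 l)))))
  refine ⟨c, hc, fun φ => ?_⟩
  have h3 := congrArg (fun z : RW g => Fintype.linearCombination Sg.F φ z.1) h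
  simp only [w, map_sub, map_smul, Fintype.linearCombination_apply_single, smul_eq_mul, one_mul,
    Submodule.coe_sum, Submodule.coe_smul, map_sum] at h3
  rw [mul_right_comm, ← h3]
  refine Finset.sum_congr rfl fun b _ => ?_
  rw [dd_apply, Fintype.linearCombination_apply]
  simp only [smul_eq_mul, mul_comm]

variable (hg : ∀ a, g a ∈ Gm (OL Sg.V.T D).toLat p)
  (hle : (OL Sg.V.T D).toFam.LE (genX Sg.V.X g p).toFam) {s : κ → RW g}
  (hs : (RL g).toFam.LE (genX Sg.V.X s e).toFam)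
include hg hle hs

theorem loc_data (x : Pnt Sg.V.X) : ∃ a0, g a0 ≠ 0 ∧
    (∀ f, f ∈ x.loc (OL Sg.V.T D) ↔ (Sg.V.X.t x.i ^ (-p) * g a0)⁻¹ * f ∈ x.O) ∧
    ∀ a, ∃ c : κ → Sg.F, (∀ b, c b ∈ x.O) ∧ ∀ φ : ι → Sg.F,
      φ a - (g a0)⁻¹ * φ a0 * g a = ∑ b, c b * (Sg.V.X.t x.i ^ (-e) * dd s φ b) := by
  obtain ⟨a0, h0, h⟩ := exists_idx x hg hle
  refine ⟨a0, h0, h, loc_formula x hs h0 fun a => ?_⟩
  have := (h _).1 (Gm_mem_loc (hg a))
  rwa [smul_eq_mul, mul_inv, mul_mul_mul_comm, inv_mul_cancel₀ (zpow_ne_zero _ (Sg.V.X.t_ne _)),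
    one_mul] at this

theorem g_ne : g ≠ 0 := fun h => by
  obtain ⟨x, -, -⟩ := exists_pnt (X := Sg.V.X) (sne 0) bot_ne_top
  obtain ⟨a, h0, -⟩ := loc_data hg hle hs x
  exact h0 (congrFun h a)

theorem ker_dd {φ : ι → Sg.F} (h : dd s φ = 0) : ∃ c : Sg.F, c • g = φ := by
  obtain ⟨x, -, -⟩ := exists_pnt (X := Sg.V.X) (sne 0) bot_ne_top
  obtain ⟨a0, -, -, h1⟩ := loc_data hg hle hs x
  refine ⟨(g a0)⁻¹ * φ a0, funext fun a => ?_⟩
  obtain ⟨c, -, hc⟩ := h1 a
  have := hc φ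
  simp only [h, Pi.zero_apply, mul_zero, Finset.sum_const_zero] at this
  exact (sub_eq_zero.1 this).symm

omit hg hle hs in
theorem dd_maps (hd : ∀ b, s b ∈ Gm (RL g).toLat e) (L : XLat Sg.V.X Sg.F) :
    (piX fun _ : ι => L).toFam.Maps (twX (piX fun _ : κ => L) e).toFam (kl ℂ (dd s)) := by
  rintro I ⟨i, hi⟩ φ hφ
  refine (mem_twX hi).2 (mem_piFam.2 fun b => ?_)
  rw [Pi.smul_apply, kl_apply, dd_apply, Finset.smul_sum]
  refine Submodule.sum_mem _ fun a _ => ?_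
  have := L.A_smul ⟨i, hi⟩ _ (mem_OP.1 (Gm_mem (hd b) hi) a) _ (mem_piFam.1 hφ a)
  rw [mul_comm, ← smul_mul_assoc]
  exact this

theorem exact_dd (hd : ∀ b, s b ∈ Gm (RL g).toLat e) :
    Exact (twX (OX Sg.V.X) (-p)).toFam (piX fun _ : ι => OL Sg.V.T D).toFam
      (comapX (twX (piX fun _ : κ => OL Sg.V.T D) e) (LinearMap.range (dd s)).subtype
        (Submodule.subtype_injective _)).toFam
      (kl ℂ (LinearMap.toSpanSingleton Sg.F _ g)) (kl ℂ (dd s).rangeRestrict) where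
  maps := maps_of_loc fun x c hc => mem_loc_piX.2 fun a => by
    have := smul_loc (mem_loc_OX.1 (mem_loc_twX.1 hc)) (Gm_mem_loc (x := x) (hg a))
    rwa [smul_smul, smul_eq_mul (_ ^ _), mul_right_comm, ← zpow_add₀ (Sg.V.X.t_ne _),
      neg_add_cancel, zpow_zero, one_mul] at this
  maps' := dd_maps hd _
  inj := fun _ _ _ _ h => (smul_eq_zero.1 h).resolve_right (g_ne hg hle hs)
  comp := fun _ _ c _ => Subtype.ext (by
    change dd s (c • g) = 0
    rw [map_smul, dd_g, smul_zero])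
  ex := fun I hI φ hφ h => by
    obtain ⟨c, rfl⟩ := ker_dd hg hle hs (congrArg Subtype.val h)
    refine ⟨c, mem_of_loc hI fun x hx => mem_loc_twX.2 (mem_loc_OX.2 ?_), rfl⟩
    obtain ⟨a0, h0, h1, -⟩ := loc_data hg hle hs x
    have := (h1 _).1 (mem_loc_piX.1 (hx.mem_loc hI hφ) a0)
    rwa [Pi.smul_apply, smul_eq_mul, mul_inv, mul_comm c, mul_assoc, inv_mul_cancel_left₀ h0,
      ← zpow_neg] at this
  surj := fun I hI => surj_of_loc (fun x ⟨_, φ, rfl⟩ hw => by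
    obtain ⟨a0, h0, -, h1⟩ := loc_data hg hle hs x
    refine ⟨φ - ((g a0)⁻¹ * φ a0) • g, mem_loc_piX.2 fun a => ?_, Subtype.ext ?_⟩
    · obtain ⟨c, hc, h⟩ := h1 a
      rw [Pi.sub_apply, Pi.smul_apply, smul_eq_mul, h]
      exact Submodule.sum_mem _ fun b _ => smul_loc (hc b)
        (mem_loc_piX.1 (mem_loc_twX.1 (mem_loc_comapX.1 hw)) b)
    · change dd s _ = dd s φ
      rw [map_sub, map_smul, dd_g, smul_zero, sub_zero]) hI

/-- a section of the kernel gives a linear equivalence -/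
theorem lin_of_ker {D' : Sg.V.G} (hc : cL (OL Sg.V.T D').toLat = cL (OL Sg.V.T D).toLat)
    {φ : ι → Sg.F} (h1 : ∀ a, φ a ∈ Gm (OL Sg.V.T D').toLat p) (h0 : φ ≠ 0) (h : dd s φ = 0) :
    ∃ (c : Sg.F) (hc : c ≠ 0), D = D' + Sg.V.div c hc := by
  obtain ⟨c, rfl⟩ := ker_dd hg hle hs h
  have c0 : c ≠ 0 := fun h => h0 (by rw [h, zero_smul])
  refine ⟨c, c0, eq_of_OL_eqv (eqv_of_cL (hle.trans (genX_le fun a => mem_Gm.2 fun i =>
    (Ch.mem_O_div D' c0 (sne i) _).2 ?_)) (Eventually.of_forall fun j => ?_))⟩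
  · have := mem_Gm.1 (h1 a) i
    rwa [Pi.smul_apply, smul_comm, smul_eq_mul] at this
  · rw [← hc, cL_OL, cL_OL, add_right_comm, Ch.chi_div]

end Key

theorem finrank_pi {L : XLat Sg.V.X Sg.F} {p j : ℤ} (h : RegL L.toLat p) (hj : p ≤ j) (ι : Type)
    [Fintype ι] : (finrank ℂ (Gm (piX fun _ : ι => L).toLat j) : ℤ) = ∑ _ : ι, cL L.toLat j :=
  ((RegL.pi fun _ => h).finrank_eq (by omega)).trans (cL_pi _ j)

theorem exists_gens' {V : Type} [AddCommGroup V] [Module ℂ V] [Module Sg.F V]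
    [IsScalarTower ℂ Sg.F V] {M : XLat Sg.V.X V} {p : ℤ}
    (h : ∀ e, p ≤ e → Gm M.toLat (e + 1) = T1 Sg.V.X.toCoord • Gm M.toLat e) :
    ∃ (r : ℕ) (g : Fin r → V), (∀ a, g a ∈ Gm M.toLat p) ∧ M.toFam.LE (genX Sg.V.X g p).toFam :=
  ⟨_, _, fun a => (Module.finBasis ℂ (Gm M.toLat p) a).2, le_genS_of_gen h⟩

/-- **openness of a linear equivalence class** -/
theorem key {σ ι : Type} [Fintype σ] (u : ι → (σ → ℂ) →ₗ[ℂ] Sg.F) {p : ℤ} {D : Sg.V.G}
    (hr : RegL (OL Sg.V.T D).toLat p) {y : σ → ℂ}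
    (hy : Submodule.span ℂ (Set.range fun i => u i y) = Gm (OL Sg.V.T D).toLat p) :
    ∃ P : MvPolynomial σ ℂ, eval y P ≠ 0 ∧ ∀ x D', eval x P ≠ 0 → RegL (OL Sg.V.T D').toLat p →
      Submodule.span ℂ (Set.range fun i => u i x) = Gm (OL Sg.V.T D').toLat p →
      cL (OL Sg.V.T D').toLat = cL (OL Sg.V.T D).toLat →
      ∃ (c : Sg.F) (hc : c ≠ 0), D = D' + Sg.V.div c hc := by
  classical
  obtain ⟨r0, g, hg, hle⟩ := exists_gens' (p := p) fun _ => hr.gen
  obtain ⟨e0, he⟩ := eventually_atTop.1 (ev_gen (RL g).toLat)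
  let e := e0.toNat
  obtain ⟨r, s, hd, hs⟩ := exists_gens' (p := e) fun j hj => he j ((Int.self_le_toNat e0).trans hj)
  let q := (LinearMap.range (dd s)).mkQ.restrictScalars ℂ
  let v := fun c : _ × AA Sg.V.X e × ι => q ∘ₗ LinearMap.single ℂ _ c.1 ∘ₗ
    (LinearMap.mulLeft ℂ c.2.1.1) ∘ₗ u c.2.2
  have hv : ∀ x D', RegL (OL Sg.V.T D').toLat p →
      Submodule.span ℂ (Set.range fun i => u i x) = Gm (OL Sg.V.T D').toLat p →
      Submodule.span ℂ (Set.range fun c => v c x) =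
        (Gm (piX fun _ => OL Sg.V.T D').toLat (e + p)).map q := fun x D' h1 h2 => by
    refine (map_pi_span q fun c : AA Sg.V.X e × ι => c.1.1 • u c.2 x).symm.trans ?_
    rw [← smul_span_eq (AA Sg.V.X e) fun i => u i x, h2, ← gen_AA (fun _ => h1.gen) le_rfl]
    congr 1
    exact Submodule.ext fun _ => (Submodule.mem_pi.trans (by simp)).trans Gm_pi.symm
  have : Module.Finite ℂ (Submodule.span ℂ (Set.range fun c => v c y)) :=
    hv y D hr hy ▸ inferInstance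
  obtain ⟨P, h1, h2⟩ := exists_open v y
  refine ⟨P, h1, fun x D' hx hr' hx' hc => ?_⟩
  have h3 := h2 x hx (hv x D' hr' hx' ▸ inferInstance)
  rw [hv y D hr hy, hv x D' hr' hx'] at h3
  obtain ⟨φ, h4, h5, h6⟩ := exists_ker (d := (dd s).restrictScalars ℂ) (q := q)
    (fun φ => (Submodule.Quotient.mk_eq_zero _).2 ⟨φ, rfl⟩)
    (C0 := Gm (piX fun _ => OL Sg.V.T D).toLat p) (D0 := Gm (piX fun _ => OL Sg.V.T D').toLat p)
    (Nat.cast_injective (R := ℤ) (by rw [finrank_pi hr le_rfl, finrank_pi hr' le_rfl, hc]))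
    (Nat.cast_injective (R := ℤ) (by rw [finrank_pi hr (by omega), finrank_pi hr' (by omega), hc]))
    (fun φ hφ => (Gm_tw _ e p).le (map_Gm_le (dd_maps hd _) hφ)) h3
    (fun w hw h0 => by
      obtain ⟨φ, h1, h2⟩ := Gm_surj_of_exact (exact_dd hg hle hs hd) (e := p)
        (van_tw (van_OX Sg (by omega) one_pos)) (z := ⟨w, (Submodule.Quotient.mk_eq_zero _).1 h0⟩)
        ((mem_Gm_comap (hg := Submodule.subtype_injective _)).2 ((Gm_tw _ e p).ge hw))
      exact ⟨φ, h1, congrArg Subtype.val h2⟩)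
    (Gm_pi.2 hg) (g_ne hg hle hs) (dd_g s)
  exact lin_of_ker hg hle hs hc (Gm_pi.1 h4) h5 h6

theorem finite_OL (Sg : Surf) (p : ℤ) : ∃ T : Set Sg.V.G, T.Finite ∧ ∀ D,
    (OL Sg.V.T D).toFam.LE (OX Sg.V.X).toFam → RegL (OL Sg.V.T D).toLat p →
    ∃ D' ∈ T, ∃ (c : Sg.F) (hc : c ≠ 0), D' = D + Sg.V.div c hc := by
  obtain ⟨r, u, hu⟩ := exists_param (AA Sg.V.X p)
  let Y := {D // (OL Sg.V.T D).toFam.LE (OX Sg.V.X).toFam ∧ RegL (OL Sg.V.T D).toLat p}
  choose pt hpt using fun D : Y => hu _ (Gm_mono D.2.1 p)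
  choose P h1 h2 using fun D : Y => key u D.2.2 (hpt D)
  let cl : ∀ j, Y → Fin (finrank ℂ (AA Sg.V.X j) + 1) := fun j D =>
    ⟨finrank ℂ (Gm (OL Sg.V.T D.1).toLat j),
      Nat.lt_succ_of_le (Submodule.finrank_mono (Gm_mono D.2.1 j))⟩
  obtain ⟨T, hT, h⟩ := finite_cover (fun D => (cl p D, cl (p + 1) D)) pt P h1
  refine ⟨_, hT.image Subtype.val, fun D hD hr => ?_⟩
  obtain ⟨D', h3, h4, h5⟩ := h ⟨D, hD, hr⟩
  refine ⟨D', ⟨D', h3, rfl⟩, h2 D' _ D h5 hr (hpt ⟨D, hD, hr⟩) (funext fun j => ?_)⟩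
  have h6 : ∀ j, p ≤ j → cl j D' = cl j ⟨D, hD, hr⟩ →
      Sg.V.chi (D'.1 + j • Sg.V.h) = Sg.V.chi (D + j • Sg.V.h) := fun j hj e => by
    rw [← cL_OL, ← cL_OL, ← D'.2.2.finrank_eq (by omega), ← hr.finrank_eq (by omega)]
    exact congrArg (fun z : Fin _ => ((z : ℕ) : ℤ)) e
  have h7 := h6 p le_rfl (congrArg Prod.fst h4)
  have h8 := h6 (p + 1) (by omega) (congrArg Prod.snd h4)
  rw [cL_OL, cL_OL]
  simp only [Ch.chi_tw] at h7 h8 ⊢
  have h9 : Ch.dg Sg.V D'.1 = Ch.dg Sg.V D := by linarith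
  rw [h9] at h7 ⊢
  linarith

end TyFin
open Crest.Agent.R274
open Defs_781 Lat_781 SnapE_99 Gen7_750 Br Fib

/-- finitely many classes -/
theorem finite_classes' (Sg : Surf) (p : ℕ) : ∃ T : Finset Sg.V.G, ∀ (I : XL Sg Sg.F) β n,
    Ty I β n → LeL I (OX Sg.V.X) → RegL I.toLat p →
      ∃ γ ∈ T, ∃ (f : Sg.F) (hf : f ≠ 0), γ = β + Sg.V.div f hf := by
  obtain ⟨T, hT, h⟩ := TyFin.finite_OL Sg p
  refine ⟨(hT.image Neg.neg).toFinset, fun I β n ⟨f, hf, h1, _⟩ le hr => ?_⟩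
  obtain ⟨D, h2, c, hc, rfl⟩ := h _ ((h1.le_OL (le.trans (OL_zero (T := Sg.V.T)).symm.le)).trans
    (OL_zero (T := Sg.V.T)).le) (h1.regL hr)
  refine ⟨_, (Set.Finite.mem_toFinset _).2 ⟨_, h2, rfl⟩, f / c, div_ne_zero hf hc, ?_⟩
  ext v
  simp only [Finsupp.neg_apply, Finsupp.add_apply, Ch.div_apply, (Sg.V.pl.pl v).ord_div hf hc]
  ring

end Crest.Agent.N265.M
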