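import Crest.Agent.N265.M.Ty0
import Crest.Agent.N265.M.Ty1
import Crest.Agent.N265.M.Ty3
import Crest.Agent.N265.M.TyFin

/-! # Row 265, task M-TY (helper2): ideals of type `(β, n)`, fibrewise -/

set_option autoImplicit false
set_option linter.dupNamespace false
noncomputable section
open MvPolynomial Module TensorProduct

namespace Crest.Agent.N265.M
open Crest.Agent.R274
open Defs_781 Lat_781 SnapA_99 SnapB_99 SnapE_99 Gen7_750 Xs1_781 SkDefs_474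
open Alg GV Br N Fib _root_.Crest.Agent.N265.Pow
variable {Sg : Surf} {I J : XL Sg Sg.F} {β β' : Sg.V.G} {n n' p : ℕ} {k k' : ℤ}

/-! `pgq`, `Lin.*`, `OK.lin`, `Ty.congr ... Ty.lS_eq`, `ty_OL`, `OL_le`, `eqv_of_pair` are in `Ty0`. -/

namespace Ty
/-- **tangent bound** `dim Hom(I, O/I) ≤ h⁰(β) - 1 + 2 n` -/
theorem finrank_Tv (h : Ty I β n) (le : LeL I (OX Sg.V.X)) (_hp : 2 ≤ p)
    (hr : RegL I.toLat p) : finrank ℂ ((r1 Sg k).Tv (r1 Sg k) I I p) + 1 ≤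
      finrank ℂ ((r1 Sg k).stab (r1 Sg k) I I p) + Sg.V.hh β 0 + 2 * n :=
  h.finrank_Tv' le hr
/-- `χ(I, O/J)` -/
theorem finrank_Hb (h : Ty I β n) (h' : Ty J β' n') (le : LeL I (OX Sg.V.X))
    (le' : LeL J (OX Sg.V.X)) (hp : 2 ≤ p) (hr : RegL I.toLat p) (hr' : RegL J.toLat p) :
    ((finrank ℂ ((r1 Sg k).EG (r1 Sg k') p).V : ℤ) - finrank ℂ ((r1 Sg k).stab (r1 Sg k') I J p)) -
      (finrank ℂ ((r1 Sg k).Hb (r1 Sg k') I J p) - finrank ℂ ((r1 Sg k).den (r1 Sg k') I J p)) =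
      Sg.V.chi β - Sg.V.chi (β - β') + n' := h.finrank_Hb' h' le le' hp hr hr'
end Ty
/-- every non-zero ideal has a type -/
theorem exists_ty (_le : LeL I (OX Sg.V.X)) (h0 : ∃ e, Gm I.toLat e ≠ ⊥) :
    ∃ β n, Ty I β n := exists_ty' h0
theorem exists_of_hasSec (hs : Ch.HasSec Sg.V β) (n : ℕ) :
    ∃ I : XL Sg Sg.F, LeL I (OX Sg.V.X) ∧ Ty I β n := exists_of_hasSec' hs n
/-- finitely many classes -/
theorem finite_classes (Sg : Surf) (p : ℕ) : ∃ T : Finset Sg.V.G, ∀ (I : XL Sg Sg.F) β n,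
    Ty I β n → LeL I (OX Sg.V.X) → RegL I.toLat p → ∃ γ ∈ T, Lin Sg β γ :=
  finite_classes' Sg p

end Crest.Agent.N265.M
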