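import Crest.Agent.N265.M.Asm2

/-! # Row 265, assembly III: the model -/

set_option autoImplicit false
set_option linter.dupNamespace false
noncomputable section

namespace Crest.Agent.N265.M
open Br

theorem modelStmt : Top.ModelStmt := fun Sg => by
  classical
  obtain ⟨C⟩ := Ch.exists_choice Sg.V
  obtain ⟨p, hp⟩ := exists_QL Sg C
  let Q : ∀ l, QL C p l (l + 1) := fun l => (hp l _ l.succ_ne_zero).some
  obtain ⟨v, hv, nest⟩ := exists_nest Sg p
  have := finite_Fm Q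
  have := Fintype.ofFinite (Fm C)
  have t0 : ∀ X, Top.tO X (-0) = 1 := fun X => by rw [neg_zero, Top.tO, zero_smul, lb_zero]
  have ev : ∀ φ : Fm C, C.Top φ.1.1 φ.1.2.1 →
      φ.ν = 2 ∧ ∃ h1 h2 d P hP, Top.Eval (xx Q φ 0) C.N h1 h2 d P hP := fun φ T => by
    refine ⟨by have := φ.2.2.2.nTop; rw [T.nTop] at this; unfold Fm.ν; omega, ?_⟩
    rw [xx_eq Q φ (n := 0) (l := φ.ν) (zero_add _)]
    exact Uni.PData.eval _ φ.2.2.2.s₁ φ.2.2.2.s₂ T
  refine ⟨{
    Φ := Fm C, ν := Fm.ν, x := xx Q, v := v, hv := hv, N := C.N, hN := C.N_pos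
    k1 := fun φ n => by unfold xx; split_ifs <;> rfl
    bot1 := fun φ k hk q hq => ?_
    bot2 := fun φ k hk q hq => ?_
    up1 := fun φ i j h q hq => ?_
    up2 := fun φ i j h q hq => ?_
    glob := fun k _ => Nonempty.some ?_
    cases := fun φ => ?_
    good := ⟨(ok_self C).fm, ev _ ?_⟩ }⟩
  · rw [xx_eq Q φ (n := (0, k)) (l := φ.ν - k) (by dsimp only; omega)]
    exact Uni.PData.bot _ hq
  · rw [xx_eq Q φ (n := (k, 0)) (l := φ.ν - k) (by dsimp only; omega)]
    exact Uni.PData.bot (Uni.PData.swap _) hq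
  · rw [xx_eq Q φ (n := (i, j)) (l := φ.ν - (i + j + 1) + 1) (by dsimp only; omega),
      xx_eq Q φ (n := (i + 1, j)) (l := φ.ν - (i + j + 1)) (by dsimp only; omega)]
    exact nest _ _ (by omega) q hq
  · rw [xx_eq Q φ (n := (i, j)) (l := φ.ν - (i + j + 1) + 1) (by dsimp only; omega),
      xx_eq Q φ (n := (i, j + 1)) (l := φ.ν - (i + j + 1)) (by dsimp only; omega),
      ← Uni.PData.piece_swap, ← Uni.PData.piece_swap]
    exact nest _ _ (by omega) q hq
  · rw [show (fun i : Ix C k => xx Q i.1.1 i.2.1) = fun i => (pd Q i.ok).piece from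
      funext fun i => xx_eq Q _ i.e]
    exact exists_glob (Q k) k.succ_ne_zero _ _
  · have h := φ.2.2.2
    rcases (C.tri' (pgq Sg) h.s₁ h.s₂ h.hilb h.vd).2 with c | c | c | c
    · refine .inl fun n hn => ?_
      rw [xx_eq Q φ (Nat.add_sub_cancel' hn)]
      have := (pd Q (φ.ok (Nat.add_sub_cancel' hn))).kill h.s₁ c
      rw [t0, mul_one] at this
      exact this
    · refine .inr (.inl fun n hn => ?_)
      rw [xx_eq Q φ (Nat.add_sub_cancel' hn)]
      exact (pd Q (φ.ok (Nat.add_sub_cancel' hn))).swap.kill h.s₂ c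
    · exact .inr (.inr (.inl (by have := h.nTop; unfold Fm.ν; omega)))
    · exact .inr (.inr (.inr (ev φ c)))
  · have T := C.top_self (pgq Sg)
    have e := (lin_rep C.b0).chi
    exact ⟨((ok_self C).fm.2.2.2.nTop), e ▸ T.chi₁, e ▸ T.chi₁,
      (sub_self (rep C.b0)).symm ▸ sub_self C.b0 ▸ T.chi₁₂,
      (sub_self (rep C.b0)).symm ▸ sub_self C.b0 ▸ T.chi₁₂,
      (sub_self (rep C.b0)).symm ▸ sub_self C.b0 ▸ T.num⟩

end Crest.Agent.N265.M
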