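import Crest.Agent.N265.Q.Cone
import Crest.Agent.N265.Q.Bnd

/-! # Row 265, task M-QUOT (helper68): the Quot schemes -/

set_option autoImplicit false
set_option linter.dupNamespace false
noncomputable section
open MvPolynomial

namespace Crest.Agent.N265.M
open Br

theorem QL_of_par {Sg : Surf} (C : Ch.Choice Sg.V) {l : ℕ} (P : Par (r2 Sg)) (hd : P.d = dQ C)
    (hc : P.c = cQ C l) : Nonempty (QL C P.p l P.b) := by
  obtain ⟨Q, hQ, r, E, s, c, hE, hm, tv, hδ⟩ := P.exists_cone (4 * C.N + 4 - 2 * (l : ℤ))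
  have ex : ∀ {β₁ β₂ n₁ n₂}, OK C l β₁ β₂ n₁ n₂ → ∃ u : Uni Sg P.p β₁ β₂ n₁ n₂ 0 1 P.b, P.IsU u :=
    fun h => Par.exists_uni ((fit_iff C hd hc).2 h.hilb)
  have sub : ∀ {β₁ β₂ n₁ n₂} (h : OK C l β₁ β₂ n₁ n₂), (ex h).choose.F.Sub Q := fun h =>
    ⟨(ex h).choose_spec.sub.1.trans hQ.1.symm, fun x hx =>
      (hm x ((ex h).choose_spec.sub.2 hx)).2 (((ex h).choose_spec.rk_chiK hx).trans h.vd)⟩
  refine ⟨{
    Y := P.Γ.Y, Q := Q, n := _, r := r, V := _, hY := GrD.sm, hV := GrD.vars, E := E, hE := hE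
    s := s, cone := c, B := hQ.1.trans P.Qa_B, L := P.Lq, fam := Par.lfam.mono hQ, tv := tv
    U := fun h => (ex h).choose, sub := sub, eqv := fun h => (ex h).choose_spec.eqv
    mem := fun h x hx => (ex h).choose_spec.mem x (hQ.2 hx)
    cover := fun x hx w hw => ?_, ht := fun h z hz => ?_ }⟩
  · obtain ⟨J₁, J₂, β₁, β₂, n₁, n₂, hf, s₁, s₂, t₁, t₂, e⟩ := Par.cover (hQ.2 hx) hw
    obtain ⟨u, hu⟩ := Par.exists_uni hf
    exact ⟨J₁, J₂, β₁, β₂, n₁, n₂, ⟨s₁, s₂, (fit_iff C hd hc).1 hf,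
      (hu.rk_chiK (hu.mem x (hQ.2 hx) J₁ J₂ t₁ t₂ e)).symm.trans ((hm x (hQ.2 hx)).1 hx)⟩, t₁, t₂, e⟩
  · have hzQ := (sub h).2 hz
    have e : z ∈ Q.Tan z := by
      have := Spc.euler_mem hzQ Q.B
      rwa [Q.restr_eq hzQ] at this
    refine (ex h).choose_spec.ht hz inf_le_left ⟨⟨c.sub.tan_le z e, ?_⟩, ?_⟩ fun φ hφ =>
      hδ z hzQ φ (Submodule.comap_mono (Submodule.map_mono (inf_le_inf_right _ inf_le_left)) hφ)
    · exact N265.V.mem_fixS.2 fun v hv => by_contra fun h0 => hv ((ex h).choose.tt z hz v h0)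
    · exact N265.V.mem_ker_dS.2 fun i => e (s i) fun y hy => (c.zero y (c.sub.2 hy)).1 hy i

/-- one regularity bound `p` for all levels -/
theorem exists_QL (Sg : Surf) (C : Ch.Choice Sg.V) :
    ∃ p : ℕ, ∀ l b : ℕ, b ≠ 0 → Nonempty (QL C p l b) := by
  obtain ⟨m, hm⟩ := exists_lmax C
  choose m₀ _ h using fun l => exists_par Sg (dQ C) (cQ C l)
  refine ⟨max 2 ((Finset.range (m + 1)).sup m₀), fun l b hb => ?_⟩
  by_cases hl : l ≤ m
  · obtain ⟨P, h1, h2, h3, rfl⟩ := h l _ ((Finset.le_sup (f := m₀)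
      (Finset.mem_range.2 (Nat.lt_succ_of_le hl))).trans (le_max_right 2 _)) b hb
    exact h1 ▸ QL_of_par C P h2 h3
  · exact QL_of_empty C (le_max_left _ _) fun _ _ _ _ h => hl (hm h)

end Crest.Agent.N265.M
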