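import Crest.Agent.N265.M.Nest
import Crest.Agent.N265.M.Quot
import Crest.Agent.N265.N.PBa
import Crest.Agent.N265.Top.Main

/-! # Row 265, assembly I: the bundles of a piece, the vanishing cases and the surviving case -/

set_option autoImplicit false
set_option linter.dupNamespace false
noncomputable section
open MvPolynomial Module TensorProduct

namespace Crest.Agent.N265.M
open Crest.Agent.R274
open Defs_781 Lat_781 SnapA_99 SnapB_99 SnapE_99 Gen7_750 Xs1_781 SkDefs_474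
open Alg GV Br N Fib _root_.Crest.Agent.N265.Pow
variable {X Y : Spc}

/-- classes of bundles -/
def Hon (u : K X) : Prop := ∃ A : Bun X, A.kl = u
lemma Hon.kl (A : Bun X) : Hon A.kl := ⟨A, rfl⟩
lemma Hon.add {u v : K X} : Hon u → Hon v → Hon (u + v)
  | ⟨A, h⟩, ⟨B, h'⟩ => ⟨A.sum B, by rw [kl_sum, h, h']⟩
lemma Hon.mul {u v : K X} : Hon u → Hon v → Hon (u * v)
  | ⟨A, h⟩, ⟨B, h'⟩ => ⟨A.tens B, by rw [kl_tens, h, h']⟩
lemma Hon.dual {u : K X} : Hon u → Hon (K.dual X u)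
  | ⟨A, h⟩ => (A.exists_dual.imp fun _ e => by rw [e.1, h])
lemma Hon.nsmul {u : K X} (h : Hon u) : ∀ n : ℕ, Hon (n • u)
  | 0 => ⟨Bun.zero X, by rw [kl_zero, zero_smul]⟩
  | n + 1 => by rw [succ_nsmul]; exact (h.nsmul n).add h
lemma Hon.lbK (d : D) : Hon (lbK X d) := ⟨_, rfl⟩

lemma rk_pull (q : Proj Y X) {y : Pt} (hy : y ∈ Y.pts) (u : K X) :
    K.rk hy (K.pull q u) = K.rk (q.map y hy) u := by
  obtain ⟨z, rfl⟩ := K.mk_surj u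
  induction z using FreeAbelianGroup.induction_on with
  | zero => simp
  | of A => rw [K.mk_of, K.pull_kl, K.rk_kl, K.rk_kl]; rfl
  | neg _ h => simp only [map_neg, h]
  | add _ _ h h' => simp only [map_add, h, h']

lemma op_det_add {A B C : Bun X} {m n k : ℕ} (hA : A.Rk m) (hC : C.Rk n) (hB : B.Rk k)
    (hk : k = m + n) (h : B.kl = A.kl + C.kl) :
    op X (B.det k hB).kl = op X (A.det m hA).kl * op X (C.det n hC).kl := by
  subst hk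
  have e := congrArg (Polynomial.coeff · 0) (chp_add hA hC h)
  simp only [Polynomial.mul_coeff_zero, chp_coeff_zero hA, chp_coeff_zero hB,
    chp_coeff_zero hC] at e
  rw [mul_mul_mul_comm, ← pow_add] at e
  exact (isUnit_neg_one.pow _).mul_left_cancel e

lemma pure_chiK {Sg : Surf} {p : ℕ} {k k' : ℤ} {I J : Pt → XL Sg Sg.F} {w : ℕ → ℤ}
    (h : LFam (r1 Sg k) X p I) (h' : LFam (r1 Sg k') X p J) (hw : X.TTriv w) (hX : 0 ∉ X.B) :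
    K.Pure hw (k' - k) (chiK (r1 Sg k) (r1 Sg k') X p I J) := by
  obtain ⟨A, B, pA, pB, eA, eB⟩ := exists_hm_hb h h' hw
  rw [h.chiK_eq h' hX, ← eA, ← eB]
  exact pA.kpure.sub pB.kpure

namespace Uni
variable {Sg : Surf} {p : ℕ} {β₁ β₂ : Sg.V.G} {n₁ n₂ : ℕ} {k₁ k₂ : ℤ} {b : ℕ}
  {u : Uni Sg p β₁ β₂ n₁ n₂ k₁ k₂ b}

theorem Good.exists_pdata (h : u.Good) (hk : (k₁ = 0 ∧ k₂ = 1) ∨ (k₁ = 1 ∧ k₂ = 0)) (N : ℕ) :
    Nonempty (u.PData h N) := by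
  obtain ⟨x, hx⟩ := h.1.nonempty
  have p1 := (u.f₁.ty x hx).rkU_pos (u.f₁.le hx) (u.f₁.fam.reg x hx)
  have p2 := (u.f₂.ty x hx).rkU_pos (u.f₂.le hx) (u.f₂.fam.reg x hx)
  obtain ⟨r₁, hr₁⟩ : ∃ r, r + 1 = rkU Sg p β₁ n₁ := ⟨_, Nat.sub_add_cancel p1⟩
  obtain ⟨r₂, hr₂⟩ : ∃ r, r + 1 = rkU Sg p β₂ n₂ := ⟨_, Nat.sub_add_cancel p2⟩
  obtain ⟨U1, B1, l1, rU1, rB1, rl1, pl1, el1, H1⟩ := u.f₁.exists_pt u.nb h.2 u.tt hr₁
  obtain ⟨U2, B2, l2, rU2, rB2, rl2, pl2, el2, H2⟩ := u.f₂.exists_pt u.nb h.2 u.tt hr₂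
  obtain ⟨A, B, pA, pB, eA, eB⟩ := exists_hm_hb u.f₁.fam u.f₂.fam u.tt
  obtain ⟨A', B', pA', pB', eA', eB'⟩ := exists_hm_hb u.f₂.fam u.f₁.fam u.tt
  obtain ⟨C, -, hC⟩ := h.ob_split
  obtain ⟨Ob, eOb⟩ : Hon (u.obK h) := by
    rw [hC, ← el1, ← el2]
    exact ((((Hon.kl l1).dual.mul (Hon.lbK _)).nsmul _).add
      (((Hon.kl l2).dual.mul (Hon.lbK _)).nsmul _)).add (Hon.kl C)
  have hne : ∀ {E E' : Bun u.F}, E.Pure (fun _ => u.w) (k₂ - k₁) →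
      E'.Pure (fun _ => u.w) (k₁ - k₂) →
      ∀ i, Bun.nwt u.F.B (fun _ => u.w) ((E.sum E').deg i) ≠ 0 := by
    rintro E E' hE hE' (i | i)
    · exact (Bun.pure_iff.1 hE i).trans_ne (by omega)
    · exact (Bun.pure_iff.1 hE' i).trans_ne (by omega)
  exact ⟨{
    hk := hk, r₁ := r₁, r₂ := r₂, U1 := U1, B1 := B1, U2 := U2, B2 := B2, l1 := l1, l2 := l2
    Nm := A.sum A', Em := B.sum B', Ob := Ob, σ := _, X0 := _, hr₁ := hr₁, hr₂ := hr₂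
    rl1 := rl1, rl2 := rl2, pl1 := pl1, pl2 := pl2, rU1 := rU1, rB1 := rB1, rU2 := rU2, rB2 := rB2
    pU1 := fun q hq => (H1 q hq).1, pB1 := fun q hq => (H1 q hq).2.1
    pU2 := fun q hq => (H2 q hq).1, pB2 := fun q hq => (H2 q hq).2.1
    det1 := fun q hq => (H1 q hq).2.2.2.2, det2 := fun q hq => (H2 q hq).2.2.2.2
    hNm := hne pA pA', hEm := hne pB pB'
    eU1 := fun q hq => (H1 q hq).2.2.1, eB1 := fun q hq => (H1 q hq).2.2.2.1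
    eU2 := fun q hq => (H2 q hq).2.2.1, eB2 := fun q hq => (H2 q hq).2.2.2.1
    el1 := el1, el2 := el2, eOb := eOb, eσ := rfl, eX0 := rfl
    emov := by
      rw [movK, u.f₁.fam.chiK_eq u.f₂.fam u.nb, u.f₂.fam.chiK_eq u.f₁.fam u.nb, kl_sum, kl_sum, eA,
        eB, eA', eB']
      ring }⟩

namespace PData
variable {h : u.Good} {N : ℕ}

theorem bot {u : Uni Sg p β₁ β₂ 0 n₂ k₁ k₂ b} {h : u.Good} (d : u.PData h N) {q : Pt}
    (hq : q ∈ (Sg.S 0).pts) : (d.U1 q).kl = d.l1.kl + (d.B1 q).kl := by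
  have := u.f₁.bot u.nb q hq
  rw [SS, map_sub] at this
  rw [d.eU1 q hq, d.eB1 q hq, d.el1, ← this]
  exact (sub_add_cancel _ _).symm

theorem kill (d : u.PData h N) (hs : Ch.HasSec Sg.V β₁) (hc : Sg.V.chi β₁ ≤ 1) :
    (1 - op _ d.l1.kl * Top.tO u.F (-k₁)) * eu d.Ob = 0 := by
  obtain ⟨C, -, hC⟩ := h.ob_split
  obtain ⟨C', hC'⟩ : Hon (Sg.V.hh β₂ 1 • (K.dual _ d.l2.kl * Top.tK u.F k₂) + C.kl) :=
    (((Hon.kl d.l2).dual.mul (Hon.lbK _)).nsmul _).add (Hon.kl C)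
  have hl : (d.l1.tens (Bun.line u.F (-k₁ • eT))).Rk 1 := d.rl1.tens (Bun.rk_line _)
  have e : (d.l1.tens (Bun.line u.F (-k₁ • eT))).kl = d.l1.kl * Top.tK u.F (-k₁) := kl_tens _ _
  have := (pgq Sg).chi_eff hs
  have := kill_of (Ob := d.Ob) (C := C') hl (h0 := Sg.V.hh β₁ 0) (h1 := Sg.V.hh β₁ 1) (by omega)
    (by rw [d.eOb, hC, hC', e, map_mul, K.dual_lbK, neg_smul, neg_neg, d.el1, d.el2, add_assoc])
    (by rw [e, map_mul, d.el1]; exact u.f₁.nil)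
  rwa [e, map_mul] at this

theorem eval {C : Ch.Choice Sg.V} {u : Uni Sg p β₁ β₂ 0 0 0 1 b} {h : u.Good} (d : u.PData h C.N)
    (h₁ : Ch.HasSec Sg.V β₁) (h₂ : Ch.HasSec Sg.V β₂) (T : C.Top β₁ β₂) :
    ∃ h1 h2 e P hP, Top.Eval d.piece C.N h1 h2 e P hP := by
  obtain ⟨P, hP, hpt, htop⟩ := u.top_zero h₁ h₂
  obtain ⟨x, hx, -⟩ := hpt.2
  have c₁ := (pgq Sg).chi_eff h₁
  have c₂ := (pgq Sg).chi_eff h₂
  have e₁ : C.N + Sg.V.hh β₁ 1 + 1 = Sg.V.hh β₁ 0 := by have := T.chi₁; omega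
  have e₂ : C.N + Sg.V.hh β₂ 1 + 1 = Sg.V.hh β₂ 0 := by have := T.chi₂; omega
  have t0 : Top.tO u.F (-0) = 1 := by rw [neg_zero, Top.tO, zero_smul, lb_zero]
  have hx' := hP.proj.map x hx
  have hdc : ∀ {β : Sg.V.G} {k : ℤ} {I : Pt → XL Sg Sg.F}, IFam u.F p β 0 k I →
      K.rk hx' (dcl (r1 Sg k) u.F p I (rkU Sg p β 0)) = 1 := fun f => by
    rw [dcl, rk_kc ((f.fam.ab p le_rfl).lamS _), finrank_lamS, f.finrank_pc hx', Nat.choose_self]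
    rfl
  refine ⟨Sg.V.hh β₁ 1, Sg.V.hh β₂ 1, u.ddK, P, hP, ?_, d.eX0, ?_, ?_, ?_, hpt, ?_, ?_⟩
  · have := ((((pure_dcl u.f₁.fam u.tt (rkU Sg p β₁ 0)).mul
      (pure_dcl u.f₂.fam u.tt (rkU Sg p β₂ 0))).pull hpt.1 hP.proj).eq_of_isPt hpt hx)
    rw [rk_pull, map_mul (K.rk _), hdc u.f₁, hdc u.f₂, mul_one, one_smul] at this
    exact ⟨_, this⟩
  · obtain ⟨E, hE, hC⟩ := h.ob_split
    have : E.kl = 0 := kl_of_bot fun y hy => Submodule.finrank_eq_zero.1 (hE y hy)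
    change d.Ob.kl = _ • K.dual _ d.l1.kl + _ • (K.dual _ d.l2.kl * _)
    rw [d.eOb, hC, this, add_zero, d.el1, d.el2, Top.tK, zero_smul, lbK_zero, mul_one]; rfl
  · have := u.f₁.nil
    rw [t0, mul_one, ← d.el1, ← e₁] at this
    exact this
  · have := u.f₂.nil
    rw [← d.el2, ← e₂] at this
    exact this
  · rw [t0, mul_one, ← d.el1, ← d.el2, ← e₁, ← e₂] at htop
    exact htop
  · change K.pull hP.proj (d.Nm.kl - d.Em.kl) = _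
    have a₁ := ((pure_chiK u.f₁.fam u.f₂.fam u.tt u.nb).pull hpt.1 hP.proj).eq_of_isPt hpt hx
    have a₂ := ((pure_chiK u.f₂.fam u.f₁.fam u.tt u.nb).pull hpt.1 hP.proj).eq_of_isPt hpt hx
    rw [rk_pull, u.f₁.rk_chiK u.f₂ u.nb, T.chi₁, T.chi₁₂] at a₁
    rw [rk_pull, u.f₂.rk_chiK u.f₁ u.nb, T.chi₂, T.chi₂₁] at a₂
    rw [d.emov, movK, map_add, a₁, a₂]
    simp [Top.tK]
end PData
end Uni

end Crest.Agent.N265.M
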