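import Crest.Agent.N265.M.Asm1

/-! # Row 265, assembly II: the index sets, the pieces and the Quot schemes -/

set_option autoImplicit false
set_option linter.dupNamespace false
noncomputable section
open MvPolynomial Module TensorProduct

namespace Crest.Agent.N265.M
open Crest.Agent.R274
open Defs_781 Lat_781 SnapA_99 SnapB_99 SnapE_99 Gen7_750 Xs1_781 SkDefs_474
open Alg GV Br N Fib _root_.Crest.Agent.N265.Pow
variable {Sg : Surf} {β β' β₁ β₂ : Sg.V.G} {n₁ n₂ l p : ℕ} {C : Ch.Choice Sg.V}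

/-- a representative of the linear equivalence class -/
def rep (β : Sg.V.G) : Sg.V.G := (Quotient.mk ⟨Lin Sg, lin_equiv Sg⟩ β).out
lemma lin_rep (β : Sg.V.G) : Lin Sg β (rep β) :=
  (lin_equiv Sg).symm (Quotient.mk_out (s := ⟨Lin Sg, lin_equiv Sg⟩) β)
lemma Lin.rep_eq (h : Lin Sg β β') : rep β = rep β' :=
  congrArg Quotient.out (Quotient.sound (s := ⟨Lin Sg, lin_equiv Sg⟩) h)
lemma rep_rep (β : Sg.V.G) : rep (rep β) = rep β := (lin_rep β).rep_eq.symm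

lemma OK.nTop (h : OK C l β₁ β₂ n₁ n₂) : C.nTop β₁ β₂ = (n₁ + n₂ + l : ℕ) := by
  have := (C.hilb_iff.1 h.hilb).2
  push_cast at this ⊢; omega
lemma OK.phi (h : OK C l β₁ β₂ n₁ n₂) : Ch.Phi Sg.V β₁ β₂ = Ch.Phi Sg.V C.b0 C.b0 :=
  (C.vdim_iff (pgq Sg)).1 ((C.hilb_iff.1 h.hilb).2 ▸ h.vd)
lemma OK.move (h : OK C l β₁ β₂ n₁ n₂) {l' m₁ m₂ : ℕ} (e : m₁ + m₂ + l' = n₁ + n₂ + l) :
    OK C l' β₁ β₂ m₁ m₂ := by
  have e' : ((m₁ + m₂ : ℕ) : ℤ) = C.nTop β₁ β₂ - l' := by rw [h.nTop, ← e]; push_cast; ring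
  exact ⟨h.s₁, h.s₂, C.hilb_iff.2 ⟨(C.hilb_iff.1 h.hilb).1, e'⟩,
    e' ▸ (C.vdim_iff (pgq Sg)).2 h.phi⟩
lemma ok_self (C : Ch.Choice Sg.V) : OK C 2 C.b0 C.b0 0 0 :=
  ⟨C.hasSec, C.hasSec, C.hilb_self 2, C.vdim_self (pgq Sg) 2⟩

/-- the families of fixed pieces -/
def Fm (C : Ch.Choice Sg.V) : Type :=
  {φ : Sg.V.G × Sg.V.G × ℕ // rep φ.1 = φ.1 ∧ rep φ.2.1 = φ.2.1 ∧ OK C φ.2.2 φ.1 φ.2.1 0 0}
namespace Fm
variable (φ : Fm C)
/-- number of points on the top level -/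
def ν : ℕ := φ.1.2.2
lemma ok {n : ℕ × ℕ} (e : n.1 + n.2 + l = φ.ν) : OK C l φ.1.1 φ.1.2.1 n.1 n.2 :=
  φ.2.2.2.move (e.trans (zero_add _).symm)
lemma ext' {φ ψ : Fm C} (h₁ : Lin Sg φ.1.1 ψ.1.1) (h₂ : Lin Sg φ.1.2.1 ψ.1.2.1) : φ = ψ := by
  have e₁ := φ.2.1.symm.trans (h₁.rep_eq.trans ψ.2.1)
  have e₂ := φ.2.2.1.symm.trans (h₂.rep_eq.trans ψ.2.2.1)
  have a := φ.2.2.2.nTop
  have b := ψ.2.2.2.nTop
  rw [e₁, e₂, b] at a
  exact Subtype.ext (Prod.ext e₁ (Prod.ext e₂ (by push_cast at a; omega)))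
end Fm
/-- the family of an admissible type -/
def OK.fm (h : OK C l β₁ β₂ n₁ n₂) : Fm C := ⟨(rep β₁, rep β₂, n₁ + n₂ + l), rep_rep _, rep_rep _,
  (h.lin (lin_rep _) (lin_rep _)).move (zero_add _)⟩

variable (Q : ∀ l, QL C p l (l + 1))

theorem good_all : ∀ (m : ℕ) {l n₁ n₂ : ℕ} (h : OK C l β₁ β₂ n₁ n₂), n₁ + n₂ = m →
    ((Q l).U h).Good
  | _, _, 0, 0, h, _ => Uni.good_zero _ h.s₁ h.s₂
  | 0, _, _ + 1, _, _, e => by omega
  | 0, _, _, _ + 1, _, e => by omega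
  | m + 1, l, n₁ + 1, n₂, h, e =>
    (good_all m (h.move (l' := l + 1) (m₁ := n₁) (m₂ := n₂) (by omega)) (by omega)).step _
      (by omega)
  | m + 1, l, 0, n₂ + 1, h, e =>
    ((good_all m (h.move (l' := l + 1) (m₁ := 0) (m₂ := n₂) (by omega)) (by omega)).swap.step
      ((Q l).U h).swap (by omega)).swap
theorem good (h : OK C l β₁ β₂ n₁ n₂) : ((Q l).U h).Good := good_all Q _ h rfl

include Q in
theorem finite_Fm : Finite (Fm C) := by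
  classical
  obtain ⟨T, hT⟩ := finite_classes Sg p
  have H : ∀ φ : Fm C, ∃ γ : T × T, Lin Sg φ.1.1 γ.1 ∧ Lin Sg φ.1.2.1 γ.2 := fun φ => by
    obtain ⟨x, hx⟩ := (good Q φ.2.2.2).1.nonempty
    have f₁ := ((Q _).U φ.2.2.2).f₁
    have f₂ := ((Q _).U φ.2.2.2).f₂
    obtain ⟨γ₁, h₁, e₁⟩ := hT _ _ _ (f₁.ty x hx) (f₁.le hx) (f₁.fam.reg x hx)
    obtain ⟨γ₂, h₂, e₂⟩ := hT _ _ _ (f₂.ty x hx) (f₂.le hx) (f₂.fam.reg x hx)
    exact ⟨(⟨γ₁, h₁⟩, ⟨γ₂, h₂⟩), e₁, e₂⟩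
  choose γ hγ using H
  refine Finite.of_injective γ fun φ ψ e => Fm.ext' ?_ ?_
  · exact (lin_equiv Sg).trans (hγ φ).1 ((lin_equiv Sg).symm (e ▸ (hγ ψ).1))
  · exact (lin_equiv Sg).trans (hγ φ).2 ((lin_equiv Sg).symm (e ▸ (hγ ψ).2))

/-- the data of a piece -/
def pd (h : OK C l β₁ β₂ n₁ n₂) : ((Q l).U h).PData (good Q h) C.N :=
  ((good Q h).exists_pdata (.inl ⟨rfl, rfl⟩) C.N).some
/-- the pieces -/
def xx (φ : Fm C) (n : ℕ × ℕ) : Top.Piece (Sg.S 0) :=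
  if h : n.1 + n.2 ≤ φ.ν then (pd Q (φ.ok (Nat.add_sub_cancel' h))).piece else (pd Q φ.2.2.2).piece
lemma xx_eq (φ : Fm C) {n : ℕ × ℕ} (e : n.1 + n.2 + l = φ.ν) : xx Q φ n = (pd Q (φ.ok e)).piece := by
  obtain rfl : l = φ.ν - (n.1 + n.2) := by omega
  rw [xx, dif_pos (by omega)]

/-- index set of level `k` -/
abbrev Ix (C : Ch.Choice Sg.V) (k : ℕ) : Type := Top.Idx (Fm.ν (C := C)) k
lemma Ix.e {k : ℕ} (i : Ix C k) : i.2.1.1 + i.2.1.2 + k = i.1.1.ν := by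
  have := Finset.HasAntidiagonal.mem_antidiagonal.1 i.2.2
  have := i.1.2
  omega
lemma Ix.ok {k : ℕ} (i : Ix C k) : OK C k i.1.1.1.1 i.1.1.1.2.1 i.2.1.1 i.2.1.2 := i.1.1.ok i.e
lemma Ix.ext' {k : ℕ} {i j : Ix C k} (h : i.1.1 = j.1.1) (h' : i.2.1 = j.2.1) : i = j := by
  obtain ⟨⟨φ, _⟩, n, _⟩ := i
  obtain ⟨⟨ψ, _⟩, m, _⟩ := j
  dsimp only at h h'
  subst h h'
  rfl

namespace QL
variable {b : ℕ} (q : QL C p l b)
lemma disj {k : ℕ} (q : QL C p k b) {i j : Ix C k} (h : i ≠ j) :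
    Disjoint (q.U i.ok).F.pts (q.U j.ok).F.pts := by
  refine Set.disjoint_left.2 fun x hi hj => h ?_
  obtain ⟨e₁, e₂⟩ := eqv_of_pair fun I hI => (q.eqv i.ok x hi I hI).symm.trans (q.eqv j.ok x hj I hI)
  have t₁ := (((q.U i.ok).f₁.ty x hi).congr e₁).uniq ((q.U j.ok).f₁.ty x hj)
  have t₂ := (((q.U i.ok).f₂.ty x hi).congr e₂).uniq ((q.U j.ok).f₂.ty x hj)
  exact Ix.ext' (Fm.ext' t₁.1 t₂.1) (Prod.ext t₁.2 t₂.2)
lemma cov {k : ℕ} (q : QL C p k b) {x : Pt} (hx : x ∈ q.Q.pts) (w : ℕ → ℤ)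
    (hw : ∀ v : Var, x v ≠ 0 → v.2.2 = w v.1) : ∃ i : Ix C k, x ∈ (q.U i.ok).F.pts := by
  obtain ⟨J₁, J₂, β₁, β₂, n₁, n₂, h, t₁, t₂, e⟩ := q.cover x hx w hw
  refine ⟨⟨⟨h.fm, Nat.le_add_left _ _⟩, (n₁, n₂), Finset.HasAntidiagonal.mem_antidiagonal.2
    (Nat.add_sub_cancel _ _).symm⟩, q.mem _ x hx J₁ J₂ (t₁.lin (lin_rep _)) (t₂.lin (lin_rep _)) e⟩

variable (hb : 0 ∉ q.Q.B) (h : OK C l β₁ β₂ n₁ n₂)
lemma eqv' {x : Pt} (hx : x ∈ (q.U h).F.pts) :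
    EqL (q.L (restr q.Q.B x)) (piX ![(q.U h).I₁ x, (q.U h).I₂ x]) := by
  rw [q.Q.restr_eq ((q.sub h).2 hx)]; exact q.eqv h x hx
lemma pull_A : K.pull ((q.sub h).proj.fib_map _) (Acl (r2 Sg) q.Q p q.L) =
    Acl (r1 Sg 0) _ p (q.U h).I₁ + Acl (r1 Sg 1) _ p (q.U h).I₂ := by
  rw [q.fam.pull_Acl (q.sub h).proj, Acl_congr fun x hx => q.eqv' h hx,
    Acl_pair (q.U h).f₁.fam (q.U h).f₂.fam]
include hb in
lemma pull_B : K.pull ((q.sub h).proj.fib_map _) (Bcl (r2 Sg) q.Q p q.L) =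
    Bcl (r1 Sg 0) _ p (q.U h).I₁ + Bcl (r1 Sg 1) _ p (q.U h).I₂ := by
  rw [q.fam.pull_Bcl hb (q.sub h).proj (q.U h).nb, Bcl_congr fun x hx => q.eqv' h hx,
    Bcl_pair (q.U h).f₁.fam (q.U h).f₂.fam (q.U h).nb]
include hb in
lemma pull_chi : K.pull (q.sub h).proj (chiK (r2 Sg) (r2 Sg) q.Q p q.L q.L) =
    (q.U h).fixK + (q.U h).movK := by
  rw [q.fam.pull_chiK q.fam hb _ (q.U h).nb, chiK_congr (fun x hx => q.eqv' h hx)
    fun x hx => q.eqv' h hx, chiK_pair (q.U h).f₁.fam (q.U h).f₂.fam (q.U h).nb]; rfl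
lemma pull_d : K.pull (q.sub h).proj (dcl (r2 Sg) q.Q p q.L
    (Uni.rkU Sg p β₁ n₁ + Uni.rkU Sg p β₂ n₂)) = (q.U h).ddK := by
  rw [q.fam.pull_dcl, dcl_congr fun x hx => q.eqv' h hx, dcl_pair (q.U h).f₁.fam (q.U h).f₂.fam
    (fun x hx => (q.U h).f₁.finrank_pc hx) fun x hx => (q.U h).f₂.finrank_pc hx]; rfl
include hb in
lemma tan_eq {g : (q.U h).Good} {N : ℕ} (d : (q.U h).PData g N) :
    ((Bun.tan q.Y q.V q.hV q.n q.hY).pull ((q.sub h).trans q.cone.sub).proj).kl +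
      (d.Em.sum d.Ob).kl = (q.E.pull (q.sub h).proj).kl + (Bun.tan _ q.V
        (N265.V.vars_sub q.hV ((q.sub h).trans q.cone.sub)) _ g.2).kl + d.Nm.kl := by
  have := congrArg (K.pull (q.sub h).proj) q.tv
  rw [← K.pull_kl, K.pull_pull, K.pull_kl, map_add, map_add, K.pull_kl, map_one,
    q.pull_chi hb h] at this
  rw [this, kl_sum, d.eOb, ← tanK_eq g.2, tanK_eq g.2 (q.U h).hvars, ← d.emov, Uni.obK, Uni.tcl]
  ring
end QL

theorem exists_glob [Fintype (Fm C)] {k b : ℕ} (q : QL C p k b) (b0 : b ≠ 0)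
    (g : ∀ i : Ix C k, (q.U i.ok).Good) (d : ∀ i, (q.U i.ok).PData (g i) C.N) :
    Nonempty (Top.Glob (Sg.S 0) fun i => (d i).piece) := by
  classical
  have hb : 0 ∉ q.Q.B := by rw [q.B, Finset.mem_singleton]; omega
  have dis : Disjoint q.Q.B (Sg.S 0).B := (base_S Sg 0).disj hb
  obtain ⟨r, hr⟩ := q.fam.exists_rk'
  obtain ⟨A, B, eA, eB, rA, rB⟩ := q.fam.exists_AB hb hr
  let at' (E : Bun (q.Q.fib (Sg.S 0))) (z : Pt) : Bun q.Q :=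
    if hz : z ∈ (Sg.S 0).pts then E.atPt dis (Sg.S_ttriv 0) z hz else Bun.zero _
  have rk : ∀ {E m}, E.Rk m → ∀ z ∈ (Sg.S 0).pts, (at' E z).Rk m := fun h z hz => by
    simp only [at', dif_pos hz]; exact fun x hx => h _ (Spc.add_mem_fib dis hx hz).1
  have kl : ∀ E z hz (i : Ix C k), K.pull (q.sub i.ok).proj (at' E z).kl =
      (q.U i.ok).atP z hz (K.pull ((q.sub i.ok).proj.fib_map _) E.kl) := fun E z hz i => by
    simp only [at', dif_pos hz]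
    rw [Uni.atP, K.atPt_pull _ dis, K.atPt_kl]
  have pU : ∀ z hz (i : Ix C k), K.pull (q.sub i.ok).proj (at' A z).kl =
      ((d i).U1 z).kl + ((d i).U2 z).kl := fun z hz i => by
    rw [kl A z hz, eA, q.pull_A, map_add, (d i).eU1 z hz, (d i).eU2 z hz]
  have pB : ∀ z hz (i : Ix C k), K.pull (q.sub i.ok).proj (at' B z).kl =
      ((d i).B1 z).kl + ((d i).B2 z).kl := fun z hz i => by
    rw [kl B z hz, eB, q.pull_B hb, map_add, (d i).eB1 z hz, (d i).eB2 z hz]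
  obtain ⟨z, hz⟩ := (Sg.S_irred 0).nonempty
  have hrk : ∀ i : Ix C k, r = (d i).r₁ + (d i).r₂ := fun i => by
    obtain ⟨x, hx⟩ := (g i).1.nonempty
    have := congrArg (K.rk hx) (pB z hz i)
    rw [K.pull_kl, map_add, K.rk_kl, K.rk_kl, K.rk_kl, (rk rB z hz).pull _ x hx,
      (d i).rB1 z hz x hx, (d i).rB2 z hz x hx] at this
    exact_mod_cast this
  have rU : ∀ z ∈ (Sg.S 0).pts, (at' A z).Rk (r + 2) := rk rA
  obtain ⟨vir, u, a, hu, h1, h2⟩ := N265.V.loc q.hY q.hV q.hE q.cone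
    (fun i : Ix C k => (q.U i.ok).F) (fun i _ => (q.U i.ok).w) (fun i => (q.U i.ok).dim)
    (fun i => q.sub i.ok) (fun i => (q.U i.ok).tt) (fun _ _ => q.disj) (fun _ hx => q.cov hx)
    (fun i => (g i).2) fun i => q.ht i.ok
  refine ⟨{
    Q := q.Q, dis := dis, pr := fun i => (q.sub i.ok).proj, rB := r, U := at' A, B := at' B
    hU := rU, hB := rk rB
    res := fun i z hz => ?_
    X0 := op _ (dcl (r2 Sg) q.Q p q.L (r + 2)) ^ 2 * (1 - op _ ((at' A z).det _ (rU z hz)).kl *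
      op _ (K.dual _ ((at' B z).det _ (rk rB z hz)).kl) * Top.tO _ (-1)) ^ (2 * C.N - 2)
    hX0 := fun i => ?_
    σ := SS (r2 Sg) q.Q p q.L
    hσ := fun i => ?_
    loc := ⟨vir, u, a, hu, h1, fun i => ?_⟩ }⟩
  · refine ((map_sub _ _ _).trans (congrArg₂ _ (pU z hz i) (pB z hz i))).trans ?_
    exact (sub_add_sub_comm _ _ _ _).symm
  · have e : r + 2 = Uni.rkU Sg p i.1.1.1.1 i.2.1.1 + Uni.rkU Sg p i.1.1.1.2.1 i.2.1.2 := by
      rw [← (d i).hr₁, ← (d i).hr₂, hrk i]; ring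
    have dU := op_det_add ((d i).rU1 z hz) ((d i).rU2 z hz) ((rU z hz).pull (q.sub i.ok).proj)
      (by rw [hrk i]; ring) ((K.pull_kl _ _).symm.trans (pU z hz i))
    have dB := op_det_add ((d i).rB1 z hz) ((d i).rB2 z hz) ((rk rB z hz).pull (q.sub i.ok).proj)
      (hrk i) ((K.pull_kl _ _).symm.trans (pB z hz i))
    have dd := congrArg (op _) (Bun.rk_det _ _ ((rk rB z hz).pull (q.sub i.ok).proj)).mul_dual
    rw [map_mul, map_one, dB] at dd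
    rw [(d i).det1 z hz, (d i).det2 z hz, map_mul, map_mul] at dU
    change Op.pull (q.sub i.ok).proj _ = (d i).X0
    rw [(d i).eX0]
    simp only [map_mul, map_pow, map_sub, map_one, Op.pull_op, K.pull_dual, kl_det_pull,
      Top.pull_tO]
    rw [congrArg (dcl (r2 Sg) q.Q p q.L) e, q.pull_d, dU]
    congr 3
    rw [← mul_one (op _ (d i).l1.kl * op _ (d i).l2.kl), ← dd]
    ring
  · change K.pull ((q.sub i.ok).proj.fib_map _) _ = (d i).σ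
    rw [(d i).eσ, SS, SS, SS, map_sub, q.pull_A, q.pull_B hb]
    ring
  · refine (h2 i _ _ (q.tan_eq hb i.ok (d i))).trans ?_
    rw [eu_add (kl_sum _ _), mul_smul]
    rfl

end Crest.Agent.N265.M
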