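import Crest.Agent.N265.M.Defs
import Crest.Agent.N265.Fib.Pers

/-!
# Row 265, families of lattices: basic API (task M-FAM, part A)
-/

set_option autoImplicit false
set_option linter.dupNamespace false
noncomputable section
open MvPolynomial Module TensorProduct

namespace Crest.Agent.N265.M
open Crest.Agent.R274
open Defs_781 Lat_781 SnapA_99 SnapB_99 SnapE_99 Gen7_750 Xs1_781 SkDefs_474
open Alg GV Br N Fib _root_.Crest.Agent.N265.Pow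
variable {Sg : Surf}

lemma SA_eq (j : ℕ) : SA Sg j = AA Sg.V.X j := (AA_nat Sg.V j).symm
lemma SA_mem_AA {j : ℕ} (a : SA Sg j) : a.1 ∈ AA Sg.V.X j := by
  rw [← SA_eq]; exact a.2
lemma t_pow_mem_SA (i : Fin 3) (k : ℕ) : Sg.V.X.t i ^ k ∈ SA Sg k := by
  rw [SA_eq]; exact T1_pow_le_AA k (Submodule.pow_mem_pow _ (t_mem_T1 i) k)

section gen
variable {k F : Type} [Field k] [Field F] [Algebra k F] {n : ℕ} {c : Coord k F n}
  {V W : Type} [AddCommGroup V] [Module k V] [Module F V] [IsScalarTower k F V]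
  [AddCommGroup W] [Module k W] [Module F W] [IsScalarTower k F W]
/-- cohomology of the pull back along an isomorphism -/
lemma bij_comap (L : Lat c W) {g : V →ₗ[F] W} (hg : Function.Bijective g) (j : ℤ) :
    ∃ h : (tw (Lat_781.comap L g hg.1) j).toFam.Maps (tw L j).toFam (kl k g),
      ∀ p, Function.Bijective (h.hom.H p) := by
  have key : ∀ (I : Finset (Fin (n + 1))), I.Nonempty → ∀ x : V,
      x ∈ (tw (Lat_781.comap L g hg.1) j).M I ↔ g x ∈ (tw L j).M I := by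
    rintro I ⟨i, hi⟩ x
    rw [mem_tw_iff hi, mem_tw_iff hi, ← map_smul]
    exact Iff.rfl
  have hm : (tw (Lat_781.comap L g hg.1) j).toFam.Maps (tw L j).toFam (kl k g) :=
    fun I hI x hx => (key I hI x).1 hx
  have hi : Function.Injective (kl k g) := hg.1
  refine ⟨hm, Ch.maps_bij hm hi fun I hI y hy => ?_⟩
  obtain ⟨x, rfl⟩ := hg.2 y
  exact ⟨x, (key I hI x).2 hy, rfl⟩
lemma regL_comap {L : Lat c W} {g : V →ₗ[F] W} (hg : Function.Bijective g) {m : ℤ}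
    (h : RegL L m) : RegL (Lat_781.comap L g hg.1) m := fun l => by
  obtain ⟨_, hb⟩ := bij_comap L hg (m - (l + 1))
  have := h l
  exact (hb (l + 1)).1.subsingleton
lemma cL_comap (L : Lat c W) {g : V →ₗ[F] W} (hg : Function.Bijective g) :
    cL (Lat_781.comap L g hg.1) = cL L := by
  funext j
  obtain ⟨_, hb⟩ := bij_comap L hg j
  rw [cL_eq, cL_eq]
  refine Finset.sum_congr rfl fun p _ => ?_
  congr 2
  exact (LinearEquiv.ofBijective _ (hb p)).finrank_eq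
end gen

section lat
variable {M N : Type} [AddCommGroup M] [Module ℂ M] [Module Sg.F M] [IsScalarTower ℂ Sg.F M]
  [AddCommGroup N] [Module ℂ N] [Module Sg.F N] [IsScalarTower ℂ Sg.F N]
lemma cL_congr {L L₁ : XL Sg M} (h : EqL L L₁) : cL L.toLat = cL L₁.toLat :=
  funext fun e => (eqv_tw h e).chi
lemma regL_congr {L L₁ : XL Sg M} (h : EqL L L₁) {m : ℤ}
    (hr : RegL L.toLat m) : RegL L₁.toLat m := fun l =>
  have := hr l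
  ((eqv_tw h _).H _).symm.injective.subsingleton
lemma regL_comapX {L : XL Sg N} (e : M ≃ₗ[Sg.F] N) {m : ℤ} (h : RegL L.toLat m) :
    RegL (comapX L e.toLinearMap e.injective).toLat m :=
  regL_comap (g := e.toLinearMap) e.bijective h
lemma cL_comapX (L : XL Sg N) (e : M ≃ₗ[Sg.F] N) :
    cL (comapX L e.toLinearMap e.injective).toLat = cL L.toLat :=
  cL_comap L.toLat (g := e.toLinearMap) e.bijective
lemma mF_mem {V : Type} [AddCommGroup V] [Module ℂ V] {f : V →ₗ[ℂ] M} {L : XL Sg M} {j k : ℕ}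
    {U : Submodule ℂ V} (h : ∀ v ∈ U, f v ∈ Gm L.toLat j) {t : V ⊗[ℂ] SA Sg k}
    (ht : t ∈ tens U ⊤) : mF f k t ∈ Gm L.toLat (k + j : ℕ) := by
  refine (tens_le (N := (Gm L.toLat (k + j : ℕ)).comap (mF f k))).2 (fun v hv a _ => ?_) ht
  rw [Submodule.mem_comap, mF_tmul, Nat.cast_add]
  exact AA_smul_mem (SA_mem_AA a) (h v hv)
lemma map_mF {V : Type} [AddCommGroup V] [Module ℂ V] (f : V →ₗ[ℂ] M) (U : Submodule ℂ V)
    (k : ℕ) : (tens U (⊤ : Submodule ℂ (SA Sg k))).map (mF f k) = AA Sg.V.X k • U.map f := by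
  apply le_antisymm
  · rw [Submodule.map_le_iff_le_comap, tens_le]
    intro v hv a _
    rw [Submodule.mem_comap, mF_tmul]
    exact Submodule.smul_mem_smul (SA_mem_AA a) ⟨v, hv, rfl⟩
  · rw [Submodule.smul_le]
    rintro a ha _ ⟨v, hv, rfl⟩
    rw [← SA_eq] at ha
    exact ⟨v ⊗ₜ ⟨a, ha⟩, tmul_mem hv trivial, rfl⟩
end lat
@[simp] lemma mm_tmul {V : Type} [AddCommGroup V] [Module ℂ V] (e k : ℕ) (v : V) (a : SA Sg e)
    (b : SA Sg k) : mm V e k ((v ⊗ₜ a) ⊗ₜ b) = v ⊗ₜ mulA Sg e k a b := rfl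

namespace Amb
variable (𝔞 𝔟 : Amb Sg)
lemma in_G (j : ℕ) (B : Finset ℕ) : (𝔞.G j).In B :=
  in_pi fun _ => (in_triv _).shift (zsmul_mem (eT_mem B) _)
lemma e_inc (j : ℕ) (w : (𝔞.G j).V) (a : 𝔞.ι) : 𝔞.e (𝔞.inc j w) a = (w a).1 := by
  rw [inc_apply, LinearEquiv.apply_symm_apply]
lemma inc_inj (j : ℕ) : Function.Injective (𝔞.inc j) := fun w w' h => by
  funext a
  apply Subtype.ext
  rw [← e_inc, h, e_inc]
lemma mem_Gm_O {j : ℕ} {v : 𝔞.M} : v ∈ Gm 𝔞.O.toLat j ↔ ∀ a, 𝔞.e v a ∈ SA Sg j := by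
  rw [SA_eq]; exact (mem_Gm_comap (hg := 𝔞.e.injective)).trans mem_Gm_OP
lemma range_inc (j : ℕ) : LinearMap.range (𝔞.inc j) = Gm 𝔞.O.toLat j := by
  ext v
  rw [mem_Gm_O]
  constructor
  · rintro ⟨w, rfl⟩ a
    rw [e_inc]; exact (w a).2
  · intro h
    exact ⟨fun a => ⟨_, h a⟩, 𝔞.e.symm_apply_apply v⟩
lemma mul_tmul (j k : ℕ) (w : (𝔞.G j).V) (a : SA Sg k) (i : 𝔞.ι) :
    𝔞.mul j k (w ⊗ₜ a) i = mulA Sg j k (w i) a := rfl
lemma inc_mul (j k : ℕ) (t : (𝔞.G j).V ⊗[ℂ] SA Sg k) :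
    𝔞.inc (k + j) (𝔞.mul j k t) = mF (𝔞.inc j) k t := by
  induction t using TensorProduct.induction_on with
  | zero => rw [map_zero, map_zero, map_zero]
  | add s t hs ht => rw [map_add, map_add, map_add, hs, ht]
  | tmul w a =>
    apply 𝔞.e.injective
    funext i
    rw [mF_tmul, map_smul, e_inc, Pi.smul_apply, e_inc, mul_tmul, mulA_val, smul_eq_mul, mul_comm]
lemma g_apply (j : ℕ) (w : (𝔞.G j).V) (i : 𝔞.ι) :
    (𝔞.G j).g w i = chi (𝔞.wt i • eT) • w i := rfl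
lemma deg0_mul (j k : ℕ) : Deg0 (WA Sg (𝔞.G j) k) (𝔞.G (k + j)) (𝔞.mul j k) := fun t => by
  induction t using TensorProduct.induction_on with
  | zero => rw [map_zero, map_zero, map_zero]
  | add s t hs ht => rw [map_add, map_add, map_add, map_add, hs, ht]
  | tmul w a =>
    funext i
    rw [g_apply, mul_tmul]
    exact LinearMap.map_smul₂ (mulA Sg j k) _ _ _
/-- multiplication by a fixed section -/
def mulR (j k : ℕ) (a : SA Sg k) : (𝔞.G j).V →ₗ[ℂ] (𝔞.G (k + j)).V :=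
  𝔞.mul j k ∘ₗ (TensorProduct.mk ℂ (𝔞.G j).V (SA Sg k)).flip a
lemma mulR_apply (j k : ℕ) (a : SA Sg k) (w : (𝔞.G j).V) :
    𝔞.mulR j k a w = 𝔞.mul j k (w ⊗ₜ a) := rfl
lemma deg0_mulR (j k : ℕ) (a : SA Sg k) : Deg0 (𝔞.G j) (𝔞.G (k + j)) (𝔞.mulR j k a) := fun w =>
  𝔞.deg0_mul j k (w ⊗ₜ a)
lemma deg0_res (p : ℕ) : Deg0 (𝔞.EG 𝔟 p) (𝔞.HG 𝔟 p) (𝔞.res 𝔟 p) := fun φ => by
  refine LinearMap.ext fun t => ?_
  obtain ⟨s, rfl⟩ := (WA Sg (𝔞.G p) 3).g.surjective t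
  rw [res_apply]
  have h1 : LinearMap.rTensor (SA Sg 3) ((𝔞.EG 𝔟 p).g φ) ((WA Sg (𝔞.G p) 3).g s) =
      (WA Sg (𝔟.G p) 3).g (LinearMap.rTensor (SA Sg 3) φ s) := by
    induction s using TensorProduct.induction_on with
    | zero => rw [map_zero, map_zero, map_zero, map_zero]
    | add s t hs ht => rw [map_add, map_add, map_add, map_add, hs, ht]
    | tmul w a =>
      change ((𝔟.G p).g (φ ((𝔞.G p).g.symm ((𝔞.G p).g w)))) ⊗ₜ[ℂ] a = ((𝔟.G p).g (φ w)) ⊗ₜ[ℂ] a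
      rw [LinearEquiv.symm_apply_apply]
  rw [h1, 𝔟.deg0_mul p 3]
  change _ = (𝔟.G (3 + p)).g (𝔞.res 𝔟 p φ ((WA Sg (𝔞.G p) 3).g.symm ((WA Sg (𝔞.G p) 3).g s)))
  rw [LinearEquiv.symm_apply_apply, res_apply]
lemma kc_G (X : Spc) (j : ℕ) :
    kc X (𝔞.G j) (fun _ => ⊤) = (finrank ℂ (SA Sg j) : K X) * 𝔞.V X := by
  have h1 : ∀ a : 𝔞.ι, IsAB X ((triv (SA Sg j)).shift (𝔞.wt a • eT)) fun _ => ⊤ := fun a =>
    IsAB.top ((in_triv _).shift (zsmul_mem (eT_mem _) _))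
  have h2 := kc_pi h1
  rw [V, Finset.mul_sum, ← kc_congr (fun _ _ => Submodule.pi_top Set.univ), h2]
  refine Finset.sum_congr rfl fun a _ => ?_
  rw [kc_shift (IsAB.top (in_triv _)) (zsmul_mem (eT_mem _) _), kc_triv, finrank_top, mul_comm]
lemma pull_V {X Y : Spc} (q : Proj Y X) : K.pull q (𝔞.V X) = 𝔞.V Y := by
  rw [V, V, map_sum]
  exact Finset.sum_congr rfl fun a _ => K.pull_lbK q (zsmul_mem (eT_mem _) _)
lemma reg_O : RegL 𝔞.O.toLat 2 := regL_comapX 𝔞.e (reg_OP Sg 𝔞.ι)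
lemma cL_O (j : ℤ) : cL 𝔞.O.toLat j = Fintype.card 𝔞.ι * Sg.V.chi (j • Sg.V.h) := by
  rw [O, cL_comapX, cL_OP]
lemma pc_O (j : ℕ) : 𝔞.pc 𝔞.O j = ⊤ := by
  rw [pc, ← range_inc]
  exact eq_top_iff.2 fun w _ => ⟨w, rfl⟩
variable {𝔞 𝔟} {L L₁ : XL Sg 𝔞.M} {L' L₁' : XL Sg 𝔟.M} {p : ℕ}
lemma mem_pc {j : ℕ} {w : (𝔞.G j).V} : w ∈ 𝔞.pc L j ↔ 𝔞.inc j w ∈ Gm L.toLat j := Iff.rfl
lemma pc_mono (h : LeL L L₁) (j : ℕ) : 𝔞.pc L j ≤ 𝔞.pc L₁ j :=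
  Submodule.comap_mono (Gm_mono h j)
lemma pc_congr (h : EqL L L₁) (j : ℕ) : 𝔞.pc L j = 𝔞.pc L₁ j :=
  le_antisymm (pc_mono h.le j) (pc_mono h.symm.le j)
lemma map_pc (h : LeL L 𝔞.O) (j : ℕ) : (𝔞.pc L j).map (𝔞.inc j) = Gm L.toLat j :=
  Submodule.map_comap_eq_self (by rw [range_inc]; exact Gm_mono h j)
lemma finrank_pc' (h : LeL L 𝔞.O) (j : ℕ) :
    finrank ℂ (𝔞.pc L j) = finrank ℂ (Gm L.toLat j) := by
  rw [← map_pc h]
  exact (Submodule.equivMapOfInjective _ (𝔞.inc_inj j) _).finrank_eq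
lemma finrank_pc (h : LeL L 𝔞.O) (hr : RegL L.toLat p) {j : ℕ} (hj : p ≤ j + 1) :
    (finrank ℂ (𝔞.pc L j) : ℤ) = cL L.toLat j := by
  rw [finrank_pc' h, hr.finrank_eq (by exact_mod_cast hj)]
lemma mul_mem_pc {j k : ℕ} {t : (𝔞.G j).V ⊗[ℂ] SA Sg k} (h : t ∈ tens (𝔞.pc L j) ⊤) :
    𝔞.mul j k t ∈ 𝔞.pc L (k + j) := by
  rw [mem_pc, inc_mul]
  exact mF_mem (fun _ hv => hv) h
lemma map_mF_pc (h : LeL L 𝔞.O) (hr : RegL L.toLat p) {j : ℕ} (hj : p ≤ j) (k : ℕ) :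
    (tens (𝔞.pc L j) (⊤ : Submodule ℂ (SA Sg k))).map (mF (𝔞.inc j) k) =
      Gm L.toLat (k + j : ℕ) := by
  rw [map_mF, map_pc h, Nat.cast_add,
    gen_AA (fun e he => hr.gen he) (e := j) (by exact_mod_cast hj) k]
lemma map_mul_pc (h : LeL L 𝔞.O) (hr : RegL L.toLat p) {j : ℕ} (hj : p ≤ j) (k : ℕ) :
    (tens (𝔞.pc L j) ⊤).map (𝔞.mul j k) = 𝔞.pc L (k + j) := by
  apply le_antisymm
  · rintro _ ⟨t, ht, rfl⟩
    exact mul_mem_pc ht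
  · intro w hw
    rw [mem_pc, ← map_mF_pc h hr hj] at hw
    obtain ⟨t, ht, e⟩ := hw
    exact ⟨t, ht, 𝔞.inc_inj _ ((𝔞.inc_mul j k t).trans e)⟩
/-- saturation -/
lemma mem_pc_of_mul {j k : ℕ} {w : (𝔞.G j).V}
    (h : ∀ a : SA Sg k, 𝔞.mul j k (w ⊗ₜ a) ∈ 𝔞.pc L (k + j)) : w ∈ 𝔞.pc L j := by
  rw [mem_pc, mem_Gm]
  intro i
  have h1 := h ⟨_, t_pow_mem_SA i k⟩
  rw [mem_pc, inc_mul, mF_tmul, mem_Gm] at h1
  have h2 : Sg.V.X.t i ^ (-((k + j : ℕ) : ℤ)) • Sg.V.X.t i ^ k • 𝔞.inc j w ∈ L.M {i} := h1 i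
  rwa [smul_smul, ← zpow_natCast, ← zpow_add₀ (Sg.V.X.t_ne i), Nat.cast_add,
    show -((k : ℤ) + j) + k = -(j : ℤ) by ring] at h2
lemma pc_eq_iInf (j k : ℕ) :
    𝔞.pc L j = ⨅ a : SA Sg k, (𝔞.pc L (k + j)).comap (𝔞.mulR j k a) := by
  ext w
  rw [Submodule.mem_iInf]
  constructor
  · intro h a
    rw [Submodule.mem_comap, mulR_apply]
    exact mul_mem_pc (tmul_mem h Submodule.mem_top)
  · intro h
    refine mem_pc_of_mul (k := k) fun a => ?_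
    rw [← mulR_apply, ← Submodule.mem_comap]
    exact h a
lemma le_of_pc (h : LeL L 𝔞.O) (hr : RegL L.toLat p) {j : ℕ} (hj : p ≤ j)
    (e : 𝔞.pc L j ≤ 𝔞.pc L₁ j) : LeL L L₁ := by
  refine eqv_of_Gm hr (p := j) (by exact_mod_cast hj) ?_
  rw [← map_pc h, Submodule.map_le_iff_le_comap]
  exact e
lemma ker_mul (j k : ℕ) : LinearMap.ker (𝔞.mul j k) = LinearMap.ker (mF (𝔞.inc j) k) := by
  ext t
  rw [LinearMap.mem_ker, LinearMap.mem_ker, ← inc_mul, map_eq_zero_iff _ (𝔞.inc_inj _)]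
lemma KK_eq_mul (k : ℕ) : 𝔞.KK L p k = tens (𝔞.pc L p) ⊤ ⊓ LinearMap.ker (𝔞.mul p k) := by
  rw [KK, ker_mul]
lemma KK_congr (h : EqL L L₁) (k : ℕ) : 𝔞.KK L p k = 𝔞.KK L₁ p k := by
  rw [KK, KK, pc_congr h]
lemma mem_Hb {θ : (𝔞.HG 𝔟 p).V} : θ ∈ 𝔞.Hb 𝔟 L L' p ↔
    ∀ (k : ℕ) (t : ((𝔞.G p).V ⊗[ℂ] SA Sg 3) ⊗[ℂ] SA Sg k), t ∈ tens (𝔞.KK L p 3) ⊤ →
    mm _ 3 k t = 0 → 𝔟.mul (3 + p) k (LinearMap.rTensor _ θ t) ∈ 𝔟.pc L' (k + (3 + p)) := Iff.rfl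
lemma Hb_congr (h : EqL L L₁) (h' : EqL L' L₁') :
    𝔞.Hb 𝔟 L L' p = 𝔞.Hb 𝔟 L₁ L₁' p := by
  ext θ
  rw [mem_Hb, mem_Hb, KK_congr h]
  exact forall_congr' fun k => by rw [pc_congr h']
lemma den_congr (h : EqL L L₁) (h' : EqL L' L₁') :
    𝔞.den 𝔟 L L' p = 𝔞.den 𝔟 L₁ L₁' p := by rw [den, den, KK_congr h, pc_congr h']
lemma stab_congr (h : EqL L L₁) (h' : EqL L' L₁') :
    𝔞.stab 𝔟 L L' p = 𝔞.stab 𝔟 L₁ L₁' p := by rw [stab, stab, pc_congr h, pc_congr h']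
lemma Tv_congr (h : EqL L L₁) (h' : EqL L' L₁') :
    𝔞.Tv 𝔟 L L' p = 𝔞.Tv 𝔟 L₁ L₁' p := by rw [Tv, Tv, den_congr h h']
lemma den_le_Hb : 𝔞.den 𝔟 L L' p ≤ 𝔞.Hb 𝔟 L L' p := fun _ h _ _ ht _ =>
  mul_mem_pc (tmap_mem (fun s hs => h s hs) (fun _ _ => Submodule.mem_top) ht)
lemma inc_mul_res (φ : (𝔞.EG 𝔟 p).V) (k : ℕ) (t : ((𝔞.G p).V ⊗[ℂ] SA Sg 3) ⊗[ℂ] SA Sg k) :
    mF (𝔟.inc (3 + p)) k (LinearMap.rTensor _ (𝔞.res 𝔟 p φ) t) =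
      mF (𝔟.inc p ∘ₗ φ) (k + 3) (mm _ 3 k t) := by
  induction t using TensorProduct.induction_on with
  | zero => simp only [map_zero]
  | add s t hs ht => simp only [map_add, hs, ht]
  | tmul s b =>
    induction s using TensorProduct.induction_on with
    | zero => simp only [TensorProduct.zero_tmul, map_zero]
    | add s t hs ht => simp only [TensorProduct.add_tmul, map_add, hs, ht]
    | tmul w a =>
      rw [mm_tmul, mF_tmul, LinearMap.rTensor_tmul, mF_tmul, res_apply, inc_mul,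
        LinearMap.rTensor_tmul, mF_tmul, mulA_val, smul_smul, mul_comm, LinearMap.comp_apply]
lemma res_mem_Hb (φ : (𝔞.EG 𝔟 p).V) : 𝔞.res 𝔟 p φ ∈ 𝔞.Hb 𝔟 L L' p := fun k t _ h0 => by
  rw [mem_pc, inc_mul, inc_mul_res, h0, map_zero]
  exact zero_mem _
lemma stab_le_Tv : 𝔞.stab 𝔟 L L' p ≤ 𝔞.Tv 𝔟 L L' p := fun _ h _ hs =>
  mul_mem_pc (tmap_mem (fun s hs => h s hs) (fun _ _ => Submodule.mem_top) hs.1)
end Amb
lemma r1_inc (k : ℤ) (j : ℕ) (w : ((r1 Sg k).G j).V) : (r1 Sg k).inc j w = (w ()).1 := rfl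
lemma r2_inc (j : ℕ) (w : ((r2 Sg).G j).V) (i : Fin 2) : (r2 Sg).inc j w i = (w i).1 := rfl
lemma r1_O (k : ℤ) : EqL (r1 Sg k).O (OX Sg.V.X) := fun _ _ =>
  Submodule.ext fun _ => (mem_OP (X := Sg.V.X) (ι := Unit)).trans ⟨fun h => h (), fun h _ => h⟩
lemma r2_O : EqL (r2 Sg).O (OP Sg.V.X (Fin 2)) := fun _ _ => rfl
lemma r1_V (k : ℤ) (X : Spc) : (r1 Sg k).V X = Top.tK X k := Fintype.sum_unique _
lemma r2_V (X : Spc) : (r2 Sg).V X = Top.tK X 0 + Top.tK X 1 := Fin.sum_univ_two _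

variable {𝔞 𝔟 : Amb Sg} {X Y : Spc} {p : ℕ} {L L₁ : Pt → XL Sg 𝔞.M} {L' L₁' : Pt → XL Sg 𝔟.M}
namespace LFam
lemma pull (h : LFam 𝔞 X p L) (q : Proj Y X) : LFam 𝔞 Y p fun y => L (restr X.B y) where
  two := h.two
  le := fun y hy => h.le _ (q.map y hy)
  reg := fun y hy => h.reg _ (q.map y hy)
  hp := h.hp.imp fun _ hd => hd.imp fun _ hc y hy => hc _ (q.map y hy)
  ab := fun j hj => (h.ab j hj).pull q
lemma congr (h : LFam 𝔞 X p L) (e : ∀ x ∈ X.pts, EqL (L x) (L₁ x)) :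
    LFam 𝔞 X p L₁ where
  two := h.two
  le := fun x hx => (e x hx).symm.le.trans (h.le x hx)
  reg := fun x hx => regL_congr (e x hx) (h.reg x hx)
  hp := h.hp.imp fun _ hd => hd.imp fun _ hc x hx => (cL_congr (e x hx)).symm.trans (hc x hx)
  ab := fun j hj => (h.ab j hj).congr fun x hx => Amb.pc_congr (e x hx) j
lemma mono (h : LFam 𝔞 X p L) (q : Y.Sub X) : LFam 𝔞 Y p L where
  two := h.two
  le := fun _ hy => h.le _ (q.2 hy)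
  reg := fun _ hy => h.reg _ (q.2 hy)
  hp := h.hp.imp fun _ hd => hd.imp fun _ hc _ hy => hc _ (q.2 hy)
  ab := fun j hj => (h.ab j hj).mono q
lemma rk_aux (le : ∀ x ∈ X.pts, LeL (L x) 𝔞.O)
    (reg : ∀ x ∈ X.pts, RegL (L x).toLat p)
    (hp : ∃ (d : ℕ) (c : ℤ), ∀ x ∈ X.pts, cL (L x).toLat = HP Sg (Fintype.card 𝔞.ι) d c)
    {j : ℕ} (hj : p ≤ j + 1) : ∃ r, ∀ x ∈ X.pts, finrank ℂ (𝔞.pc (L x) j) = r := by
  obtain ⟨d, c, hc⟩ := hp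
  refine ⟨(HP Sg (Fintype.card 𝔞.ι) d c j).toNat, fun x hx => ?_⟩
  rw [← hc x hx, ← Amb.finrank_pc (le x hx) (reg x hx) hj, Int.toNat_natCast]
/-- one degree is enough: generation upwards (`GenA`), saturation downwards (`CogA`) -/
theorem of_one (two : 2 ≤ p) (le : ∀ x ∈ X.pts, LeL (L x) 𝔞.O)
    (reg : ∀ x ∈ X.pts, RegL (L x).toLat p)
    (hp : ∃ (d : ℕ) (c : ℤ), ∀ x ∈ X.pts, cL (L x).toLat = HP Sg (Fintype.card 𝔞.ι) d c)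
    {j : ℕ} (hj : p ≤ j) (ab : IsAB X (𝔞.G j) fun x => 𝔞.pc (L x) j) : LFam 𝔞 X p L := by
  refine ⟨two, le, reg, hp, fun i hi => ?_⟩
  obtain ⟨r, hr⟩ := rk_aux le reg hp (j := i) (by omega)
  rcases le_total j i with h | h
  · obtain ⟨k, rfl⟩ : ∃ k, i = k + j := ⟨i - j, by omega⟩
    have e := fun x hx => Amb.map_mul_pc (le x hx) (reg x hx) hj k
    exact ((ab.tens (IsAB.top (in_triv (SA Sg k)))).map_of_rk (𝔞.in_G _ _)
      (IsRM.const (𝔞.deg0_mul j k)) (n := r) fun x hx => by rw [e x hx, hr x hx]).congr e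
  · obtain ⟨k, rfl⟩ : ∃ k, j = k + i := ⟨j - i, by omega⟩
    have e := fun x (_ : x ∈ X.pts) => (Amb.pc_eq_iInf (L := L x) i k).symm
    have hm := fun a => IsRM.const (X := X) (𝔞.deg0_mulR i k a)
    exact ⟨𝔞.in_G _ _, ((CogA.iInf fun a => ab.cog.comap (hm a).reg).congr e).alg_of_rk hr,
      (N265.Eqv.iInf fun a => ab.eqv'.comap (hm a)).congr e⟩
lemma exists_rk (h : LFam 𝔞 X p L) {j : ℕ} (hj : p ≤ j) :
    ∃ r, ∀ x ∈ X.pts, finrank ℂ (𝔞.pc (L x) j) = r :=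
  rk_aux h.le h.reg h.hp (by omega)
end LFam
lemma ucl_congr (e : ∀ x ∈ X.pts, EqL (L x) (L₁ x)) (j : ℕ) :
    ucl 𝔞 X L j = ucl 𝔞 X L₁ j := kc_congr fun x hx => Amb.pc_congr (e x hx) j
lemma dcl_congr (e : ∀ x ∈ X.pts, EqL (L x) (L₁ x)) (r : ℕ) :
    dcl 𝔞 X p L r = dcl 𝔞 X p L₁ r := kc_congr fun x hx => by rw [Amb.pc_congr (e x hx)]
lemma Acl_congr (e : ∀ x ∈ X.pts, EqL (L x) (L₁ x)) :
    Acl 𝔞 X p L = Acl 𝔞 X p L₁ := by rw [Acl, Acl, ucl_congr e]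
lemma bcl_congr {b : ℕ} {W : GV} {KK KK' : ∀ k : ℕ, Pt → Submodule ℂ (WA Sg W k).V}
    (e : ∀ k, ∀ x ∈ X.pts, KK k x = KK' k x) (k : ℕ) : bcl Sg b X W KK k = bcl Sg b X W KK' k := by
  have hm := (Spc.fib_fst X (Sg.S b)).map
  have h1 : kc (X.fib (Sg.S b)) (WA Sg W (k + 1)) (ZZ Sg b X (KK k)) =
      kc (X.fib (Sg.S b)) (WA Sg W (k + 1)) (ZZ Sg b X (KK' k)) :=
    kc_congr fun y hy => by rw [ZZ, ZZ, e k _ (hm y hy)]
  rw [bcl, bcl, kc_congr fun y hy => e (k + 1) _ (hm y hy), h1]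
lemma Bcl_congr (e : ∀ x ∈ X.pts, EqL (L x) (L₁ x)) :
    Bcl 𝔞 X p L = Bcl 𝔞 X p L₁ := by
  rw [Bcl, Bcl, bcl_congr fun k x hx => Amb.KK_congr (e x hx) k]
lemma SS_congr (e : ∀ x ∈ X.pts, EqL (L x) (L₁ x)) :
    SS 𝔞 X p L = SS 𝔞 X p L₁ := by rw [SS, SS, Acl_congr e, Bcl_congr e]
lemma chiK_congr (e : ∀ x ∈ X.pts, EqL (L x) (L₁ x))
    (e' : ∀ x ∈ X.pts, EqL (L' x) (L₁' x)) :
    chiK 𝔞 𝔟 X p L L' = chiK 𝔞 𝔟 X p L₁ L₁' := by rw [chiK, chiK, SS_congr e, SS_congr e']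

end Crest.Agent.N265.M
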