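import Crest.Agent.N265.M.FixD0
import Crest.Agent.N265.Fx.I0
import Crest.Agent.N265.N.Dim0

/-! # Row 265, task M-FIX-D (helper3): `det U = l ⊗ det B` at the points of the surface

On `X × S` there is the sequence `0 → B → U ⊗ O(-p) → l ⊗ O(-β) → 0`, exact outside the universal
finite subscheme. -/

set_option autoImplicit false
set_option linter.dupNamespace false
noncomputable section
open MvPolynomial Module TensorProduct

namespace Crest.Agent.N265.M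
open Crest.Agent.R274
open Defs_781 Lat_781 SnapA_99 SnapB_99 SnapE_99 Gen7_750 Xs1_781 SkDefs_474
open Alg GV Br N Fib Hm _root_.Crest.Agent.N265.Pow
variable {Sg : Surf} {X : Spc} {β : Sg.V.G} {p n j r : ℕ} {k : ℤ} {z : Pt}

namespace FD
/-- the fibre of `O(-β)` inside the dual of `H⁰(β + j h)` -/
def Lm (β : Sg.V.G) (j : ℕ) (z : Pt) : Submodule ℂ (Dual ℂ (SB Sg (β + j • Sg.V.h))) :=
  (⊤ : Submodule ℂ _).map (psi (add_tw β j j) z)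
/-- `j` is large -/
def Lrg (β : Sg.V.G) (j : ℕ) : Prop := RegL (OL Sg.V.T β).toLat j ∧ RegL (OL Sg.V.T (-β)).toLat j
lemma exists_lrg (β : Sg.V.G) : ∃ j, Lrg β j := by
  obtain ⟨a, ha⟩ := ev_regL (OL Sg.V.T β).toLat
  obtain ⟨b, hb⟩ := ev_regL (OL Sg.V.T (-β)).toLat
  exact ⟨a.toNat + b.toNat, ha.mono (by omega), hb.mono (by omega)⟩
lemma Lrg.span (h : Lrg β j) (hz : z ∈ (Sg.S 0).pts) :
    ∃ a, psi (add_tw β j j) z a ≠ 0 ∧ Lm β j z = Submodule.span ℂ {psi (add_tw β j j) z a} := by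
  have e : -(β + Sg.V.div 1 one_ne_zero) = -β := by rw [div_one', add_zero]
  obtain ⟨a, -, ha⟩ := exists_psi_ne (I := OL Sg.V.T (-β)) (hf := one_ne_zero)
    (e.symm ▸ Fam.LE.rfl) h.2 h.1 hz (e.symm ▸ le_rfl)
  exact ⟨a, ha, le_antisymm (Submodule.map_le_iff_le_comap.2 fun f _ => psi_mem _ _ ha f)
    ((Submodule.span_singleton_le_iff_mem _ _).2 ⟨a, trivial, rfl⟩)⟩
lemma Lrg.finrank (h : Lrg β j) (hz : z ∈ (Sg.S 0).pts) : finrank ℂ (Lm β j z) = 1 := by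
  obtain ⟨a, ha, e⟩ := h.span hz
  rw [e, finrank_span_singleton ha]
lemma Lrg.mem (h : Lrg β j) (hz : z ∈ (Sg.S 0).pts) (f : SB Sg (-β + p • Sg.V.h)) :
    psi (add_tw β p j) z f ∈ Lm β j z := by
  obtain ⟨a, ha, e⟩ := h.span hz
  exact e ▸ psi_mem _ _ ha f
lemma Lrg.isAB (h : Lrg β j) : IsAB (Sg.S 0) (triv _) (Lm β j) :=
  (sc_shift _ _).isAB_triv ((IsAB.top ((in_triv _).shift (zero_mem _))).map_of_rk
    ((in_triv _).shift (add_mem (zero_mem _) (Sg1.eB_S _))) (isRM_psi (add_tw β j j) 0)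
    fun _ hz => h.finrank hz)

variable (β k p) in
/-- `H⁰(β) ⊗ H⁰(-β + p h) → A_p` -/
def mu : SB Sg β ⊗[ℂ] SB Sg (-β + p • Sg.V.h) →ₗ[ℂ] ((r1 Sg k).G p).V :=
  LinearMap.pi fun _ => TensorProduct.lift (mulB (add_neg_cancel_left β _))
lemma mu_tmul (f : SB Sg β) (a : SB Sg (-β + p • Sg.V.h)) :
    (mu β p k (f ⊗ₜ a) ()).1 = f.1 * a.1 := rfl
variable (β k p) in
/-- the copy of `U_p` -/
def U' (I : XL Sg Sg.F) : Submodule ℂ (SB Sg β ⊗[ℂ] SB Sg (-β + p • Sg.V.h)) :=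
  tens (lS β I) ⊤ ⊓ ((r1 Sg k).pc I p).comap (mu β p k)
variable (β p j) in
/-- `U_p → l ⊗ O(-β + p h)` -/
def ch (z : Pt) : SB Sg β ⊗[ℂ] SB Sg (-β + p • Sg.V.h) →ₗ[ℂ]
    SB Sg β ⊗[ℂ] Dual ℂ (SB Sg (β + j • Sg.V.h)) :=
  TensorProduct.map LinearMap.id (psi (add_tw β p j) z)

section fib
variable {I : XL Sg Sg.F} {f : SB Sg β} {hf : f.1 ≠ 0}
  (h : FC I (OL Sg.V.T (-(β + Sg.V.div f.1 hf))))
include h
lemma mem_U' {t : SB Sg β ⊗[ℂ] SB Sg (-β + p • Sg.V.h)} :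
    t ∈ U' β p k I ↔ ∃ a, f.1 * a.1 ∈ Gm I.toLat p ∧ f ⊗ₜ a = t := by
  rw [U', lS_eq_span h]
  refine ⟨fun ht => ?_, ?_⟩
  · obtain ⟨a, -, rfl⟩ := Hart.mem_tens_span ht.1
    exact ⟨a, ht.2, rfl⟩
  · rintro ⟨a, ha, rfl⟩
    exact ⟨tmul_mem (Submodule.mem_span_singleton_self f) trivial, ha⟩
lemma U'_inj {t : SB Sg β ⊗[ℂ] SB Sg (-β + p • Sg.V.h)} (ht : t ∈ U' β p k I)
    (h0 : mu β p k t = 0) : t = 0 := by
  obtain ⟨a, -, rfl⟩ := (mem_U' h).1 ht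
  have : f.1 * a.1 = 0 := congrArg Subtype.val (congrFun h0 ())
  rw [show a = 0 from Subtype.ext ((mul_eq_zero.1 this).resolve_left hf), tmul_zero]
lemma U'_onto : (U' β p k I).map (mu β p k) = (r1 Sg k).pc I p := by
  refine le_antisymm (Submodule.map_le_iff_le_comap.2 inf_le_right) fun u hu => ?_
  have e := mul_inv_cancel_left₀ hf (u ()).1
  exact ⟨_, (mem_U' h).2 ⟨⟨_, div_mem h.le hu⟩, e.symm ▸ hu, rfl⟩, funext fun _ => Subtype.ext e⟩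
lemma ch_exact (le : LeL I (r1 Sg k).O) (hr : RegL I.toLat p) (hz : z ∈ (Sg.S 0).pts)
    (h0 : ∃ u ∈ U' β p k I, ch β p j z u ≠ 0) {u} (hu : u ∈ U' β p k I) (h1 : ch β p j z u = 0) :
    mu β p k u ∈ ((r1 Sg k).KK I p 3).map (evz Sg 0 _ 3 z) := by
  obtain ⟨u₀, hu₀, h0⟩ := h0
  obtain ⟨a₀, ha₀, rfl⟩ := (mem_U' h).1 hu₀
  obtain ⟨a, ha, rfl⟩ := (mem_U' h).1 hu
  refine exists_syz le hr hz ha (mem_m (j := j) hz ha₀ (fun e => h0 ?_) (by_contra fun e =>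
    Hart.tmul_ne_zero (v := f) (fun e => hf (congrArg Subtype.val e)) e h1))
  change f ⊗ₜ[ℂ] psi _ z a₀ = 0
  rw [e, tmul_zero]
lemma ch_ne (hr : RegL I.toLat p) (hj : Lrg β j) (hz : z ∈ (Sg.S 0).pts)
    (e : (pnt Sg 0 z hz).loc (OL Sg.V.T (-(β + Sg.V.div f.1 hf))) ≤ (pnt Sg 0 z hz).loc I) :
    ∃ u ∈ U' β p k I, ch β p j z u ≠ 0 := by
  obtain ⟨a, h1, h2⟩ := exists_psi_ne h.le hr hj.1 hz e
  exact ⟨_, (mem_U' h).2 ⟨a, h1, rfl⟩,
    Hart.tmul_ne_zero (v := f) (fun e => hf (congrArg Subtype.val e)) h2⟩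
end fib

lemma evz_mulS {V : Type} [AddCommGroup V] [Module ℂ V] {i : ℕ} (N : Submodule ℂ (V ⊗[ℂ] SA Sg i))
    {t} (ht : t ∈ mulS Sg (mP Sg 0 1 z) N) : evz Sg 0 V (i + 1) z t = 0 := by
  obtain ⟨s, hs, rfl⟩ := ht
  refine tens_ind hs (by simp only [map_zero]) (fun l hl u hu => ?_)
    fun _ _ h h' => by rw [map_add, map_add, h, h', add_zero]
  clear hu
  induction u using TensorProduct.induction_on with
  | zero => simp only [tmul_zero, map_zero]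
  | tmul w a => rw [Sg1.muW_tmul, evT_tmul, evP_mul, show evP Sg 0 1 z l = 0 from hl, zero_mul,
      zero_smul]
  | add a b ha hb => rw [tmul_add, map_add, map_add, ha, hb, add_zero]
lemma isRM_evT {Y : Spc} {A V : GV} {d : D} {α : Pt → A.V →ₗ[ℂ] ℂ} (h : IsRM Y A (line d) α) :
    IsRM Y (V.tens A) (V.shift d) fun y => evT V.V (α y) := by
  refine (IsRM.const (V := V.tens (line d)) (W := V.shift d)
    (f := (TensorProduct.rid ℂ V.V).toLinearMap) fun t => ?_).comp (IsRM.id.tensor h)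
  have : (TensorProduct.rid ℂ V.V).toLinearMap ∘ₗ (V.tens (line d)).g.toLinearMap =
      (V.shift d).g.toLinearMap ∘ₗ (TensorProduct.rid ℂ V.V).toLinearMap := by
    ext v
    simp
  exact LinearMap.congr_fun this t
lemma comap_rk {Y : Spc} {V W : GV} {L : Pt → Submodule ℂ V.V} {M : Pt → Submodule ℂ W.V}
    {φ : Pt → V.V →ₗ[ℂ] W.V} (hL : IsAB Y V L) (hM : IsAB Y W M) (hφ : IsRM Y V W φ)
    (h1 : ∀ y ∈ Y.pts, ∀ u ∈ L y ⊓ (M y).comap (φ y), φ y u = 0 → u = 0)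
    (h2 : ∀ y ∈ Y.pts, (L y ⊓ (M y).comap (φ y)).map (φ y) = M y)
    (h3 : ∀ y ∈ Y.pts, finrank ℂ (M y) = r) : IsAB Y V fun y => L y ⊓ (M y).comap (φ y) :=
  ⟨hL.hin, (hL.cog.inf (hM.cog.comap hφ.reg)).alg_of_rk fun y hy => by
    rw [← Hart.finrank_map_of_inj _ (h1 y hy), h2 y hy, h3 y hy], hL.eqv'.inf (hM.eqv'.comap hφ)⟩
lemma exists_zero {Y : Spc} {V W : GV} {L : Pt → Submodule ℂ V.V} {φ : Pt → V.V →ₗ[ℂ] W.V}
    (hL : IsAB Y V L) (hφ : IsRM Y V W φ) :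
    ∃ Z : Spc, Z.Sub Y ∧ ∀ y ∈ Y.pts, y ∉ Z.pts ↔ ∃ u ∈ L y, φ y u ≠ 0 :=
  ⟨Y.leLoc L (fun y => LinearMap.ker (φ y)) hL.gen (cogA_ker hφ.reg) fun y hy e =>
    (hL.eqv y hy).ge.trans ((Submodule.map_mono e).trans (Eqv.ker hφ y hy).le),
    Spc.leLoc_sub _ _ _ _ _ _, fun y hy => by
      rw [Spc.mem_leLoc, and_iff_right hy]; exact SetLike.not_le_iff_exists⟩
lemma sc_G (k : ℤ) (p : ℕ) : ((r1 Sg k).G p).Sc (k • eT) := sc_pi fun _ => sc_shift _ _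
end FD
open FD

variable {I : Pt → XL Sg Sg.F}
namespace IFam
lemma exists_fc (h : IFam X p β n k I) {x : Pt} (hx : x ∈ X.pts) : ∃ (f : SB Sg β) (hf : f.1 ≠ 0),
    FC (I x) (OL Sg.V.T (-(β + Sg.V.div f.1 hf))) ∧
      len (I x) (OL Sg.V.T (-(β + Sg.V.div f.1 hf))) = n :=
  let ⟨f, hf, h1, h2⟩ := h.ty x hx
  ⟨⟨f, (mem_SB_iff hf).2 (eff_of_FC h1 (h.le hx))⟩, hf, h1, h2⟩
lemma syz (h : IFam X p β n k I) (hX : 0 ∉ X.B) (hr : r + 1 = Uni.rkU Sg p β n) :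
    SyzF Sg 0 X ((r1 Sg k).G p) (fun i x => (r1 Sg k).KK (I x) p i) 2 r :=
  h.fam.syzF hX fun _ hx => (h.finrank_pc hx).trans hr.symm

/-- the sequence `0 → B → U → l ⊗ O(-β) → 0` -/
theorem seq (h : IFam X p β n k I) (hl : IsAB X (LG Sg β k) fun x => lS β (I x)) (hX : 0 ∉ X.B)
    (hr : r + 1 = Uni.rkU Sg p β n) (hj : Lrg β j) :
    Seq (X.fib (Sg.S 0)) (WA Sg ((r1 Sg k).G p) 3) (((r1 Sg k).G p).shift ((3 : ℕ) • eB 0))
      ((LG Sg β k).tens ((triv (SB Sg (-β + p • Sg.V.h))).shift ((3 : ℕ) • eB 0)))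
      ((LG Sg β k).tens ((triv (Dual ℂ (SB Sg (β + j • Sg.V.h)))).shift
        ((3 : ℕ) • eB 0 + (p + j) • eB 0)))
      (fun y => (r1 Sg k).KK (I (restr X.B y)) p 3)
      (ZZ Sg 0 X fun x => (r1 Sg k).KK (I x) p 2) (fun y => (r1 Sg k).pc (I (restr X.B y)) p)
      (fun y => U' β p k (I (restr X.B y)))
      (fun y => tens (lS β (I (restr X.B y))) (Lm β j (restr {0} y)))
      (fun y => evz Sg 0 _ 3 (restr {0} y)) (fun _ => mu β p k)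
      (fun y => ch β p j (restr {0} y)) r := by
  have s := h.syz hX hr
  have q := Spc.fib_fst X (Sg.S 0)
  have q' := Spc.fib_snd X (Sg.S 0)
  have hU := ((h.fam.ab p le_rfl).pull q).shift (Sg1.eB_fib X 3)
  have hμ : IsRM (X.fib (Sg.S 0)) ((LG Sg β k).tens ((triv (SB Sg (-β + p • Sg.V.h))).shift
      ((3 : ℕ) • eB 0))) (((r1 Sg k).G p).shift ((3 : ℕ) • eB 0)) fun _ => mu β p k :=
    ((sc_shift _ _).tens (sc_shift _ _)).isRM ((sc_G k p).shift _) _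
  have hT := (hl.pull q).tens
    (IsAB.top (V := (triv (SB Sg (-β + p • Sg.V.h))).shift ((3 : ℕ) • eB 0))
      ((in_triv _).shift (Sg1.eB_fib X 3)))
  have inj : ∀ y ∈ (X.fib (Sg.S 0)).pts, ∀ u ∈ U' β p k (I (restr X.B y)), mu β p k u = 0 → u = 0 :=
    fun y hy u hu => let ⟨_, _, e, _⟩ := h.exists_fc hy.1; U'_inj e hu
  have onto : ∀ y ∈ (X.fib (Sg.S 0)).pts, (U' β p k (I (restr X.B y))).map (mu β p k) =
      (r1 Sg k).pc (I (restr X.B y)) p := fun y hy => let ⟨_, _, e, _⟩ := h.exists_fc hy.1; U'_onto e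
  have rU : ∀ y ∈ (X.fib (Sg.S 0)).pts, finrank ℂ ((r1 Sg k).pc (I (restr X.B y)) p) = r + 1 :=
    fun y hy => (h.finrank_pc hy.1).trans hr.symm
  have hU' := comap_rk hT hU hμ inj onto rU
  exact
    { hM := s.abF (k := 3) (by omega)
      hM' := s.isAB_ZZ le_rfl
      hU := hU
      hU' := hU'
      hL := (hl.pull q).tens ((hj.isAB.pull q').shift (add_mem (Sg1.eB_fib X 3) (Sg1.eB_fib X _)))
      hφ := isRM_evT ((isRM_evP Sg 0 3).pull q')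
      hμ := hμ
      hχ := IsRM.id.tensor ((isRM_psi (add_tw β p j) _).pull q')
      le := fun y hy => s.mulS_le le_rfl hy.1 _
      rM := fun y hy => (s.rk 2 le_rfl _ hy.1 _ hy.2.1).symm
      rU := rU
      rL := fun y hy => by
        rw [finrank_tens, (h.ty _ hy.1).finrank_lS (h.le hy.1),
          hj.finrank (z := restr {0} y) hy.2.1]
      kill := fun y _ _ hm => evz_mulS _ hm
      into := fun y _ _ hm => evT_mem _ hm.1
      inj := inj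
      onto := onto
      val := fun y hy u hu => tmap_mem (fun _ h => h) (fun a _ => hj.mem hy.2.1 a) hu.1 }

lemma exact (h : IFam X p β n k I) {y : Pt} (hy : y ∈ (X.fib (Sg.S 0)).pts)
    (h0 : ∃ u ∈ U' β p k (I (restr X.B y)), ch β p j (restr {0} y) u ≠ 0) :
    (∃ u ∈ U' β p k (I (restr X.B y)), ch β p j (restr {0} y) u ≠ 0) ∧
      ∀ u ∈ U' β p k (I (restr X.B y)), ch β p j (restr {0} y) u = 0 → mu β p k u ∈
        ((r1 Sg k).KK (I (restr X.B y)) p 3).map (evz Sg 0 _ 3 (restr {0} y)) :=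
  let ⟨_, _, e, _⟩ := h.exists_fc hy.1
  ⟨h0, fun _ hu => ch_exact e (h.fam.le _ hy.1) (h.fam.reg _ hy.1) hy.2.1 h0 hu⟩
lemma finite (h : IFam X p β n k I) (hj : Lrg β j) {x : Pt} (hx : x ∈ X.pts) :
    ∃ T : Finset (Pnt Sg.V.X), (n = 0 → T = ∅) ∧ ∀ z (hz : z ∈ (Sg.S 0).pts), pnt Sg 0 z hz ∉ T →
      ∃ u ∈ U' β p k (I x), ch β p j z u ≠ 0 := by
  obtain ⟨f, hf, e, e'⟩ := h.exists_fc hx
  obtain ⟨T, h1, h2⟩ := finite_supp e
  exact ⟨T, fun h0 => h1 (e'.trans h0), fun z hz ht => ch_ne e (h.fam.reg x hx) hj hz (h2 _ ht)⟩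

section at_pt
variable (hX : 0 ∉ X.B) {q : Pt} (hq : q ∈ (Sg.S 0).pts)
lemma atPt_eB (i : ℕ) : K.atPt ((base_S Sg 0).disj hX) (Sg.S_ttriv 0) q hq (lbK _ (i • eB 0)) = 1 := by
  rw [K.atPt_lbK, ← mul_one (lbK X _), ← Sg1.lbK_eB hX i, ← lbK_add, add_neg_cancel, lbK_zero,
    Sg1.lbK_eB hX i]
lemma atPt_Acl : K.atPt ((base_S Sg 0).disj hX) (Sg.S_ttriv 0) q hq (Acl (r1 Sg k) X p I) =
    ucl (r1 Sg k) X I p := by
  rw [Acl, map_mul, K.atPt_lbK, Sg1.lbK_eB hX, one_mul, K.atPt_pull_fst]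
lemma atPt_U (h : IFam X p β n k I) : K.atPt ((base_S Sg 0).disj hX) (Sg.S_ttriv 0) q hq
    (kc _ (((r1 Sg k).G p).shift ((3 : ℕ) • eB 0)) fun y => (r1 Sg k).pc (I (restr X.B y)) p) =
    K.atPt ((base_S Sg 0).disj hX) (Sg.S_ttriv 0) q hq (Acl (r1 Sg k) X p I) := by
  have h1 := h.fam.ab p le_rfl
  refine (congrArg _ ((kc_shift (h1.pull (Spc.fib_fst X _)) (Sg1.eB_fib X 3)).trans
    (congrArg _ (kc_pull h1 (Spc.fib_fst X _)).symm))).trans ?_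
  rw [map_mul, atPt_eB hX, one_mul, K.atPt_pull_fst, atPt_Acl hX, ucl]
lemma atPt_B : K.atPt ((base_S Sg 0).disj hX) (Sg.S_ttriv 0) q hq
    (kc _ (WA Sg ((r1 Sg k).G p) 3) (fun y => (r1 Sg k).KK (I (restr X.B y)) p 3) -
      kc _ (WA Sg ((r1 Sg k).G p) 3) (ZZ Sg 0 X fun x => (r1 Sg k).KK (I x) p 2)) =
    K.atPt ((base_S Sg 0).disj hX) (Sg.S_ttriv 0) q hq (Bcl (r1 Sg k) X p I) := by
  rw [Bcl, bcl, map_mul, map_mul, K.atPt_lbK, K.atPt_lbK, Sg1.lbK_eB hX, Sg1.lbK_eB hX, one_mul,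
    one_mul]
lemma atPt_L (hl : IsAB X (LG Sg β k) fun x => lS β (I x)) (hj : Lrg β j) :
    K.atPt ((base_S Sg 0).disj hX) (Sg.S_ttriv 0) q hq
    (kc _ ((LG Sg β k).tens ((triv (Dual ℂ (SB Sg (β + j • Sg.V.h)))).shift
        ((3 : ℕ) • eB 0 + (p + j) • eB 0)))
      fun y => tens (lS β (I (restr X.B y))) (Lm β j (restr {0} y))) = lcl X β k I := by
  have h1 := hj.isAB.pull (Spc.fib_snd X (Sg.S 0))
  have hd : (3 : ℕ) • eB 0 + (p + j) • eB 0 ∈ DS (X.fib (Sg.S 0)).B :=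
    add_mem (Sg1.eB_fib X 3) (Sg1.eB_fib X _)
  have e := kc_congr (X := X) (V := triv _) fun x hx =>
    congrArg (Lm β j) (Sg1.add_mem hX hx hq).2.2
  refine (congrArg _ (kc_tens (hl.pull (Spc.fib_fst X _)) (h1.shift hd))).trans ?_
  rw [kc_shift h1 hd, map_mul, map_mul, ← kc_pull hl (Spc.fib_fst X _), K.atPt_pull_fst,
    ← add_nsmul, atPt_eB hX, one_mul, (Sg1.atPt_kc h1 (in_triv _) _ _ hq).2]
  erw [e]
  rw [kc_triv, hj.finrank hq, Nat.cast_one, mul_one, lcl]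
lemma pure_A (h : IFam X p β n k I) {w : ℕ → ℤ} (hw : X.TTriv w) : K.Pure hw k
    (K.atPt ((base_S Sg 0).disj hX) (Sg.S_ttriv 0) q hq (Acl (r1 Sg k) X p I)) := by
  rw [atPt_Acl hX]
  exact (sc_G k p).kpure (h.fam.ab p le_rfl) hw
lemma pure_B (h : IFam X p β n k I) {w : ℕ → ℤ} (hw : X.TTriv w) (hr : r + 1 = Uni.rkU Sg p β n) :
    K.Pure hw k (K.atPt ((base_S Sg 0).disj hX) (Sg.S_ttriv 0) q hq (Bcl (r1 Sg k) X p I)) := by
  have t := h.syz hX hr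
  have c := ((sc_G (Sg := Sg) k p).tens (sc_triv (SA Sg (2 + 1)))).of_eq (add_zero _)
  have e := t.atPt_bcl le_rfl hq
  have h1 := (c.kpure (t.ab (2 + 1) (by omega)) hw).sub (c.kpure (t.isAB_mulS le_rfl hq) hw)
  rw [Bcl, map_mul, K.atPt_lbK, Sg1.lbK_eB hX, one_mul]
  exact e.symm ▸ h1
end at_pt

/-- no points: `I|_q = l` -/
theorem bot' (h : IFam X p β 0 k I) (hl : IsAB X (LG Sg β k) fun x => lS β (I x)) (hX : 0 ∉ X.B)
    (q : Pt) (hq : q ∈ (Sg.S 0).pts) :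
    K.atPt ((base_S Sg 0).disj hX) (Sg.S_ttriv 0) q hq (SS (r1 Sg k) X p I) = lcl X β k I := by
  obtain ⟨j, hj⟩ := exists_lrg β
  obtain ⟨r, hr⟩ : ∃ r, r + 1 = Uni.rkU Sg p β 0 ∨ ∀ x, x ∉ X.pts := by
    by_cases hne : ∃ x, x ∈ X.pts
    · obtain ⟨x, hx⟩ := hne
      exact ⟨_, Or.inl (Nat.sub_add_cancel ((h.ty x hx).rkU_pos (h.le hx) (h.fam.reg x hx)))⟩
    · exact ⟨0, Or.inr (not_exists.1 hne)⟩
  rcases hr with hr | hr
  · have e := congrArg (K.atPt ((base_S Sg 0).disj hX) (Sg.S_ttriv 0) q hq)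
      ((h.seq hl hX hr hj).kc_eq fun y hy => h.exact hy (by
        obtain ⟨T, h1, h2⟩ := h.finite hj hy.1
        exact h2 _ hy.2.1 (h1 rfl ▸ Finset.notMem_empty _)))
    rw [map_add] at e
    rw [SS, map_sub, sub_eq_iff_eq_add]
    exact (h.atPt_U hX hq).symm.trans (e.trans (congrArg₂ _ (atPt_L hX hq hl hj) (atPt_B hX hq)))
  · have e : ∀ a : K X, a = 0 := fun a => by
      obtain ⟨A, B, rfl⟩ := K.exists_sub a
      rw [A.kl_eq_kc, B.kl_eq_kc, kc_of_bot fun x hx => (hr x hx).elim,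
        kc_of_bot fun x hx => (hr x hx).elim, sub_self]
    exact (e _).trans (e _).symm

/-- the determinant identity on `X × S` -/
theorem det_fib (h : IFam X p β n k I) (hl : IsAB X (LG Sg β k) fun x => lS β (I x))
    (hX : 0 ∉ X.B) {m : ℕ} (hs : X.Sm m) (hr : r + 1 = Uni.rkU Sg p β n) :
    ∃ (A B : Bun (X.fib (Sg.S 0))) (hA : A.Rk (r + 1)) (hB : B.Rk r),
      ∀ q (hq : q ∈ (Sg.S 0).pts), let ρ := K.atPt ((base_S Sg 0).disj hX) (Sg.S_ttriv 0) q hq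
        ρ A.kl = ρ (Acl (r1 Sg k) X p I) ∧ ρ B.kl = ρ (Bcl (r1 Sg k) X p I) ∧
        ρ (A.det _ hA).kl = lcl X β k I * ρ (B.det _ hB).kl := by
  obtain ⟨j, hj⟩ := exists_lrg β
  have s := h.seq hl hX hr hj
  obtain ⟨Z, hZ, hm⟩ := exists_zero s.hU' s.hχ
  have hc : ∀ y ∈ Z.pts, Z.ldim y + 2 ≤ (m + 3 : ℕ) := fun y hy => codim hX hZ hs (fun x hx => by
    obtain ⟨T, -, hT⟩ := h.finite hj hx
    refine ⟨T, fun y hy e => by_contra fun ht => ?_⟩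
    exact (hm y (hZ.2 hy)).2 (e ▸ hT _ _ ht) hy) hy
  obtain ⟨A, B, hA, hB, eA, eB, eD⟩ := s.det (hs.fib (Sg.S_sm 0) ((base_S Sg 0).disj hX)) hZ hc
    fun y hy hy' => h.exact hy ((hm y hy).1 hy')
  refine ⟨A, B, hA, hB, fun q hq => ⟨(congrArg _ eA).trans (h.atPt_U hX hq),
    (congrArg _ eB).trans (atPt_B hX hq), ?_⟩⟩
  rw [eD, map_mul]
  exact congrArg (· * _) (atPt_L hX hq hl hj)

/-- the bundles at the points of `S` and the determinant identity -/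
theorem exists_pt' (h : IFam X p β n k I) (hl : IsAB X (LG Sg β k) fun x => lS β (I x))
    (hX : 0 ∉ X.B) {m : ℕ} (hs : X.Sm m) {w : ℕ → ℤ}
    (hw : X.TTriv w) {r : ℕ} (hr : r + 1 = Uni.rkU Sg p β n) :
    ∃ (U B : Pt → Bun X) (l : Bun X) (hU : ∀ q ∈ (Sg.S 0).pts, (U q).Rk (r + 1))
      (hB : ∀ q ∈ (Sg.S 0).pts, (B q).Rk r), l.Rk 1 ∧ l.Pure w k ∧ l.kl = lcl X β k I ∧
      ∀ q (hq : q ∈ (Sg.S 0).pts), (U q).Pure w k ∧ (B q).Pure w k ∧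
        (U q).kl = K.atPt ((base_S Sg 0).disj hX) (Sg.S_ttriv 0) q hq (Acl (r1 Sg k) X p I) ∧
        (B q).kl = K.atPt ((base_S Sg 0).disj hX) (Sg.S_ttriv 0) q hq (Bcl (r1 Sg k) X p I) ∧
        ((U q).det _ (hU q hq)).kl = l.kl * ((B q).det _ (hB q hq)).kl := by
  classical
  obtain ⟨l, hl'⟩ := hl.exists_pres
  obtain ⟨A, B, hA, hB, H⟩ := h.det_fib hl hX hs hr
  have key : ∀ q (hq : q ∈ (Sg.S 0).pts), ∃ (U B : Bun X) (hU : U.Rk (r + 1)) (hB : B.Rk r),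
      U.Pure w k ∧ B.Pure w k ∧
        U.kl = K.atPt ((base_S Sg 0).disj hX) (Sg.S_ttriv 0) q hq (Acl (r1 Sg k) X p I) ∧
        B.kl = K.atPt ((base_S Sg 0).disj hX) (Sg.S_ttriv 0) q hq (Bcl (r1 Sg k) X p I) ∧
        (U.det _ hU).kl = l.kl * (B.det _ hB).kl := fun q hq => by
    obtain ⟨eA, eB, eD⟩ := H q hq
    obtain ⟨rA, dA⟩ := K.atPt_det ((base_S Sg 0).disj hX) (Sg.S_ttriv 0) q hq A hA
    obtain ⟨rB, dB⟩ := K.atPt_det ((base_S Sg 0).disj hX) (Sg.S_ttriv 0) q hq B hB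
    have kA := (K.atPt_kl _ _ q hq A).symm.trans eA
    have kB := (K.atPt_kl _ _ q hq B).symm.trans eB
    obtain ⟨U, hU, pU, eU, dU⟩ := K.Pure.exists_bun_det (kA ▸ h.pure_A hX hq hw) rA
    obtain ⟨V, hV, pV, eV, dV⟩ := K.Pure.exists_bun_det (kB ▸ h.pure_B hX hq hw hr) rB
    exact ⟨U, V, hU, hV, pU, pV, eU.trans kA, eV.trans kB, by
      rw [dU, dV, ← dA, ← dB, eD, hl'.kl, lcl]⟩
  choose U V hU hV H using key
  refine ⟨fun q => if hq : q ∈ (Sg.S 0).pts then U q hq else l,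
    fun q => if hq : q ∈ (Sg.S 0).pts then V q hq else l, l,
    fun q hq => by simpa only [dif_pos hq] using hU q hq,
    fun q hq => by simpa only [dif_pos hq] using hV q hq,
    fun x hx => (hl'.finrank hx).trans ((h.ty x hx).finrank_lS (h.le hx)),
    (sc_shift _ _).pure hl' w, hl'.kl, fun q hq => ?_⟩
  simp only [dif_pos hq]
  exact H q hq
end IFam

end Crest.Agent.N265.M
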