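import Crest.Agent.N265.M.Ty

/-! # Row 265, task M-FIX-T (helper91): tangent bound, versality, tangent class -/

set_option autoImplicit false
set_option linter.dupNamespace false
noncomputable section
open MvPolynomial Module TensorProduct

namespace Crest.Agent.N265.M
open Crest.Agent.R274
open Defs_781 Lat_781 SnapA_99 SnapB_99 SnapE_99 Gen7_750 Xs1_781 SkDefs_474
open Alg GV Br N Fib _root_.Crest.Agent.N265.Pow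

namespace FT
variable {X : Spc} {V W V₁ V₂ : GV} {Vs : Finset Var}

/-- the ambient space of the tangent bundle -/
abbrev TG (Vs : Finset Var) : GV := co fun v : Vs => vdeg v.1

lemma isRV_coord (Vs : Finset Var) : IsRV X (TG Vs) fun x v => x v.1 := by
  refine ⟨regV_iff_poly.2 ⟨fun v => MvPolynomial.X v.1, fun _ _ => (eval_X _).symm⟩, fun x _ => ?_⟩
  funext v
  exact (gd_apply (fun v : Vs => vdeg v.1) (fun v => x v.1) v).symm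

/-- the derivative of a regular vector is a regular map on the tangent directions -/
theorem exists_deriv {s : Pt → V.V} (h : IsRV X V s) {B : Finset ℕ} (hV : V.In B)
    (Vs : Finset Var) : ∃ D : Pt → (TG Vs).V →ₗ[ℂ] V.V, IsRM X (TG Vs) V D ∧ ∀ x ∈ X.pts, ∀ u,
      extV Vs u ∈ X.Tan x → D x u = dV (X.pd x (extV Vs u)) fun y : X.pts => s y.1 := by
  obtain ⟨n, b, deg, -, hb⟩ := hV.exists_basis
  obtain ⟨r, hr, hr'⟩ := h.exists_poly b hb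
  refine ⟨fun x => b.equivFun.symm.toLinearMap ∘ₗ mev x (jac Vs r),
    (IsRM.const (deg0_equivFun_symm b hb)).comp (isRM_mev (mhmg_jac Vs hr)), fun x _ u hu => ?_⟩
  have e : (fun y : X.pts => s y.1) = fun y => ∑ i, eval y.1 (r i) • b i := funext fun y => by
    simp only [hr' y.1 y.2, b.sum_repr]
  rw [e, dV_pd_poly hu]
  simp only [LinearMap.comp_apply, LinearEquiv.coe_coe, Basis.equivFun_symm_apply, mev_jac]

/-- the condition `KS` is linear and closed -/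
theorem exists_N {L : Pt → Submodule ℂ V.V} (h : IsAB X V L) (Vs : Finset Var) :
    ∃ 𝒩 : Pt → Submodule ℂ ((TG Vs).prod (V.hom V)).V, CogA X 𝒩 ∧
      Eqv X ((TG Vs).prod (V.hom V)) 𝒩 ∧ ∀ x (hx : x ∈ X.pts),
      (∀ φ, (0, φ) ∈ 𝒩 x ↔ φ ∈ homMap (L x) (L x)) ∧
      ∀ u φ, extV Vs u ∈ X.Tan x → ((u, φ) ∈ 𝒩 x ↔ KS X L hx (extV Vs u) φ) := by
  obtain ⟨W, Ψ, hW, hΨ, e⟩ := h.exists_range
  obtain ⟨D, hD, hD'⟩ := exists_deriv (isRM_iff.1 hΨ) (hW.hom h.hin) Vs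
  have hN := hD.coprod ((hΨ.homM (IsRM.id (V := V))).csmul (-1))
  have hT := IsAB.homTo hW h
  have key : ∀ x u φ, (u, φ) ∈ (homTo W.V (L x)).comap ((D x).coprod
      ((-1 : ℂ) • homM (Ψ x) LinearMap.id)) ↔ ∀ w, D x u w - φ (Ψ x w) ∈ L x := fun x u φ => by
    simp [mem_homTo, sub_eq_add_neg]
  refine ⟨_, hT.cog.comap hN.reg, hT.eqv'.comap hN, fun x hx => ⟨fun φ => ?_, fun u φ hu => ?_⟩⟩
  · rw [key]
    simp only [map_zero, LinearMap.zero_apply, zero_sub, neg_mem_iff]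
    exact ⟨fun H v hv => by obtain ⟨w, rfl⟩ := (e x hx).ge hv; exact H w,
      fun H w => H _ ((e x hx).le ⟨w, rfl⟩)⟩
  · rw [key, hD' x hx u hu]
    have hi : ∀ {φ}, KS X L hx (extV Vs u) φ → ∀ w, dV (X.pd x (extV Vs u))
        (fun y : X.pts => Ψ y.1) w - φ (Ψ x w) ∈ L x := fun hφ w =>
      IsVar.into hΨ.reg (fun y v => (e y.1 y.2).le ⟨v, rfl⟩) hφ w
    refine ⟨fun H => ?_, hi⟩
    obtain ⟨φ₀, h₀⟩ := (Spc.pder_pd hx hu).exists_isVar h.alg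
    refine h₀.congr fun v hv => ?_
    obtain ⟨w, rfl⟩ := (e x hx).ge hv
    have := sub_mem (H w) (hi h₀ w)
    rwa [sub_sub_sub_cancel_left] at this

/-- the ambient space of the triples `(ξ, φ₁, φ₂)` -/
abbrev KG (Vs : Finset Var) (V₁ V₂ : GV) : GV := (TG Vs).prod ((V₁.hom V₁).prod (V₂.hom V₂))

/-- the family of triples `(ξ, φ₁, φ₂)` -/
theorem exists_K {L₁ : Pt → Submodule ℂ V₁.V} {L₂ : Pt → Submodule ℂ V₂.V} (h₁ : IsAB X V₁ L₁)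
    (h₂ : IsAB X V₂ L₂) (Vs : Finset Var) : ∃ 𝒩 : Pt → Submodule ℂ (KG Vs V₁ V₂).V, CogA X 𝒩 ∧
      Eqv X (KG Vs V₁ V₂) 𝒩 ∧ ∀ x (hx : x ∈ X.pts),
      (∀ t ∈ ((X.Tan x).comap (extV Vs)).prod ⊤, t ∈ 𝒩 x ↔
        KS X L₁ hx (extV Vs t.1) t.2.1 ∧ KS X L₂ hx (extV Vs t.1) t.2.2) ∧
      (((X.Tan x).comap (extV Vs)).prod ⊤ ⊓ 𝒩 x).map (LinearMap.fst ℂ _ _) =
        (X.Tan x).comap (extV Vs) ∧
      ((X.Tan x).comap (extV Vs)).prod ⊤ ⊓ 𝒩 x ⊓ LinearMap.ker (LinearMap.fst ℂ _ _) =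
        (⊥ : Submodule ℂ _).prod ((homMap (L₁ x) (L₁ x)).prod (homMap (L₂ x) (L₂ x))) := by
  obtain ⟨N₁, c₁, e₁, m₁⟩ := exists_N h₁ Vs
  obtain ⟨N₂, c₂, e₂, m₂⟩ := exists_N h₂ Vs
  have p₁ : IsRM X (KG Vs V₁ V₂) ((TG Vs).prod (V₁.hom V₁)) fun _ =>
      LinearMap.prodMap LinearMap.id (LinearMap.fst ℂ _ _) := IsRM.const fun _ => rfl
  have p₂ : IsRM X (KG Vs V₁ V₂) ((TG Vs).prod (V₂.hom V₂)) fun _ =>
      LinearMap.prodMap LinearMap.id (LinearMap.snd ℂ _ _) := IsRM.const fun _ => rfl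
  refine ⟨_, (c₁.comap p₁.reg).inf (c₂.comap p₂.reg), (e₁.comap p₁).inf (e₂.comap p₂),
    fun x hx => ⟨fun t ht => and_congr ((m₁ x hx).2 _ _ ht.1) ((m₂ x hx).2 _ _ ht.1), ?_, ?_⟩⟩
  · refine le_antisymm (Submodule.map_le_iff_le_comap.2 fun t ht => ht.1.1) fun u hu => ?_
    obtain ⟨φ₁, k₁⟩ := (Spc.pder_pd hx hu).exists_isVar h₁.alg
    obtain ⟨φ₂, k₂⟩ := (Spc.pder_pd hx hu).exists_isVar h₂.alg
    exact ⟨(u, φ₁, φ₂), ⟨⟨hu, trivial⟩, ((m₁ x hx).2 _ _ hu).2 k₁, ((m₂ x hx).2 _ _ hu).2 k₂⟩, rfl⟩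
  · ext ⟨u, φ₁, φ₂⟩
    refine ⟨fun ⟨⟨_, k₁, k₂⟩, h0⟩ => ?_, fun ⟨h0, k₁, k₂⟩ => ?_⟩
    · obtain rfl : u = 0 := h0
      exact ⟨rfl, ((m₁ x hx).1 _).1 k₁, ((m₂ x hx).1 _).1 k₂⟩
    · obtain rfl : u = 0 := h0
      exact ⟨⟨⟨zero_mem _, trivial⟩, ((m₁ x hx).1 _).2 k₁, ((m₂ x hx).1 _).2 k₂⟩, rfl⟩

lemma isAB_of_rk {L : Pt → Submodule ℂ V.V} {M : Pt → Submodule ℂ W.V} (hV : V.In X.B)
    (he : Eqv X V L) (hc : CogA X L) (hM : IsAB X W M) {a b : ℕ}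
    (h : ∀ x ∈ X.pts, finrank ℂ (L x) + a = finrank ℂ (M x) + b) : IsAB X V L := by
  refine ⟨hV, hc.alg_of_usc fun x hx => ?_, he⟩
  obtain ⟨r, h0, hr⟩ := hM.lc x hx
  refine ⟨r, h0, fun y hy hy' => ?_⟩
  have h1 := hr y hy hy'
  have h2 := h x hx
  have h3 := h y hy
  simp only at h1 ⊢
  omega

section LA
variable {E F F₁ F₂ : Type} [AddCommGroup E] [Module ℂ E] [FiniteDimensional ℂ E] [AddCommGroup F]
  [Module ℂ F] [FiniteDimensional ℂ F] [AddCommGroup F₁] [Module ℂ F₁] [FiniteDimensional ℂ F₁]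
  [AddCommGroup F₂] [Module ℂ F₂] [FiniteDimensional ℂ F₂]
lemma finrank_ker_add (A : Submodule ℂ E) (f : E →ₗ[ℂ] F) :
    finrank ℂ (A ⊓ LinearMap.ker f : Submodule ℂ E) + finrank ℂ (A.map f) = finrank ℂ A := by
  have := finrank_inf_comap_add A ⊥ f
  rwa [Submodule.comap_bot, sup_bot_eq, finrank_bot, add_zero] at this
lemma finrank_prod' (A : Submodule ℂ E) (B : Submodule ℂ F) :
    finrank ℂ (A.prod B) = finrank ℂ A + finrank ℂ B := by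
  rw [← Module.finrank_prod, ← LinearMap.finrank_range_of_inj
    (f := A.subtype.prodMap B.subtype) (A.injective_subtype.prodMap B.injective_subtype),
    LinearMap.range_prodMap, Submodule.range_subtype, Submodule.range_subtype]
/-- the dimension count -/
lemma count {K : Submodule ℂ (E × F₁ × F₂)} {T : Submodule ℂ E} {S₁ T₁ : Submodule ℂ F₁}
    {S₂ T₂ : Submodule ℂ F₂} {ε : E} (h0 : ε ≠ 0) {a₁ a₂ d : ℕ} (m2 : K.map (LinearMap.fst ℂ _ _) = T)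
    (m3 : K ⊓ LinearMap.ker (LinearMap.fst ℂ _ _) = (⊥ : Submodule ℂ E).prod (S₁.prod S₂))
    (l1 : K.map (LinearMap.snd ℂ _ _) ≤ T₁.prod T₂)
    (l2 : K ⊓ LinearMap.ker (LinearMap.snd ℂ _ _) ≤ (Submodule.span ℂ {ε}).prod ⊥)
    (d5 : finrank ℂ T₁ + 1 ≤ finrank ℂ S₁ + a₁) (d6 : finrank ℂ T₂ + 1 ≤ finrank ℂ S₂ + a₂)
    (hd : a₁ + a₂ ≤ d + 1) : finrank ℂ T ≤ d ∧ (finrank ℂ T = d →
      K.map (LinearMap.snd ℂ _ _) = T₁.prod T₂ ∧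
      K ⊓ LinearMap.ker (LinearMap.snd ℂ _ _) = (Submodule.span ℂ {ε}).prod ⊥ ∧
      finrank ℂ T₁ + 1 = finrank ℂ S₁ + a₁) := by
  have d1 := finrank_ker_add K (LinearMap.fst ℂ _ _)
  have d2 := finrank_ker_add K (LinearMap.snd ℂ _ _)
  have d3 := Submodule.finrank_mono l1
  have d4 := Submodule.finrank_mono l2
  have e3 := finrank_prod' T₁ T₂
  have e4 : finrank ℂ ((Submodule.span ℂ {ε}).prod (⊥ : Submodule ℂ (F₁ × F₂))) = 1 := by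
    rw [finrank_prod', finrank_span_singleton h0, finrank_bot]
  rw [m2, m3, finrank_prod', finrank_prod', finrank_bot] at d1
  exact ⟨by omega, fun h => ⟨Submodule.eq_of_le_of_finrank_eq l1 (by omega),
    Submodule.eq_of_le_of_finrank_eq l2 (by omega), by omega⟩⟩
end LA

/-- the class computation -/
theorem kc_K {𝒩 : Pt → Submodule ℂ (V.prod (V₁.prod V₂)).V} {T : Pt → Submodule ℂ V.V}
    {S₁ T₁ : Pt → Submodule ℂ V₁.V} {S₂ T₂ : Pt → Submodule ℂ V₂.V} {ε : Pt → V.V} {n : ℕ}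
    (hT : IsAB X V T) (s₁ : IsAB X V₁ S₁) (s₂ : IsAB X V₂ S₂) (t₁ : IsAB X V₁ T₁)
    (t₂ : IsAB X V₂ T₂) (c : CogA X 𝒩) (e : Eqv X (V.prod (V₁.prod V₂)) 𝒩) (hε : IsRV X V ε)
    (h0 : ∀ x ∈ X.pts, ε x ≠ 0) (hn : ∀ x ∈ X.pts, finrank ℂ (T x) = n)
    (m2 : ∀ x ∈ X.pts, ((T x).prod ⊤ ⊓ 𝒩 x).map (LinearMap.fst ℂ _ _) = T x)
    (m3 : ∀ x ∈ X.pts, (T x).prod ⊤ ⊓ 𝒩 x ⊓ LinearMap.ker (LinearMap.fst ℂ _ _) =
      (⊥ : Submodule ℂ V.V).prod ((S₁ x).prod (S₂ x)))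
    (m4 : ∀ x ∈ X.pts, ((T x).prod ⊤ ⊓ 𝒩 x).map (LinearMap.snd ℂ _ _) = (T₁ x).prod (T₂ x))
    (m5 : ∀ x ∈ X.pts, (T x).prod ⊤ ⊓ 𝒩 x ⊓ LinearMap.ker (LinearMap.snd ℂ _ _) =
      (Submodule.span ℂ {ε x}).prod ⊥) :
    kc X V T = 1 + (kc X V₁ T₁ - kc X V₁ S₁) + (kc X V₂ T₂ - kc X V₂ S₂) := by
  have hP := hT.prod (IsAB.top (s₁.hin.prod s₂.hin))
  have hK : IsAB X (V.prod (V₁.prod V₂)) fun x => (T x).prod ⊤ ⊓ 𝒩 x :=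
    isAB_of_rk (a := 0) (b := n) hP.hin (hP.eqv'.inf e) (hP.cog.inf c) (s₁.prod s₂) fun x hx => by
      rw [← finrank_ker_add _ (LinearMap.fst ℂ _ _), m2 x hx, m3 x hx, finrank_prod', finrank_bot,
        hn x hx, zero_add, add_zero]
  have f₁ : IsRM X (V.prod (V₁.prod V₂)) V fun _ => LinearMap.fst ℂ _ _ := IsRM.const fun _ => rfl
  have f₂ : IsRM X (V.prod (V₁.prod V₂)) (V₁.prod V₂) fun _ => LinearMap.snd ℂ _ _ :=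
    IsRM.const fun _ => rfl
  have e₁ := (kc_map hK f₁ (hT.congr fun x hx => (m2 x hx).symm)).trans
    (congrArg₂ (· + ·) (kc_congr m3) (kc_congr m2))
  have e₂ := (kc_map hK f₂ ((t₁.prod t₂).congr fun x hx => (m4 x hx).symm)).trans
    (congrArg₂ (· + ·) (kc_congr m5) (kc_congr m4))
  rw [kc_prod (IsAB.bot hT.hin) (s₁.prod s₂), kc_prod s₁ s₂,
    kc_of_bot (L := fun _ => ⊥) fun _ _ => rfl] at e₁
  rw [kc_prod t₁ t₂, kc_prod (IsAB.span hT.hin hε h0) (IsAB.bot (s₁.hin.prod s₂.hin)),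
    kc_span hT.hin hε h0, kc_of_bot (L := fun _ => ⊥) fun _ _ => rfl] at e₂
  linear_combination e₂ - e₁
end FT
open FT

variable {Sg : Surf} {p : ℕ} {β₁ β₂ : Sg.V.G} {n₁ n₂ : ℕ} {k₁ k₂ : ℤ} {b : ℕ}

lemma IFam.le' {X : Spc} {β : Sg.V.G} {n : ℕ} {k : ℤ} {I : Pt → XL Sg Sg.F}
    (h : IFam X p β n k I) {x : Pt} (hx : x ∈ X.pts) : LeL (I x) (OX Sg.V.X) :=
  fun J hJ => (h.fam.le x hx J hJ).trans (r1_O k J hJ).le

namespace Uni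
variable {u : Uni Sg p β₁ β₂ n₁ n₂ k₁ k₂ b}

/-- the Euler vector -/
def eul (u : Uni Sg p β₁ β₂ n₁ n₂ k₁ k₂ b) (x : Pt) : (TG u.vars).V := fun v => x v.1
lemma eul_ne {x : Pt} (hx : x ∈ u.F.pts) : u.eul x ≠ 0 := fun h => by
  obtain ⟨v, -, hv⟩ := u.F.rel x hx b (u.B ▸ Finset.mem_singleton_self b)
  exact hv (by_contra fun h' => h' (congrFun h ⟨v, by_contra fun h'' => hv (u.hvars.2 x hx v h'')⟩))
lemma extV_eul {x : Pt} (hx : x ∈ u.F.pts) : extV u.vars (u.eul x) = x := funext fun v => by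
  change (if h : v ∈ u.vars then x v else 0) = x v
  split_ifs with h
  · rfl
  · exact (u.hvars.2 x hx v h).symm
lemma extV_inj (Vs : Finset Var) : Function.Injective (extV Vs) := fun a b h => funext fun v => by
  have := congrFun h v.1
  simpa [extV, v.2] using this
lemma isRV_eul : IsRV u.F (TG u.vars) u.eul := isRV_coord u.vars

/-- the family of triples and the dimension count -/
theorem exists_K (u : Uni Sg p β₁ β₂ n₁ n₂ k₁ k₂ b) :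
    ∃ 𝒩 : Pt → Submodule ℂ (KG u.vars ((r1 Sg k₁).G p) ((r1 Sg k₂).G p)).V, CogA u.F 𝒩 ∧
      Eqv u.F (KG u.vars ((r1 Sg k₁).G p) ((r1 Sg k₂).G p)) 𝒩 ∧ ∀ x (hx : x ∈ u.F.pts),
      (∀ t ∈ ((u.F.Tan x).comap (extV u.vars)).prod ⊤, t ∈ 𝒩 x ↔
        KS u.F (V := (r1 Sg k₁).G p) (fun y => (r1 Sg k₁).pc (u.I₁ y) p) hx (extV _ t.1) t.2.1 ∧
        KS u.F (V := (r1 Sg k₂).G p) (fun y => (r1 Sg k₂).pc (u.I₂ y) p) hx (extV _ t.1) t.2.2) ∧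
      (((u.F.Tan x).comap (extV u.vars)).prod ⊤ ⊓ 𝒩 x).map (LinearMap.fst ℂ _ _) =
        (u.F.Tan x).comap (extV u.vars) ∧
      ((u.F.Tan x).comap (extV u.vars)).prod ⊤ ⊓ 𝒩 x ⊓ LinearMap.ker (LinearMap.fst ℂ _ _) =
        (⊥ : Submodule ℂ _).prod (((r1 Sg k₁).stab (r1 Sg k₁) (u.I₁ x) (u.I₁ x) p).prod
          ((r1 Sg k₂).stab (r1 Sg k₂) (u.I₂ x) (u.I₂ x) p)) ∧
      finrank ℂ (u.F.Tan x) ≤ u.dim ∧ (finrank ℂ (u.F.Tan x) = u.dim →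
        (((u.F.Tan x).comap (extV u.vars)).prod ⊤ ⊓ 𝒩 x).map (LinearMap.snd ℂ _ _) =
          ((r1 Sg k₁).Tv (r1 Sg k₁) (u.I₁ x) (u.I₁ x) p).prod
            ((r1 Sg k₂).Tv (r1 Sg k₂) (u.I₂ x) (u.I₂ x) p) ∧
        ((u.F.Tan x).comap (extV u.vars)).prod ⊤ ⊓ 𝒩 x ⊓ LinearMap.ker (LinearMap.snd ℂ _ _) =
          (Submodule.span ℂ {u.eul x}).prod ⊥ ∧
        finrank ℂ ((r1 Sg k₁).Tv (r1 Sg k₁) (u.I₁ x) (u.I₁ x) p) + 1 =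
          finrank ℂ ((r1 Sg k₁).stab (r1 Sg k₁) (u.I₁ x) (u.I₁ x) p) + Sg.V.hh β₁ 0 + 2 * n₁) := by
  obtain ⟨𝒩, c, e, m⟩ := FT.exists_K (u.f₁.fam.ab p le_rfl) (u.f₂.fam.ab p le_rfl) u.vars
  refine ⟨𝒩, c, e, fun x hx => ?_⟩
  obtain ⟨m1, m2, m3⟩ := m x hx
  have l1 : (((u.F.Tan x).comap (extV u.vars)).prod ⊤ ⊓ 𝒩 x).map (LinearMap.snd ℂ _ _) ≤
      ((r1 Sg k₁).Tv (r1 Sg k₁) (u.I₁ x) (u.I₁ x) p).prod
        ((r1 Sg k₂).Tv (r1 Sg k₂) (u.I₂ x) (u.I₂ x) p) :=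
    Submodule.map_le_iff_le_comap.2 fun t ht =>
      ⟨u.f₁.fam.ks_mem_Tv hx ht.1.1 ((m1 t ht.1).1 ht.2).1,
        u.f₂.fam.ks_mem_Tv hx ht.1.1 ((m1 t ht.1).1 ht.2).2⟩
  have l2 : ((u.F.Tan x).comap (extV u.vars)).prod ⊤ ⊓ 𝒩 x ⊓
      LinearMap.ker (LinearMap.snd ℂ _ _) ≤ (Submodule.span ℂ {u.eul x}).prod ⊥ := by
    rintro ⟨ξ, φ⟩ ⟨⟨h1, h2⟩, h0⟩
    obtain rfl : φ = 0 := h0
    obtain ⟨c, hc⟩ := Submodule.mem_span_singleton.1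
      (u.tan x hx _ h1.1 ((m1 _ h1).1 h2).1 ((m1 _ h1).1 h2).2)
    refine ⟨Submodule.mem_span_singleton.2 ⟨c, extV_inj _ ?_⟩, rfl⟩
    rw [map_smul, extV_eul hx, hc]
  have := count (d := u.dim) (eul_ne hx) m2 m3 l1 l2
    (((u.f₁.ty x hx).finrank_Tv (k := k₁) (u.f₁.le' hx) u.f₁.fam.two
      (u.f₁.fam.reg x hx)).trans_eq (add_assoc _ _ _))
    (((u.f₂.ty x hx).finrank_Tv (k := k₂) (u.f₂.le' hx) u.f₂.fam.two
      (u.f₂.fam.reg x hx)).trans_eq (add_assoc _ _ _)) (by unfold dim; omega)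
  rw [u.hvars.finrank_comap, ← add_assoc] at this
  exact ⟨m1, m2, m3, this⟩

/-- the tangent bound (`tan`, `ks_mem_Tv`, `Ty.finrank_Tv`) -/
theorem finrank_tan_le' (u : Uni Sg p β₁ β₂ n₁ n₂ k₁ k₂ b) {x : Pt} (hx : x ∈ u.F.pts) :
    finrank ℂ (u.F.Tan x) ≤ u.dim := by
  obtain ⟨_, -, -, m⟩ := u.exists_K
  exact (m x hx).2.2.2.1
theorem good_of' (hi : u.F.Irred) (h : ∃ x ∈ u.F.pts, (u.dim : ℕ∞) ≤ u.F.ldim x) : u.Good := by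
  obtain ⟨x, hx, h⟩ := h
  exact ⟨hi, Spc.sm_of fun y hy => ⟨u.finrank_tan_le' hy, h.trans_eq (hi.ldim_eq hx hy)⟩⟩
/-- versality (count dimensions) -/
theorem Good.versal' (h : u.Good) {x : Pt} (hx : x ∈ u.F.pts)
    {φ₁ : ((r1 Sg k₁).EG (r1 Sg k₁) p).V} {φ₂ : ((r1 Sg k₂).EG (r1 Sg k₂) p).V}
    (h₁ : φ₁ ∈ (r1 Sg k₁).Tv (r1 Sg k₁) (u.I₁ x) (u.I₁ x) p)
    (h₂ : φ₂ ∈ (r1 Sg k₂).Tv (r1 Sg k₂) (u.I₂ x) (u.I₂ x) p) : ∃ ξ ∈ u.F.Tan x,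
      KS u.F (V := (r1 Sg k₁).G p) (fun y => (r1 Sg k₁).pc (u.I₁ y) p) hx ξ φ₁ ∧
      KS u.F (V := (r1 Sg k₂).G p) (fun y => (r1 Sg k₂).pc (u.I₂ y) p) hx ξ φ₂ := by
  obtain ⟨_, -, -, m⟩ := u.exists_K
  obtain ⟨m1, -, -, -, m5⟩ := m x hx
  obtain ⟨⟨ξ, φ⟩, ht, e⟩ := (m5 (h.2 x hx).1).1.ge (show (φ₁, φ₂) ∈ _ from ⟨h₁, h₂⟩)
  obtain rfl : φ = (φ₁, φ₂) := e
  exact ⟨_, ht.1.1, (m1 _ ht.1).1 ht.2⟩
theorem Good.finrank_Tv' (h : u.Good) {x : Pt} (hx : x ∈ u.F.pts) :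
    finrank ℂ ((r1 Sg k₁).Tv (r1 Sg k₁) (u.I₁ x) (u.I₁ x) p) + 1 =
      finrank ℂ ((r1 Sg k₁).stab (r1 Sg k₁) (u.I₁ x) (u.I₁ x) p) + Sg.V.hh β₁ 0 + 2 * n₁ := by
  obtain ⟨_, -, -, m⟩ := u.exists_K
  exact ((m x hx).2.2.2.2 (h.2 x hx).1).2.2
theorem Good.isAB_Tv' (h : u.Good) : IsAB u.F ((r1 Sg k₁).EG (r1 Sg k₁) p) fun x =>
    (r1 Sg k₁).Tv (r1 Sg k₁) (u.I₁ x) (u.I₁ x) p := by
  have hd := u.f₁.fam.isAB_den u.f₁.fam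
  have hs := u.f₁.fam.isAB_stab u.f₁.fam
  have hr : IsRM u.F _ _ _ := IsRM.const ((r1 Sg k₁).deg0_res (r1 Sg k₁) p)
  exact isAB_of_rk hs.hin (hd.eqv'.comap hr) (hd.cog.comap hr.reg) hs
    fun x hx => (h.finrank_Tv' hx).trans (add_assoc _ _ _)
/-- the tangent class (the family `{(ξ, φ₁, φ₂) | KS ξ φ₁, KS ξ φ₂}` is a bundle) -/
theorem Good.tcl_eq' (h : u.Good) : u.tcl h = 1 + tvc (r1 Sg k₁) (r1 Sg k₁) u.F p u.I₁ u.I₁ +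
    tvc (r1 Sg k₂) (r1 Sg k₂) u.F p u.I₂ u.I₂ := by
  obtain ⟨𝒩, c, e, m⟩ := u.exists_K
  have m5 := fun x hx => (m x hx).2.2.2.2 (h.2 x hx).1
  exact (Bun.kl_eq_kc _).trans (kc_K (Bun.tan u.F u.vars u.hvars _ h.2).isAB
    (u.f₁.fam.isAB_stab u.f₁.fam) (u.f₂.fam.isAB_stab u.f₂.fam) h.isAB_Tv' h.swap.isAB_Tv' c e
    isRV_eul (fun _ hx => eul_ne hx) (Bun.rk_tan _ _ _ _) (fun x hx => (m x hx).2.1)
    (fun x hx => (m x hx).2.2.1) (fun x hx => (m5 x hx).1) fun x hx => (m5 x hx).2.1)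
end Uni

end Crest.Agent.N265.M
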