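import Crest.Agent.N265.Fx.Ob
import Crest.Agent.N265.Fx.Base
import Crest.Agent.N265.M.FixT
import Crest.Agent.N265.M.FixD
import Crest.Agent.N265.V.Loc
import Crest.Agent.N265.Top.Zero

/-! # Row 265, task M-FIX (helper94): determinant lines, versality, obstruction bundle, level zero -/

set_option autoImplicit false
set_option linter.dupNamespace false
noncomputable section
open MvPolynomial Module TensorProduct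

namespace Crest.Agent.N265.M
open Crest.Agent.R274
open Defs_781 Lat_781 SnapA_99 SnapB_99 SnapE_99 Gen7_750 Xs1_781 SkDefs_474
open Alg GV Br N Fib _root_.Crest.Agent.N265.Pow
variable {Sg : Surf} {X Y : Spc} {p : ℕ} {β β' : Sg.V.G} {n n' : ℕ} {k k' : ℤ}
  {I J : Pt → XL Sg Sg.F}

namespace IFam
theorem isAB_lS (h : IFam X p β n k I) : IsAB X (LG Sg β k) fun x => lS β (I x) :=
  h.isAB_lS'
theorem pull_lcl (h : IFam X p β n k I) (q : Proj Y X) :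
    K.pull q (lcl X β k I) = lcl Y β k fun y => I (restr X.B y) := kc_pull h.isAB_lS q
/-- `l ≤ H⁰(β) ⊗ t^k` -/
theorem nil (h : IFam X p β n k I) :
    (1 - op X (lcl X β k I) * Top.tO X (-k)) ^ Sg.V.hh β 0 = 0 := h.nil'
theorem rk_chiK (h : IFam X p β n k I) (h' : IFam X p β' n' k' J) (hX : 0 ∉ X.B) {x : Pt}
    (hx : x ∈ X.pts) : K.rk hx (chiK (r1 Sg k) (r1 Sg k') X p I J) =
      Sg.V.chi β - Sg.V.chi (β - β') + n' := h.rk_chiK' h' hX hx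
/-- the bundles at the points of `S` and the determinant identity -/
theorem exists_pt (h : IFam X p β n k I) (hX : 0 ∉ X.B) {m : ℕ} (hs : X.Sm m) {w : ℕ → ℤ}
    (hw : X.TTriv w) {r : ℕ} (hr : r + 1 = Uni.rkU Sg p β n) :
    ∃ (U B : Pt → Bun X) (l : Bun X) (hU : ∀ q ∈ (Sg.S 0).pts, (U q).Rk (r + 1))
      (hB : ∀ q ∈ (Sg.S 0).pts, (B q).Rk r), l.Rk 1 ∧ l.Pure w k ∧ l.kl = lcl X β k I ∧
      ∀ q (hq : q ∈ (Sg.S 0).pts), (U q).Pure w k ∧ (B q).Pure w k ∧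
        (U q).kl = K.atPt ((base_S Sg 0).disj hX) (Sg.S_ttriv 0) q hq (Acl (r1 Sg k) X p I) ∧
        (B q).kl = K.atPt ((base_S Sg 0).disj hX) (Sg.S_ttriv 0) q hq (Bcl (r1 Sg k) X p I) ∧
        ((U q).det _ (hU q hq)).kl = l.kl * ((B q).det _ (hB q hq)).kl :=
  h.exists_pt' h.isAB_lS hX hs hw hr
/-- no points: `I|_q = l` -/
theorem bot (h : IFam X p β 0 k I) (hX : 0 ∉ X.B) (q : Pt) (hq : q ∈ (Sg.S 0).pts) :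
    K.atPt ((base_S Sg 0).disj hX) (Sg.S_ttriv 0) q hq (SS (r1 Sg k) X p I) = lcl X β k I :=
  h.bot' h.isAB_lS hX q hq
end IFam

namespace Uni
variable {β₁ β₂ : Sg.V.G} {n₁ n₂ : ℕ} {k₁ k₂ : ℤ} {b : ℕ} {u : Uni Sg p β₁ β₂ n₁ n₂ k₁ k₂ b}
/-- the tangent bound (`tan`, `ks_mem_Tv`, `Ty.finrank_Tv`) -/
theorem finrank_tan_le (u : Uni Sg p β₁ β₂ n₁ n₂ k₁ k₂ b) {x : Pt} (hx : x ∈ u.F.pts) :
    finrank ℂ (u.F.Tan x) ≤ u.dim := u.finrank_tan_le' hx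
theorem good_of (hi : u.F.Irred) (h : ∃ x ∈ u.F.pts, (u.dim : ℕ∞) ≤ u.F.ldim x) : u.Good :=
  good_of' hi h
/-- versality (count dimensions) -/
theorem Good.versal (h : u.Good) {x : Pt} (hx : x ∈ u.F.pts)
    {φ₁ : ((r1 Sg k₁).EG (r1 Sg k₁) p).V} {φ₂ : ((r1 Sg k₂).EG (r1 Sg k₂) p).V}
    (h₁ : φ₁ ∈ (r1 Sg k₁).Tv (r1 Sg k₁) (u.I₁ x) (u.I₁ x) p)
    (h₂ : φ₂ ∈ (r1 Sg k₂).Tv (r1 Sg k₂) (u.I₂ x) (u.I₂ x) p) : ∃ ξ ∈ u.F.Tan x,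
      KS u.F (V := (r1 Sg k₁).G p) (fun y => (r1 Sg k₁).pc (u.I₁ y) p) hx ξ φ₁ ∧
      KS u.F (V := (r1 Sg k₂).G p) (fun y => (r1 Sg k₂).pc (u.I₂ y) p) hx ξ φ₂ :=
  h.versal' hx h₁ h₂
theorem Good.finrank_Tv (h : u.Good) {x : Pt} (hx : x ∈ u.F.pts) :
    finrank ℂ ((r1 Sg k₁).Tv (r1 Sg k₁) (u.I₁ x) (u.I₁ x) p) + 1 =
      finrank ℂ ((r1 Sg k₁).stab (r1 Sg k₁) (u.I₁ x) (u.I₁ x) p) + Sg.V.hh β₁ 0 + 2 * n₁ :=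
  h.finrank_Tv' hx
theorem Good.isAB_Tv (h : u.Good) : IsAB u.F ((r1 Sg k₁).EG (r1 Sg k₁) p) fun x =>
    (r1 Sg k₁).Tv (r1 Sg k₁) (u.I₁ x) (u.I₁ x) p := h.isAB_Tv'
/-- the tangent class (the family `{(ξ, φ₁, φ₂) | KS ξ φ₁, KS ξ φ₂}` is a bundle) -/
theorem Good.tcl_eq (h : u.Good) : u.tcl h = 1 + tvc (r1 Sg k₁) (r1 Sg k₁) u.F p u.I₁ u.I₁ +
    tvc (r1 Sg k₂) (r1 Sg k₂) u.F p u.I₂ u.I₂ := h.tcl_eq'
/-- **the obstruction bundle contains `H¹(β_i) ⊗ l_i^∨`** -/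
theorem Good.ob_split (h : u.Good) : ∃ C : Bun u.F, C.Rk (n₁ + n₂) ∧ u.obK h =
    Sg.V.hh β₁ 1 • (K.dual _ (lcl u.F β₁ k₁ u.I₁) * Top.tK u.F k₁) +
    Sg.V.hh β₂ 1 • (K.dual _ (lcl u.F β₂ k₂ u.I₂) * Top.tK u.F k₂) + C.kl := by
  have hne := Jac.irred_nonempty h.1
  obtain ⟨C₁, r₁, e₁⟩ := u.f₁.ob_one u.nb hne h.isAB_Tv fun _ => h.finrank_Tv
  obtain ⟨C₂, r₂, e₂⟩ := u.f₂.ob_one u.nb hne h.swap.isAB_Tv fun _ => h.swap.finrank_Tv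
  refine ⟨C₁.sum C₂, r₁.sum r₂, ?_⟩
  rw [obK, h.tcl_eq, fixK, kl_sum]
  linear_combination e₁ + e₂
/-- level zero: a graph over `P(H⁰ β₁) × P(H⁰ β₂)` -/
theorem good_zero (u : Uni Sg p β₁ β₂ 0 0 k₁ k₂ b) (h₁ : Ch.HasSec Sg.V β₁)
    (h₂ : Ch.HasSec Sg.V β₂) : u.Good := u.good_zero' h₁ h₂
theorem top_zero (u : Uni Sg p β₁ β₂ 0 0 k₁ k₂ b) (h₁ : Ch.HasSec Sg.V β₁)
    (h₂ : Ch.HasSec Sg.V β₂) : ∃ P : Spc, P.Sub u.F ∧ P.IsPt (fun _ => u.w) ∧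
      ((1 - op _ (lcl u.F β₁ k₁ u.I₁) * Top.tO u.F (-k₁)) ^ (Sg.V.hh β₁ 0 - 1) *
        (1 - op _ (lcl u.F β₂ k₂ u.I₂) * Top.tO u.F (-k₂)) ^ (Sg.V.hh β₂ 0 - 1)) • one u.F =
        incl P u.F (one P) := u.top_zero' h₁ h₂
end Uni

end Crest.Agent.N265.M
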