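import Crest.Agent.N265.M.Ty0
import Crest.Agent.N265.Fib.H1
import Crest.Agent.N265.Fib.P5
import Crest.Agent.N265.Fib.R1
import Crest.Agent.N265.Fx.Hart

/-! # Row 265, task M-FIX-D, part 0 (helper3): the line bundle `O(-β)` and fibrewise facts -/

set_option autoImplicit false
set_option linter.dupNamespace false
noncomputable section
open MvPolynomial Module TensorProduct

namespace Crest.Agent.N265.M.FD
open Crest.Agent.R274
open Defs_781 Lat_781 SnapA_99 SnapB_99 SnapE_99 Gen7_750 Xs1_781 SkDefs_474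
open Alg GV Br N Fib Hm _root_.Crest.Agent.N265.Pow
variable {Sg : Surf} {A A' E β : Sg.V.G} {m m' p : ℕ} {k : ℤ} {I : XL Sg Sg.F} {z : Pt}

lemma mem_SB {f : Sg.F} : f ∈ SB Sg A ↔ ∀ v, f = 0 ∨ 0 ≤ (Sg.V.pl.pl v).ord f + A v :=
  (mem_Sec _).trans (Ch.isSec_iff _)
lemma SB_mul {f g : Sg.F} (hf : f ∈ SB Sg A) (hg : g ∈ SB Sg E) : f * g ∈ SB Sg (A + E) := by
  refine mem_SB.2 fun v => or_iff_not_imp_left.2 fun h => ?_
  have h1 := (mem_SB.1 hf v).resolve_left (left_ne_zero_of_mul h)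
  have h2 := (mem_SB.1 hg v).resolve_left (right_ne_zero_of_mul h)
  rw [(Sg.V.pl.pl v).ord_mul (left_ne_zero_of_mul h) (right_ne_zero_of_mul h), Finsupp.add_apply]
  omega
/-- multiplication of sections -/
def mulB (h : A + E = m • Sg.V.h) : SB Sg A →ₗ[ℂ] SB Sg E →ₗ[ℂ] SA Sg m :=
  LinearMap.mk₂ ℂ (fun f g => ⟨f.1 * g.1, (congrArg (SB Sg) h).le (SB_mul f.2 g.2)⟩)
    (fun _ _ _ => Subtype.ext (add_mul _ _ _)) (fun _ _ _ => Subtype.ext (smul_mul_assoc _ _ _))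
    (fun _ _ _ => Subtype.ext (mul_add _ _ _)) (fun _ _ _ => Subtype.ext (mul_smul_comm _ _ _))
@[simp] lemma mulB_val (h : A + E = m • Sg.V.h) (f : SB Sg A) (g : SB Sg E) :
    (mulB h f g).1 = f.1 * g.1 := rfl
/-- `f ↦ (g ↦ (f g)(z))` -/
def psi (h : A + E = m • Sg.V.h) (z : Pt) : SB Sg A →ₗ[ℂ] Dual ℂ (SB Sg E) :=
  (mulB h).compr₂ (evP Sg 0 m z)
lemma psi_apply (h : A + E = m • Sg.V.h) (z : Pt) (f : SB Sg A) (g : SB Sg E) :
    psi h z f g = evP Sg 0 m z (mulB h f g) := rfl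
lemma isRM_psi (h : A + E = m • Sg.V.h) (d : D) : IsRM (Sg.S 0) ((triv (SB Sg A)).shift d)
    ((triv (Dual ℂ (SB Sg E))).shift (d + m • eB 0)) (psi h) := by
  have H := isRM_evP Sg 0 m
  refine IsRM.mk' (((RegM.const LinearMap.id).homM H.reg).comp (RegM.const (mulB h)))
    fun x hx f => LinearMap.ext fun g => ?_
  change psi h (gpt x) (chi d • f) g = chi (d + m • eB 0) • psi h x f g
  rw [map_smul, LinearMap.smul_apply, chi_add, mul_smul]
  exact congrArg (chi d • ·) (H.eqv_apply hx (mulB h f g))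
lemma psi_swap (h : A + E = m • Sg.V.h) (h' : A' + E = m' • Sg.V.h) (f : SB Sg A) (f' : SB Sg A')
    (g g' : SB Sg E) : psi h z f g * psi h' z f' g' = psi h z f g' * psi h' z f' g := by
  simp only [psi_apply]
  rw [← evP_mul, ← evP_mul]
  exact congrArg _ (Subtype.ext (by simp only [mulA_val, mulB_val]; ring))
/-- all the functionals at one point are proportional -/
lemma psi_mem (h : A + E = m • Sg.V.h) (h' : A' + E = m' • Sg.V.h) {f' : SB Sg A'}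
    (h0 : psi h' z f' ≠ 0) (f : SB Sg A) : psi h z f ∈ Submodule.span ℂ {psi h' z f'} := by
  obtain ⟨g, hg⟩ := DFunLike.ne_iff.1 h0
  refine Submodule.mem_span_singleton.2 ⟨psi h z f g / psi h' z f' g, LinearMap.ext fun g' => ?_⟩
  rw [LinearMap.smul_apply, smul_eq_mul, div_mul_eq_mul_div, psi_swap h h', mul_div_cancel_right₀ _ hg]

/-- a generator of the stalk lifts to a section -/
lemma exists_unit {M : XL Sg Sg.F} {r e : ℤ} (hM : RegL M.toLat r) (he : r ≤ e) (x : Pnt Sg.V.X)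
    {g : Sg.F} (h0 : g ≠ 0) (h1 : g ∈ x.loc M) (h2 : ∀ w ∈ x.loc M, g⁻¹ * w ∈ x.O) :
    ∃ u ∈ Gm M.toLat e, x.val (g⁻¹ * (Sg.V.X.t x.i ^ (-e) * u)) = 1 := by
  obtain ⟨u, hu, h⟩ := fib_surj (fun d hd => hM.gen (he.trans hd)) x h1
  have h3 : ∀ w ∈ x.m • x.loc M, g⁻¹ * w ∈ x.O ∧ x.val (g⁻¹ * w) = 0 := fun w hw => by
    refine mem_m_smul_OX.1 (Submodule.smul_induction_on
      (p := fun w => g⁻¹ * w ∈ x.m • x.loc (OX Sg.V.X)) hw (fun a ha v hv => ?_) fun a b ha hb => ?_)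
    · have := Submodule.smul_mem_smul ha (Pnt.mem_loc_OX.2 (h2 v hv))
      rwa [← mul_smul_comm] at this
    · rw [mul_add]; exact add_mem ha hb
  refine ⟨u, hu, ?_⟩
  have e1 : g⁻¹ * (Sg.V.X.t x.i ^ (-e) * u) = 1 - g⁻¹ * (g - Sg.V.X.t x.i ^ (-e) • u) := by
    rw [mul_sub, inv_mul_cancel₀ h0, smul_eq_mul, sub_sub_cancel]
  rw [e1, Pnt.val_sub (one_mem _) (h3 _ h).1, (h3 _ h).2, Pnt.val_one, sub_zero]

lemma loc_div {f : Sg.F} (hf : f ≠ 0) {x : Pnt Sg.V.X} {w : Sg.F} :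
    w ∈ x.loc (OL Sg.V.T (-(β + Sg.V.div f hf))) ↔ f⁻¹ * w ∈ x.loc (OL Sg.V.T (-β)) := by
  rw [mem_loc_OL, mem_loc_OL]
  refine forall₂_congr fun v _ => ?_
  by_cases h : w = 0
  · simp [h]
  · rw [or_iff_right h, or_iff_right (mul_ne_zero (inv_ne_zero hf) h),
      (Sg.V.pl.pl v).ord_mul (inv_ne_zero hf) h, (Sg.V.pl.pl v).ord_inv hf, Finsupp.neg_apply,
      Finsupp.neg_apply, Finsupp.add_apply, Ch.div_apply]
    omega
lemma Gm_SB (A : Sg.V.G) (p : ℕ) : Gm (OL Sg.V.T A).toLat p = SB Sg (A + p • Sg.V.h) := by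
  rw [Gm_OL, natCast_zsmul]
lemma div_mem {f : Sg.F} {hf : f ≠ 0} (le : LeL I (OL Sg.V.T (-(β + Sg.V.div f hf)))) {u : Sg.F}
    (hu : u ∈ Gm I.toLat p) : f⁻¹ * u ∈ SB Sg (-β + p • Sg.V.h) := by
  rw [← Gm_SB]
  refine mem_Gm_of_loc fun x => ?_
  rw [smul_eq_mul, mul_left_comm]
  exact (loc_div hf).1 (Pnt.loc_mono le (Pnt.Gm_mem_loc hu))
lemma add_tw (β : Sg.V.G) (p j : ℕ) :
    -β + p • Sg.V.h + (β + j • Sg.V.h) = (p + j) • Sg.V.h := by rw [add_nsmul]; abel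

/-- where `I` is invertible the functional does not vanish -/
lemma exists_psi_ne {f : Sg.F} {hf : f ≠ 0} (le : LeL I (OL Sg.V.T (-(β + Sg.V.div f hf))))
    (hr : RegL I.toLat p) {j : ℕ} (hj : RegL (OL Sg.V.T β).toLat j) (hz : z ∈ (Sg.S 0).pts)
    (h : (pnt Sg 0 z hz).loc (OL Sg.V.T (-(β + Sg.V.div f hf))) ≤ (pnt Sg 0 z hz).loc I) :
    ∃ a : SB Sg (-β + p • Sg.V.h), f * a.1 ∈ Gm I.toLat p ∧ psi (add_tw β p j) z a ≠ 0 := by
  obtain ⟨c, hc, he⟩ := evP_pnt hz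
  generalize pnt Sg 0 z hz = x at h he
  obtain ⟨g, g0, hg⟩ := exists_gen_OL x (-β)
  have g1 : g ∈ x.loc (OL Sg.V.T (-β)) := (hg g).2 (by rw [inv_mul_cancel₀ g0]; exact one_mem _)
  have o : ∀ w, w ∈ x.loc (OL Sg.V.T 0) ↔ w ∈ x.O := fun w => by
    rw [Pnt.loc_congr (OL_zero Sg.V.T), Pnt.mem_loc_OX]
  have s : ∀ w, w ∈ x.loc (OL Sg.V.T β) ↔ ∀ v ∈ x.loc (OL Sg.V.T (-β)), w * v ∈ x.O := fun w => by
    have := mem_loc_OL_sub (x := x) (D := -β) (E := 0) (c := w)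
    simpa only [zero_sub, neg_neg, o] using this
  obtain ⟨u, hu, u1⟩ := exists_unit hr le_rfl x (mul_ne_zero hf g0)
    (h ((loc_div hf).2 (by rwa [inv_mul_cancel_left₀ hf]))) fun w hw => by
      rw [mul_inv_rev, mul_assoc]
      exact (hg _).1 ((loc_div hf).1 (Pnt.loc_mono le hw))
  obtain ⟨w, hw, w1⟩ := exists_unit hj le_rfl x (inv_ne_zero g0) ((s _).2 fun v hv => (hg v).1 hv)
    fun w hw => by rw [inv_inv, mul_comm]; exact (s w).1 hw g g1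
  refine ⟨⟨_, div_mem le hu⟩, by rwa [mul_inv_cancel_left₀ hf], fun h0 => ?_⟩
  have h1 := LinearMap.congr_fun h0 ⟨w, (Gm_SB β j).le hw⟩
  rw [psi_apply, he, LinearMap.zero_apply, mul_eq_zero, or_iff_right (pow_ne_zero _ hc)] at h1
  refine Pnt.val_mul_ne (u1.trans_ne one_ne_zero) (w1.trans_ne one_ne_zero) (Eq.trans ?_ h1)
  rw [mulB_val, Nat.cast_add, zp_mul]
  congr 1
  field_simp

/-- a section that vanishes in the fibre is the value of a syzygy -/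
lemma exists_syz (le : LeL I (r1 Sg k).O) (hr : RegL I.toLat p) (hz : z ∈ (Sg.S 0).pts)
    {u : ((r1 Sg k).G p).V} (hu : u ∈ (r1 Sg k).pc I p)
    (h : Sg.V.X.t (pnt Sg 0 z hz).i ^ (-(p : ℤ)) • (u ()).1 ∈
      (pnt Sg 0 z hz).m • (pnt Sg 0 z hz).loc I) :
    u ∈ ((r1 Sg k).KK I p 3).map (evz Sg 0 _ 3 z) := by
  obtain ⟨a, ha⟩ := evP_surj Sg 0 3 hz 1
  have ha' : a.1 ∈ AA Sg.V.X (3 : ℕ) := (AA_nat Sg.V 3).ge a.2
  have h1 : a.1 • (u ()).1 ∈ Gm (mX (pnt Sg 0 z hz) I).toLat ((2 : ℕ) + p + 1) := by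
    rw [show ((2 : ℕ) : ℤ) + p + 1 = (3 : ℕ) + p by omega]
    refine mem_Gm_mX.2 ⟨AA_smul_mem ha' hu, ?_⟩
    rw [smul_eq_mul, smul_eq_mul, zp_mul]
    exact Submodule.smul_mem _ (⟨_, Pnt.AA_mem_O ha'⟩ : (pnt Sg 0 z hz).O) h
  rw [(ng Sg).Gm_mX _ hr (by omega), gen_AA (fun e he => hr.gen he) le_rfl, ← msmul] at h1
  have h2 : (van (pnt Sg 0 z hz) 1 * AA Sg.V.X (2 : ℕ)) • Gm I.toLat p ≤
      (tens ((r1 Sg k).pc I p) (mP Sg 0 3 z)).map (mF ((r1 Sg k).inc p) 3) := by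
    refine Submodule.smul_le.2 fun c hc v hv => ?_
    obtain ⟨c, hc', rfl⟩ := (map_mP hz 3).ge (van_smul_le _ (OX Sg.V.X) 1 (2 : ℕ) hc)
    obtain ⟨v, hv', rfl⟩ := (Amb.map_pc (𝔞 := r1 Sg k) le p).ge hv
    exact ⟨_, tmul_mem hv' hc', rfl⟩
  obtain ⟨s, hs, e⟩ := h2 h1
  refine ⟨u ⊗ₜ a - s, ⟨sub_mem (tmul_mem hu trivial) (tens_mono le_rfl le_top hs), ?_⟩, ?_⟩
  · change mF _ 3 _ = 0
    rw [map_sub, e]
    exact sub_self _
  · rw [map_sub, evT_tmul, ha, one_smul, sub_eq_self]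
    refine tens_ind hs (map_zero _) (fun v _ c hc => ?_) fun _ _ h h' => by rw [map_add, h, h', add_zero]
    rw [evT_tmul, show evP Sg 0 3 z c = 0 from hc, zero_smul]

/-- if one section has a non-zero functional, those with functional zero vanish in the fibre -/
lemma mem_m {j : ℕ} (hz : z ∈ (Sg.S 0).pts) {f : Sg.F} {a₀ a : SB Sg (-β + p • Sg.V.h)}
    (h0 : f * a₀.1 ∈ Gm I.toLat p) (h1 : psi (add_tw β p j) z a₀ ≠ 0)
    (h2 : psi (add_tw β p j) z a = 0) : Sg.V.X.t (pnt Sg 0 z hz).i ^ (-(p : ℤ)) • (f * a.1) ∈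
      (pnt Sg 0 z hz).m • (pnt Sg 0 z hz).loc I := by
  obtain ⟨c, hc, he⟩ := evP_pnt hz
  generalize pnt Sg 0 z hz = x at he
  obtain ⟨g, hg⟩ := DFunLike.ne_iff.1 h1
  have h3 := LinearMap.congr_fun h2 g
  rw [psi_apply, he, LinearMap.zero_apply] at hg h3
  have h4 := right_ne_zero_of_mul hg
  have h5 := (mul_eq_zero.1 h3).resolve_left (pow_ne_zero _ hc)
  have h6 := Pnt.AA_mem_O (x := x) ((AA_nat Sg.V _).ge (mulB (add_tw β p j) a g).2)
  have h7 := Pnt.mem_m_smul (mul_mem h6 (Pnt.inv_mem h4))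
    (by rw [Pnt.val_mul h6 (Pnt.inv_mem h4), h5, zero_mul]) (Pnt.Gm_mem_loc (x := x) h0)
  have h8 := Pnt.ne_of_val h4
  rw [mulB_val, mul_ne_zero_iff, mul_ne_zero_iff] at h8
  obtain ⟨h8, h9, h10⟩ := h8
  convert h7 using 1
  simp only [mulB_val, smul_eq_mul]
  field_simp

/-- a pair of finite colength differs at finitely many points -/
lemma finite_supp {N M : XL Sg Sg.F} (h : FC N M) :
    ∃ T : Finset (Pnt Sg.V.X), (len N M = 0 → T = ∅) ∧ ∀ y ∉ T, y.loc M ≤ y.loc N := by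
  classical
  generalize hl : len N M = l
  induction l generalizing M with
  | zero => exact ⟨∅, fun _ => rfl, fun y _ => (Pnt.loc_congr (h.eqv_of_len hl)).ge⟩
  | succ l ih =>
    obtain ⟨x, M', h1, h2, h3⟩ := h.exists_top hl
    obtain ⟨T, -, hT⟩ := ih h2 h3
    exact ⟨insert x T, fun e => by omega, fun y hy =>
      (h1.off y fun e => hy (e ▸ Finset.mem_insert_self _ _)).trans
        (hT y fun e => hy (Finset.mem_insert_of_mem e))⟩

/-- closed subsets of `X × S` that are finite over `X` have codimension two -/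
lemma codim {X Z : Spc} (hX : 0 ∉ X.B) (hZ : Z.Sub (X.fib (Sg.S 0))) {n : ℕ} (hs : X.Sm n)
    (hf : ∀ x ∈ X.pts, ∃ T : Finset (Pnt Sg.V.X), ∀ y (hy : y ∈ Z.pts), restr X.B y = x →
      pnt Sg 0 (restr {0} y) (hZ.2 hy).2.1 ∈ T) {y : Pt} (hy : y ∈ Z.pts) :
    Z.ldim y + 2 ≤ (n + 3 : ℕ) := by
  classical
  have q := hZ.proj.trans (Spc.fib_fst X (Sg.S 0))
  obtain ⟨T, hT⟩ := hf _ (q.map y hy)
  have H : ∀ t : Pnt Sg.V.X, t ≠ pnt Sg 0 (restr {0} y) (hZ.2 hy).2.1 → ∃ r : R, eval y r ≠ 0 ∧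
      ∀ w (hw : w ∈ Z.pts), pnt Sg 0 (restr {0} w) (hZ.2 hw).2.1 = t → eval w r = 0 := fun t ht => by
    obtain ⟨l, h1, h2⟩ := SetLike.not_le_iff_exists.1 fun e => ht ((ng Sg).eq_of_van e).symm
    have hl : l ∈ SA Sg 1 := (AA_nat Sg.V 1).le (van_le _ _ h1)
    obtain ⟨r, hr, -, e⟩ := Sg.exists_hmg 0 hl
    have key : ∀ w (hw : w ∈ Z.pts), eval w (kill {0} r) = 0 ↔
        l ∈ van (pnt Sg 0 (restr {0} w) (hZ.2 hw).2.1) 1 := fun w hw => by
      rw [eval_kill, ← evS_spec Sg 0 ⟨l, hl⟩ hr e ⟨restr {0} w, (hZ.2 hw).2.1⟩, ← mem_mP]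
      exact mem_mP_iff
    exact ⟨_, fun e => h2 ((key y hy).1 e), fun w hw e => (key w hw).2 (e ▸ h1)⟩
  choose! r hr hr' using H
  have h := Spc.ldim_le_of_isolated q hy
    (g := ∏ t ∈ T.erase (pnt Sg 0 (restr {0} y) (hZ.2 hy).2.1), r t)
    (by rw [map_prod]; exact Finset.prod_ne_zero_iff.2 fun t ht => hr t (Finset.ne_of_mem_erase ht))
    fun w hw e h0 => by
      have : pnt Sg 0 (restr {0} y) (hZ.2 hy).2.1 = pnt Sg 0 (restr {0} w) (hZ.2 hw).2.1 := by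
        by_contra hne
        rw [map_prod] at h0
        exact h0 (Finset.prod_eq_zero (Finset.mem_erase.2 ⟨Ne.symm hne, hT w hw e⟩)
          (hr' _ (Ne.symm hne) w hw rfl))
      obtain ⟨c, -, hc⟩ := pnt_eq_iff.1 this
      refine ⟨fun b => if b = 0 then c else 1, fun v => ?_⟩
      by_cases hv : v.1 = 0
      · simpa [restr, hv] using congrFun hc v
      by_cases hv' : v.1 ∈ X.B
      · simpa [restr, hv, hv'] using congrFun e v
      · have : v.1 ∉ Z.B := fun h => (Finset.mem_union.1 (hZ.1.le h)).elim hv'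
          fun h => hv (Finset.mem_singleton.1 h)
        simp [Sp.eq_zero_of_notMem hw this, Sp.eq_zero_of_notMem hy this]
  have e : (Z.B \ X.B).card = 1 := by
    rw [hZ.1]
    change ((X.B ∪ {0}) \ X.B).card = 1
    rw [Finset.union_sdiff_cancel_left (Finset.disjoint_singleton_right.2 hX), Finset.card_singleton]
  rw [(hs _ (q.map y hy)).2, e] at h
  refine (add_le_add_left h 2).trans_eq ?_
  push_cast
  rw [add_assoc]
  norm_num

end Crest.Agent.N265.M.FD
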