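import Crest.Agent.N265.M.Ty0
import Crest.Agent.N265.Fib.P4

/-!
# Row 265: multiplications `g I ≤ O(E)`; effective divisors of degree zero
-/

set_option autoImplicit false
set_option linter.dupNamespace false
noncomputable section
open MvPolynomial Module TensorProduct Filter

namespace Crest.Agent.N265.M
open Crest.Agent.R274
open Defs_781 Lat_781 SnapA_99 SnapB_99 SnapE_99 Gen7_750 Xs1_781 SkDefs_474
open Alg GV Br N Fib _root_.Crest.Agent.N265.Pow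

section surf
variable {F : Type} [Field F] [Algebra ℂ F] {S : SmV ℂ F 2}
lemma mem_Sec_div {D : S.G} {g : F} (hg : g ≠ 0) {x : F} :
    x ∈ Sec S.T (D + S.div g hg) ↔ g * x ∈ Sec S.T D := by
  rw [mem_Sec, mem_Sec]
  exact forall₂_congr fun I hI => Ch.mem_O_div D hg hI x
lemma mem_Gm_OL_div {D : S.G} {g : F} (hg : g ≠ 0) {e : ℤ} {x : F} :
    x ∈ Gm (OL S.T (D + S.div g hg)).toLat e ↔ g * x ∈ Gm (OL S.T D).toLat e := by
  rw [Gm_OL, Gm_OL, add_right_comm, mem_Sec_div]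
lemma Sec_mul {D E : S.G} {a b : F} (ha : a ∈ Sec S.T D) (hb : b ∈ Sec S.T E) :
    a * b ∈ Sec S.T (D + E) := by
  rw [mem_Sec, Ch.isSec_iff] at ha hb ⊢
  intro v
  by_cases h : a * b = 0
  · exact Or.inl h
  obtain ⟨h1, h2⟩ := mul_ne_zero_iff.1 h
  have h3 := (ha v).resolve_left h1
  have h4 := (hb v).resolve_left h2
  have h5 := DFunLike.congr_fun (div_mul' (S := S) h1 h2) v
  rw [Finsupp.add_apply, Ch.div_apply, Ch.div_apply, Ch.div_apply] at h5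
  rw [h5, Finsupp.add_apply]
  exact Or.inr (by omega)
/-- a function that maps the generating piece of `I` into `O(E)` maps the hull of `I` into `O(E)` -/
lemma le_of_mul {I : XLat S.X F} {D E : S.G} (h : FC I (OL S.T D)) {p : ℤ} (hr : RegL I.toLat p)
    {g : F} (hg : g ≠ 0) (hm : ∀ u ∈ Gm I.toLat p, g * u ∈ Gm (OL S.T E).toLat p) (v : S.P) :
    D v ≤ (E + S.div g hg) v :=
  le_of_FC h (eqv_of_Gm hr le_rfl fun u hu => (mem_Gm_OL_div hg).2 (hm u hu)) v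
/-- functions without poles are constant -/
lemma const_of_div {g : F} (hg : g ≠ 0) (h : ∀ v, 0 ≤ S.div g hg v) : ∃ c : ℂ, g = c • (1 : F) := by
  obtain ⟨c, hc⟩ := Ch.const_of_sec (V := S) (x := g) (by
    rw [mem_Sec, Ch.isSec_iff]
    intro v
    exact Or.inr (by simpa [Ch.div_apply] using h v))
  exact ⟨c, by rw [← hc, Algebra.algebraMap_eq_smul_one]⟩
lemma reg2_OX : Gen10_750.Reg2 (OX S.X).toLat := by
  have h1 : FC (OX S.X) (Hul2_750.hXLat (OX S.X)) :=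
    ⟨Hul2_750.le_hXLat _, Hul2_750.suppLT_hull _⟩
  have h2 := (h1.le_OL (D := 0) (OL_zero S.T).symm.le).trans (OL_zero S.T).le
  intro I i hi y h3 h4
  exact h2 I ⟨i, hi⟩ (Hul1_750.reg2_hLat (OX S.X).toLat I i hi y (h1.le I ⟨i, hi⟩ h3)
    (h1.le I ⟨i, hi⟩ h4))
/-- `χ` is bounded on the multiples of a class of degree zero -/
lemma chi_bdd {x : S.G} (hx : Ch.dg S x = 0) : ∃ B : ℤ, ∀ m : ℕ, S.chi (m • x) ≤ B := by
  refine Hod2_750.chi_bdd (Hod1_750.gT_eq S.X) S.hyp reg2_OX ?_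
  rw [Gen10_750.inter_gen2 (Hod1_750.gT_eq S.X) S.hyp reg2_OX [x] rfl,
    Snap_413.inter_perm _ (List.Perm.swap x S.h [])]
  exact hx
lemma chi_le_add {Δ : S.G} (h : S.Eff Δ) (h0 : Ch.dg S Δ = 0) (D : S.G) :
    S.chi D ≤ S.chi (D + Δ) := by
  obtain ⟨e0, he0⟩ := Ch.chi_eq_h0 S D
  obtain ⟨e1, he1⟩ := Ch.chi_eq_h0 S (D + Δ)
  have h1 := he0 (max e0 e1) (le_max_left _ _)
  have h2 := he1 (max e0 e1) (le_max_right _ _)
  have h3 := Ch.h0_le (D + max e0 e1 • S.h) (Ch.hasSec_of_eff h)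
  rw [add_right_comm] at h3
  rw [Ch.chi_twn] at h1 h2
  rw [Ch.dg_add, h0, add_zero] at h2
  omega
/-- **an effective divisor of degree zero is zero** -/
theorem eq_zero_of_dg {Δ : S.G} (h : S.Eff Δ) (h0 : Ch.dg S Δ = 0) : Δ = 0 := by
  obtain ⟨B, hB⟩ := chi_bdd h0
  have h1 : ∀ m : ℕ, 0 ≤ S.chi Δ - S.chi 0 + m * Ch.ip S Δ Δ := fun m => by
    have := chi_le_add h h0 (m • Δ)
    rw [Ch.chi_add, Ch.ip_nsmul_left] at this
    omega
  have h2 : 0 ≤ Ch.ip S Δ Δ := by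
    by_contra! hc
    have := h1 ((S.chi Δ - S.chi 0).natAbs + 1)
    have h3 : ((S.chi Δ - S.chi 0).natAbs + 1 : ℕ) * Ch.ip S Δ Δ ≤
        ((S.chi Δ - S.chi 0).natAbs + 1 : ℕ) * (-1 : ℤ) :=
      mul_le_mul_of_nonneg_left (by omega) (Int.natCast_nonneg _)
    omega
  have h3 : S.chi Δ ≤ S.chi 0 := by
    by_contra! hc
    have h4 := hB ((B - S.chi 0).natAbs + 1)
    have h5 := Ch.chi_nsmul S Δ ((B - S.chi 0).natAbs + 1)
    generalize hm : (((B - S.chi 0).natAbs + 1 : ℕ) : ℤ) = m at h5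
    have h6 : 0 ≤ m * (m - 1) * Ch.ip S Δ Δ := mul_nonneg (mul_nonneg (by omega) (by omega)) h2
    have h7 : m * 1 ≤ m * (S.chi Δ - S.chi 0) := mul_le_mul_of_nonneg_left (by omega) (by omega)
    have h8 : B - S.chi 0 < m := by omega
    linarith
  refine (eq_of_OL_eqv (eqv_of_cL (N := OL S.T 0) (M := OL S.T Δ) (OL_le_iff.2 h)
    (Eventually.of_forall fun e => ?_))).symm
  rw [cL_OL, cL_OL, Ch.chi_tw, h0, zero_add]
  omega
end surf

variable {Sg : Surf} {I : XL Sg Sg.F} {β : Sg.V.G} {p n : ℕ} {k : ℤ}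
lemma mem_pc1 {u : ((r1 Sg k).G p).V} : u ∈ (r1 Sg k).pc I p ↔ (u ()).1 ∈ Gm I.toLat p := Iff.rfl
lemma exists_pc1 (le : LeL I (OX Sg.V.X)) {f : Sg.F} (hf : f ∈ Gm I.toLat p) :
    ∃ u ∈ (r1 Sg k).pc I p, (u ()).1 = f :=
  ⟨fun _ => ⟨f, (SA_eq p).ge (Gm_mono le p hf)⟩, hf, rfl⟩
lemma Ty.exists_ne (h : Ty I β n) (le : LeL I (OX Sg.V.X)) (hr : RegL I.toLat p) :
    ∃ u ∈ (r1 Sg k).pc I p, (u ()).1 ≠ 0 := by
  by_contra! hc
  have h1 := h.rkU_pos le hr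
  have h2 : (r1 Sg k).pc I p = ⊥ := eq_bot_iff.2 fun u hu => by
    rw [Submodule.mem_bot]
    funext i
    exact Subtype.ext (hc u hu)
  rw [← h.finrank_pc (k := k) le hr, h2, finrank_bot] at h1
  omega
/-- `s⁻¹ Γ(I(p)) ≤ Γ(O(-β)(p))` -/
lemma inv_mul_mem {s : Sg.F} {hs : s ≠ 0} (h : LeL I (OL Sg.V.T (-(β + Sg.V.div s hs)))) {e : ℤ}
    {f : Sg.F} (hf : f ∈ Gm I.toLat e) : s⁻¹ * f ∈ Gm (OL Sg.V.T (-β)).toLat e := by
  rw [← mem_Gm_OL_div (inv_ne_zero hs), div_inv' hs, ← neg_add]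
  exact Gm_mono h e hf
/-- a map `θ : U → F` with `θ(u) u' = θ(u') u` is a multiplication -/
lemma exists_mul_of_comm {U : Submodule ℂ ((r1 Sg k).G p).V} {θ : ((r1 Sg k).G p).V → Sg.F}
    (h : ∀ u ∈ U, ∀ u' ∈ U, θ u * (u' ()).1 = θ u' * (u ()).1) {u₀ : ((r1 Sg k).G p).V}
    (h0 : u₀ ∈ U) (hne : (u₀ ()).1 ≠ 0) : ∃ g : Sg.F, ∀ u ∈ U, θ u = g * (u ()).1 :=
  ⟨θ u₀ / (u₀ ()).1, fun u hu => by rw [div_mul_eq_mul_div, ← h u hu u₀ h0, mul_div_cancel_right₀ _ hne]⟩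

end Crest.Agent.N265.M
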