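import Crest.Agent.N265.N.Dim3
import Crest.Agent.N265.N.NestK

/-! # Row 265, tasks M-DIM (helper83) and M-NEST (helper92): one more point -/

set_option autoImplicit false
set_option linter.dupNamespace false
noncomputable section

namespace Crest.Agent.N265.M
open Br
variable {Sg : Surf} {p : ℕ} {β₁ β₂ : Sg.V.G} {n₁ n₂ : ℕ} {k₁ k₂ : ℤ} {b b' : ℕ}

/-- **dimension induction** -/
theorem Uni.Good.step {u : Uni Sg p β₁ β₂ n₁ n₂ k₁ k₂ b} (h : u.Good)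
    (u' : Uni Sg p β₁ β₂ (n₁ + 1) n₂ k₁ k₂ b') (hb : b ≠ b') : u'.Good :=
  N.Dim.good_step h u' hb

/-- **the nested spaces** -/
theorem exists_nest (Sg : Surf) (p : ℕ) : ∃ v : Pt → K (Sg.S 0),
    (∀ q (hq : q ∈ (Sg.S 0).pts), v q • one (Sg.S 0) = Top.ptc _ (Sg.S_ttriv 0) q hq) ∧
    ∀ {β₁ β₂ : Sg.V.G} {n₁ n₂ : ℕ} {k₁ k₂ : ℤ} {b b' N : ℕ}
      {u : Uni Sg p β₁ β₂ n₁ n₂ k₁ k₂ b} {u' : Uni Sg p β₁ β₂ (n₁ + 1) n₂ k₁ k₂ b'}
      {h : u.Good} {h' : u'.Good} (d : u.PData h N) (d' : u'.PData h' N), b ≠ b' →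
      ∀ q ∈ (Sg.S 0).pts, Top.HasNestK d.piece d'.piece q (v q) := N.exists_nest Sg p

end Crest.Agent.N265.M
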