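import Crest.Agent.N265.Fib.H6

/-! # Row 265, task M-TV (helper42): syzygy bundles and `χ(L, O'/L')` in families -/

set_option autoImplicit false
set_option linter.dupNamespace false
noncomputable section
open MvPolynomial Module TensorProduct

namespace Crest.Agent.N265.M
open Crest.Agent.R274
open Defs_781 Lat_781 SnapA_99 SnapB_99 SnapE_99 Gen7_750 Xs1_781 SkDefs_474
open Alg GV Br N Fib _root_.Crest.Agent.N265.Pow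
variable {Sg : Surf} {𝔞 𝔟 : Amb Sg} {X Y : Spc} {p : ℕ} {L : Pt → XL Sg 𝔞.M}
  {L' : Pt → XL Sg 𝔟.M}

namespace LFam
theorem syzF (h : LFam 𝔞 X p L) {b : ℕ} (hb : b ∉ X.B) {r : ℕ}
    (hr : ∀ x ∈ X.pts, finrank ℂ (𝔞.pc (L x) p) = r + Fintype.card 𝔞.ι) :
    SyzF Sg b X (𝔞.G p) (fun k x => 𝔞.KK (L x) p k) 2 r := Hx.syzF h hb hr
theorem exists_rk' (h : LFam 𝔞 X p L) :
    ∃ r, ∀ x ∈ X.pts, finrank ℂ (𝔞.pc (L x) p) = r + Fintype.card 𝔞.ι := h.exists_rk''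
theorem pull_Bcl (h : LFam 𝔞 X p L) (hX : 0 ∉ X.B) (q : Proj Y X) (hY : 0 ∉ Y.B) :
    K.pull (q.fib_map _) (Bcl 𝔞 X p L) = Bcl 𝔞 Y p fun y => L (restr X.B y) := by
  obtain ⟨r, hr⟩ := h.exists_rk'
  exact pull_Bcl' (h.syzF hX hr) q hY
theorem pull_SS (h : LFam 𝔞 X p L) (hX : 0 ∉ X.B) (q : Proj Y X) (hY : 0 ∉ Y.B) :
    K.pull (q.fib_map _) (SS 𝔞 X p L) = SS 𝔞 Y p fun y => L (restr X.B y) := by
  rw [SS, SS, map_sub, h.pull_Acl q, h.pull_Bcl hX q hY]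
theorem pull_chiK (h : LFam 𝔞 X p L) (h' : LFam 𝔟 X p L') (hX : 0 ∉ X.B) (q : Proj Y X)
    (hY : 0 ∉ Y.B) : K.pull q (chiK 𝔞 𝔟 X p L L') =
      chiK 𝔞 𝔟 Y p (fun y => L (restr X.B y)) fun y => L' (restr X.B y) :=
  pull_chiK' hX q hY (h.pull_SS hX q hY) (h'.pull_SS hX q hY)
theorem piK_SS (h : LFam 𝔞 X p L) (hX : 0 ∉ X.B) {j : ℕ} (hj : p ≤ j) :
    piK X (Sg.S 0) 0 (lbK _ (j • eB 0) * SS 𝔞 X p L) = ucl 𝔞 X L j := by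
  have := Hx.piK_Qc h hX hj
  rw [Hx.Qc, ← Hx.SS_eq, mul_sub, map_sub, ← 𝔞.pull_V (Spc.fib_fst X _), Hx.piK_pl hX, 𝔞.kc_G,
    mul_comm, natCast_zsmul] at this
  exact sub_right_injective this
theorem isAB_Hb (h : LFam 𝔞 X p L) (h' : LFam 𝔟 X p L') :
    IsAB X (𝔞.HG 𝔟 p) fun x => 𝔞.Hb 𝔟 (L x) (L' x) p :=
  (Hx.isAB_Hn h h' X.B.exists_notMem.choose_spec (n := 3 + p) (by omega)).congr
    fun _ _ => Hx.Hb_eq.symm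
/-- **`χ(L, O'/L') = Hom(A, O'/L') - Hom(B, O'/L')`** -/
theorem chiK_eq (h : LFam 𝔞 X p L) (h' : LFam 𝔟 X p L') (hX : 0 ∉ X.B) :
    chiK 𝔞 𝔟 X p L L' = hmc 𝔞 𝔟 X p L L' - hbc 𝔞 𝔟 X p L L' := by
  have h1 : hbc 𝔞 𝔟 X p L L' = _ := (congrArg (· - _) (kc_congr fun _ _ => Hx.Hb_eq)).trans
    (Hx.kq_Hn h h' hX (n := 3 + p) (by omega))
  have h2 : hmc 𝔞 𝔟 X p L L' = _ := kq_hom_top (h.ab p le_rfl) (h'.ab p le_rfl)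
  rw [h1, h2, ← ucl, ← ucl, ← Hx.piK_Qc h' hX le_rfl, ← piK_mul (base_S Sg 0) hX, Hx.Hc, ← map_sub,
    chiK, Hx.SS_eq (L := L), Hx.SS_eq, ← Hx.Qc]
  congr 1
  rw [map_mul, map_sub, map_mul, K.dual_lbK, K.dual_lbK, neg_neg, neg_neg, K.pull_dual,
    natCast_zsmul, natCast_zsmul, add_smul, lbK_add]
  ring
/-- honest bundles -/
theorem exists_AB (h : LFam 𝔞 X p L) (hX : 0 ∉ X.B) {r : ℕ}
    (hr : ∀ x ∈ X.pts, finrank ℂ (𝔞.pc (L x) p) = r + Fintype.card 𝔞.ι) :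
    ∃ A B : Bun (X.fib (Sg.S 0)), A.kl = Acl 𝔞 X p L ∧ B.kl = Bcl 𝔞 X p L ∧
      A.Rk (r + Fintype.card 𝔞.ι) ∧ B.Rk r := h.exists_AB' (h.syzF hX hr) hr
end LFam

section split
variable {I₁ I₂ : Pt → XL Sg Sg.F}
theorem Bcl_pair (h₁ : LFam (r1 Sg 0) X p I₁) (h₂ : LFam (r1 Sg 1) X p I₂) (hX : 0 ∉ X.B) :
    Bcl (r2 Sg) X p (fun x => piX ![I₁ x, I₂ x]) = Bcl (r1 Sg 0) X p I₁ + Bcl (r1 Sg 1) X p I₂ := by
  obtain ⟨r₁, e₁⟩ := h₁.exists_rk'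
  obtain ⟨r₂, e₂⟩ := h₂.exists_rk'
  exact Bcl_pair' (h₁.syzF hX e₁) (h₂.syzF hX e₂)
theorem SS_pair (h₁ : LFam (r1 Sg 0) X p I₁) (h₂ : LFam (r1 Sg 1) X p I₂) (hX : 0 ∉ X.B) :
    SS (r2 Sg) X p (fun x => piX ![I₁ x, I₂ x]) = SS (r1 Sg 0) X p I₁ + SS (r1 Sg 1) X p I₂ := by
  rw [SS, SS, SS, Acl_pair h₁ h₂, Bcl_pair h₁ h₂ hX]; ring
theorem chiK_pair (h₁ : LFam (r1 Sg 0) X p I₁) (h₂ : LFam (r1 Sg 1) X p I₂) (hX : 0 ∉ X.B) :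
    chiK (r2 Sg) (r2 Sg) X p (fun x => piX ![I₁ x, I₂ x]) (fun x => piX ![I₁ x, I₂ x]) =
      (chiK (r1 Sg 0) (r1 Sg 0) X p I₁ I₁ + chiK (r1 Sg 1) (r1 Sg 1) X p I₂ I₂) +
      (chiK (r1 Sg 0) (r1 Sg 1) X p I₁ I₂ + chiK (r1 Sg 1) (r1 Sg 0) X p I₂ I₁) := by
  simp only [chiK]
  rw [SS_pair h₁ h₂ hX, r1_V, r1_V, r2_V, map_add (K.dual _), ← map_add (piK X (Sg.S 0) 0),
    ← map_add (piK X (Sg.S 0) 0), ← map_add (piK X (Sg.S 0) 0)]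
  congr 1; ring
end split

section pure
variable {k k' : ℤ} {I J : Pt → XL Sg Sg.F} {w : ℕ → ℤ}
theorem pure_ucl (h : LFam (r1 Sg k) X p I) (hw : X.TTriv w) {j : ℕ} (hj : p ≤ j) :
    K.Pure hw k (ucl (r1 Sg k) X I j) := pure_ucl' h hw hj
theorem pure_dcl (h : LFam (r1 Sg k) X p I) (hw : X.TTriv w) (r : ℕ) :
    K.Pure hw (r * k) (dcl (r1 Sg k) X p I r) := pure_dcl' h hw r
/-- honest pure bundles for the two terms of `chiK` -/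
theorem exists_hm_hb (h : LFam (r1 Sg k) X p I) (h' : LFam (r1 Sg k') X p J) (hw : X.TTriv w) :
    ∃ A B : Bun X, A.Pure w (k' - k) ∧ B.Pure w (k' - k) ∧
      A.kl = hmc (r1 Sg k) (r1 Sg k') X p I J ∧ B.kl = hbc (r1 Sg k) (r1 Sg k') X p I J :=
  exists_hm_hb' h h' hw (h.isAB_Hb h')
end pure

end Crest.Agent.N265.M
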